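import Vale.Agent.P167.FKA.All

/-!
# P167, general `q`, crossings: clusters which do not touch the frozen squares

`kf x r R D ω b e` is the number of the clusters of colour `b` (parity `e` of the sites) of the domain
`D` which cross the annulus and which do not touch a frozen square (square of the box outside of `D`)
of the colour `b`. Under the random-cluster measure of `D` with any boundary condition it has a
geometric tail with a small ratio.
-/

namespace Vale.Agent.P167.QC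

open Finset Filter Topology MeasureTheory Vale.Agent.P167.FK Vale.Agent.P167.FKA
open Vale.Agent.P145.FB (PStep PConn step_of_corners)
open Vale.Agent.P167.H166 (cl CC CC_finite PStep_mono rtg_mono cl_eq cl_parity bxx mem_bxx)
open Vale.Agent.P167.H259 (f_markov f_fkg f_comp f_comp2)
open Relation

/-- The squares of `D` of the colour `b`. -/
def Opb (D : Finset (ℤ × ℤ)) (ω : Cfg) (b : Bool) : Set (ℤ × ℤ) := {v | v ∈ D ∧ ω v = b}

/-- The sites of parity `e` which are joined to a corner of a square of `B` outside of `D` of the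
colour `b`. -/
def KF (B D : Finset (ℤ × ℤ)) (ω : Cfg) (b : Bool) (e : ℤ) : Set (ℤ × ℤ) :=
  {t | ∃ s v, v ∈ B ∧ v ∉ D ∧ ω v = b ∧ Cor v s ∧ (s.1 + s.2) % 2 = e ∧ t ∈ cl (Opb D ω b) s}

/-- The number of the crossing clusters which do not touch the frozen squares. -/
noncomputable def kf (x : ℤ × ℤ) (r R : ℤ) (D : Finset (ℤ × ℤ)) (ω : Cfg) (b : Bool) (e : ℤ) : ℕ :=
  (CC x r R e (Opb (rest D (KF (bxx x R) D ω b e)) ω b)).ncard

theorem kf_true {x : ℤ × ℤ} {r R : ℤ} {D : Finset (ℤ × ℤ)} {ω : Cfg} :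
    kf x r R D ω true 0 = kc x r R (rest D (KF (bxx x R) D ω true 0)) ω := rfl

theorem rest_anti {D : Finset (ℤ × ℤ)} {K K' : Set (ℤ × ℤ)} (h : K ⊆ K') : rest D K' ⊆ rest D K := by
  intro v hv
  rw [mem_rest] at hv ⊢
  exact ⟨hv.1, fun u hu => hv.2 u (h hu)⟩

/-- The exploration of the frozen clusters reads only the squares which touch them. -/
theorem KF_congr {B D : Finset (ℤ × ℤ)} {ω ω' : Cfg}
    (h : ∀ v, v ∉ rest D (KF B D ω true 0) → ω v = ω' v) :
    KF B D ω' true 0 = KF B D ω true 0 := by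
  have hfr : ∀ v, v ∉ D → ω v = ω' v := fun v hv => h v fun h2 => hv (mem_rest.1 h2).1
  have hcl : ∀ s v, v ∈ B → v ∉ D → ω v = true → Cor v s → (s.1 + s.2) % 2 = 0 →
      cl (Opb D ω' true) s = cl (Opb D ω true) s := by
    intro s v h1 h2 h3 h4 h5
    refine cl_congr (D := D) (s := s) (ω := ω) (ω' := ω') fun w hw => h w fun h6 => hw ?_
    refine rest_anti ?_ h6
    intro t ht
    exact ⟨s, v, h1, h2, h3, h4, h5, ht⟩
  ext t
  constructor
  · rintro ⟨s, v, h1, h2, h3, h4, h5, h6⟩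
    rw [← hfr v h2] at h3
    rw [hcl s v h1 h2 h3 h4 h5] at h6
    exact ⟨s, v, h1, h2, h3, h4, h5, h6⟩
  · rintro ⟨s, v, h1, h2, h3, h4, h5, h6⟩
    rw [← hcl s v h1 h2 h3 h4 h5] at h6
    rw [hfr v h2] at h3
    exact ⟨s, v, h1, h2, h3, h4, h5, h6⟩

theorem ind_KF {B D : Finset (ℤ × ℤ)} (K : Set (ℤ × ℤ)) :
    Ind (rest D K) ({ω | KF B D ω true 0 = K}.indicator 1) := by
  intro ω ω' h
  have key : ∀ ω ω' : Cfg, (∀ v, v ∉ rest D K → ω v = ω' v) → KF B D ω true 0 = K →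
      KF B D ω' true 0 = K := by
    intro ω ω' h h1
    have := KF_congr (B := B) (D := D) (ω := ω) (ω' := ω') (by rw [h1]; exact h)
    rw [this, h1]
  by_cases h1 : KF B D ω true 0 = K
  · have h2 := key ω ω' h h1
    rw [Set.indicator_of_mem (show ω ∈ {ω | KF B D ω true 0 = K} from h1),
      Set.indicator_of_mem (show ω' ∈ {ω | KF B D ω true 0 = K} from h2)]
    rfl
  · have h2 : ¬ KF B D ω' true 0 = K := fun h2 => h1 (key ω' ω (fun v hv => (h v hv).symm) h2)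
    rw [Set.indicator_of_notMem (show ω ∉ {ω | KF B D ω true 0 = K} from h1),
      Set.indicator_of_notMem (show ω' ∉ {ω | KF B D ω true 0 = K} from h2)]

/-- After the exploration of the frozen clusters the rest is separated. -/
theorem sep_KF (B D : Finset (ℤ × ℤ)) (ω : Cfg) :
    Sep (B : Set (ℤ × ℤ)) (rest D (KF B D ω true 0)) ω := by
  intro v hv hv' hvo a ha u hue hc hca
  rw [mem_rest] at ha
  rw [Int.even_iff] at hue
  by_cases hvD : v ∈ D
  · rw [mem_rest] at hv'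
    push Not at hv'
    obtain ⟨w, ⟨s, v', h1, h2, h3, h4, h5, h6⟩, hcw⟩ := hv' hvD
    refine ha.2 u ⟨s, v', h1, h2, h3, h4, h5, ?_⟩ hca
    by_cases hne : w = u
    · exact hne ▸ h6
    · have hwe : Even (w.1 + w.2) := cl_even (by rw [Int.even_iff]; exact h5) h6
      exact ReflTransGen.tail h6 (step_of_cor (show v ∈ Opb D ω true from ⟨hvD, hvo⟩) hcw hc hwe
        (by rw [Int.even_iff]; exact hue) hne)
  · exact ha.2 u ⟨u, v, Finset.mem_coe.1 hv, hvD, hvo, hc, hue, ReflTransGen.refl⟩ hca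

/-- **Exponential moment of the number of the fresh crossing clusters.** -/
theorem kf_exp {Q : ℝ} (hQ : 1 ≤ Q) {x : ℤ × ℤ} {r R : ℤ} (hrR : r + 2 < R) {a y β : ℝ}
    (hy : 1 ≤ y) (hya : y * a < 1) (hβ : β * (1 - y * a) = y - 1)
    (hA : Pr Q (bxx x R) eta1 {ω | 1 ≤ kc x r R (bxx x R) ω} ≤ a) {D : Finset (ℤ × ℤ)}
    (hD : D ⊆ bxx x R) {η : Cfg} (hη : Good η) :
    Ex Q D η (fun ω => y ^ kf x r R D ω true 0) ≤ 1 + β * a := by
  classical
  have hQ0 : 0 < Q := by linarith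
  have hβ0 : 0 ≤ β := by
    by_contra h
    push Not at h
    nlinarith
  have hA' : ∀ (D : Finset (ℤ × ℤ)) (η : Cfg), (D : Set (ℤ × ℤ)) ⊆ (bxx x R : Finset (ℤ × ℤ)) →
      Good η → Sep (bxx x R : Finset (ℤ × ℤ)) D η →
      Pr Q D η {ω | 1 ≤ kc x r R D ω} ≤ a := by
    intro D η hD hη hsep
    exact (pr_wired hQ f_markov f_good (Finset.coe_subset.1 hD) hη hsep).trans hA
  set k : Cfg → Set (ℤ × ℤ) := fun ω => KF (bxx x R) D ω true 0 with hk
  have e1 : (1 : ℝ) + β * a = Ex Q D η (fun _ => 1 + β * a) := (Ex_const hQ0 _).symm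
  rw [e1, Ex_split (α := Set (ℤ × ℤ)) k (fun ω => y ^ kf x r R D ω true 0),
    Ex_split (α := Set (ℤ × ℤ)) k (fun _ => 1 + β * a)]
  refine Finset.sum_le_sum fun K _ => ?_
  set D' := rest D K with hD'
  have hsub : D' ⊆ D := fun v hv => (mem_rest.1 hv).1
  set I : Cfg → ℝ := {ω | k ω = K}.indicator 1 with hI
  have hInd : Ind D' I := ind_KF K
  have hI0 : ∀ ω, 0 ≤ I ω := ind_nonneg _
  have hIz : ∀ ω, k ω ≠ K → I ω = 0 := fun ω h =>
    Set.indicator_of_notMem (show ω ∉ {ω | k ω = K} from h) _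
  have h1 : Ex Q D η (fun ω => I ω * y ^ kf x r R D ω true 0) =
      Ex Q D η (fun ω => I ω * y ^ kc x r R D' ω) := by
    refine Ex_congr fun S _ => ?_
    by_cases h : k (cf D η S) = K
    · have h2 : KF (bxx x R) D (cf D η S) true 0 = K := h
      rw [kf_true, h2]
    · rw [hIz _ h, zero_mul, zero_mul]
  rw [h1, markov f_markov hQ0 hsub hη hInd]
  refine Ex_mono hQ0 fun S hS => ?_
  by_cases h : k (cf D η S) = K
  · refine mul_le_mul_of_nonneg_left ?_ (hI0 _)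
    have hgood := f_good.1 D η S hη
    have hDB' : (D' : Set (ℤ × ℤ)) ⊆ (bxx x R : Finset (ℤ × ℤ)) :=
      Finset.coe_subset.2 (hsub.trans hD)
    have hsep' : Sep (bxx x R : Finset (ℤ × ℤ)) D' (cf D η S) := by
      have h2 := sep_KF (bxx x R) D (cf D η S)
      have h3 : KF (bxx x R) D (cf D η S) true 0 = K := h
      rw [h3] at h2
      exact h2
    have h4 := kc_exp hQ0 f_markov f_good hrR hy hya hβ hA' _ D' (cf D η S) le_rfl hDB' hgood hsep'
    have h5 := mul_le_mul_of_nonneg_left (hA' D' _ hDB' hgood hsep') hβ0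
    linarith
  · rw [hIz _ h]
    simp

/-- Tail of the number of the fresh crossing clusters. -/
theorem kf_tail {Q : ℝ} (hQ : 1 ≤ Q) {x : ℤ × ℤ} {r R : ℤ} (hrR : r + 2 < R) {a : ℝ} (ha : 0 < a)
    (ha2 : 2 * a ≤ 1) (hA : Pr Q (bxx x R) eta1 {ω | 1 ≤ kc x r R (bxx x R) ω} ≤ a)
    {D : Finset (ℤ × ℤ)} (hD : D ⊆ bxx x R) {η : Cfg} (hη : Good η) (j : ℕ) :
    Pr Q D η {ω | j ≤ kf x r R D ω true 0} ≤ 2 * (2 * a) ^ j := by
  have hQ0 : 0 < Q := by linarith
  have hy : 1 ≤ 1 / (2 * a) := by rw [le_div_iff₀ (by positivity)]; linarith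
  have hya : 1 / (2 * a) * a = 1 / 2 := by field_simp
  have h := kf_exp hQ hrR (a := a) (y := 1 / (2 * a)) (β := 2 * (1 / (2 * a) - 1)) hy
    (by rw [hya]; norm_num) (by rw [hya]; ring) hA hD hη
  have h2 : 1 + 2 * (1 / (2 * a) - 1) * a ≤ 2 := by
    have : 2 * (1 / (2 * a) - 1) * a = 2 * (1 / (2 * a) * a) - 2 * a := by ring
    rw [this, hya]
    linarith
  have h3 : Pr Q D η {ω | j ≤ kf x r R D ω true 0} ≤
      Ex Q D η (fun ω => (2 * a) ^ j * (1 / (2 * a)) ^ kf x r R D ω true 0) := by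
    refine Ex_mono hQ0 fun S _ => ?_
    by_cases h4 : j ≤ kf x r R D (cf D η S) true 0
    · rw [Set.indicator_of_mem (show cf D η S ∈ {ω | j ≤ kf x r R D ω true 0} from h4)]
      have h5 : (1 / (2 * a)) ^ j ≤ (1 / (2 * a)) ^ kf x r R D (cf D η S) true 0 :=
        pow_le_pow_right₀ hy h4
      have h6 : (2 * a) ^ j * (1 / (2 * a)) ^ j = 1 := by
        rw [← mul_pow, mul_one_div_cancel (by positivity), one_pow]
      rw [Pi.one_apply]
      calc (1 : ℝ) = (2 * a) ^ j * (1 / (2 * a)) ^ j := h6.symm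
        _ ≤ _ := mul_le_mul_of_nonneg_left h5 (by positivity)
    · rw [Set.indicator_of_notMem (show cf D η S ∉ {ω | j ≤ kf x r R D ω true 0} from h4)]
      positivity
  rw [Ex_mul_left] at h3
  refine h3.trans ?_
  rw [mul_comm (2 : ℝ) ((2 * a) ^ j)]
  exact mul_le_mul_of_nonneg_left (h.trans h2) (by positivity)

/-! ### Duality -/

theorem cor_sh {v s : ℤ × ℤ} : Cor (FKA.sh v) (FKA.sh s) ↔ Cor v s := by
  simp only [Cor, FKA.sh]
  omega

theorem cor_shi {v s : ℤ × ℤ} : Cor (shi v) (shi s) ↔ Cor v s := by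
  simp only [Cor, shi]
  omega

theorem mem_image_sh {D : Finset (ℤ × ℤ)} {v : ℤ × ℤ} : v ∈ D.image FKA.sh ↔ shi v ∈ D := by
  rw [Finset.mem_image]
  constructor
  · rintro ⟨w, hw, rfl⟩
    rw [shi_sh]
    exact hw
  · intro h
    exact ⟨_, h, sh_shi v⟩

theorem du_true {ω : Cfg} {v : ℤ × ℤ} : du ω v = true ↔ ω (shi v) = false := by
  simp [du, shi]

theorem opb_sh {D : Finset (ℤ × ℤ)} {ω : Cfg} :
    (∀ v ∈ Opb D ω false, FKA.sh v ∈ Opb (D.image FKA.sh) (du ω) true) ∧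
      ∀ v ∈ Opb (D.image FKA.sh) (du ω) true, shi v ∈ Opb D ω false := by
  constructor
  · rintro v ⟨h1, h2⟩
    refine ⟨by rw [mem_image_sh, shi_sh]; exact h1, ?_⟩
    rw [du_true, shi_sh]
    exact h2
  · rintro v ⟨h1, h2⟩
    exact ⟨mem_image_sh.1 h1, du_true.1 h2⟩

theorem KF_sh {x : ℤ × ℤ} {R : ℤ} {D : Finset (ℤ × ℤ)} {ω : Cfg} :
    KF (bxx (FKA.sh x) R) (D.image FKA.sh) (du ω) true 0 = FKA.sh '' KF (bxx x R) D ω false 1 := by
  have hcl : ∀ s, cl (Opb (D.image FKA.sh) (du ω) true) (FKA.sh s) = FKA.sh '' cl (Opb D ω false) s :=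
    fun s => cl_sh opb_sh.1 opb_sh.2 s
  ext t
  constructor
  · rintro ⟨s, v, h1, h2, h3, h4, h5, h6⟩
    have h7 := hcl (shi s)
    rw [sh_shi] at h7
    rw [h7] at h6
    obtain ⟨t', h8, rfl⟩ := h6
    refine ⟨t', ⟨shi s, shi v, mem_bxx_sh.1 h1, fun h => h2 (mem_image_sh.2 h), du_true.1 h3,
      cor_shi.2 h4, ?_, h8⟩, rfl⟩
    simp only [shi]
    omega
  · rintro ⟨t', ⟨s, v, h1, h2, h3, h4, h5, h6⟩, rfl⟩
    refine ⟨FKA.sh s, FKA.sh v, ?_, ?_, ?_, cor_sh.2 h4, ?_, ?_⟩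
    · rw [mem_bxx_sh, shi_sh]; exact h1
    · rw [mem_image_sh, shi_sh]; exact h2
    · rw [du_true, shi_sh]; exact h3
    · simp only [FKA.sh]
      omega
    · rw [hcl s]
      exact Set.mem_image_of_mem _ h6

theorem rest_sh {D : Finset (ℤ × ℤ)} {K : Set (ℤ × ℤ)} :
    rest (D.image FKA.sh) (FKA.sh '' K) = (rest D K).image FKA.sh := by
  ext v
  rw [mem_rest, mem_image_sh, mem_image_sh, mem_rest]
  constructor
  · rintro ⟨h1, h2⟩
    refine ⟨h1, fun u hu hc => h2 (FKA.sh u) (Set.mem_image_of_mem _ hu) ?_⟩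
    rw [← cor_shi, shi_sh]
    exact hc
  · rintro ⟨h1, h2⟩
    refine ⟨h1, ?_⟩
    rintro _ ⟨u, hu, rfl⟩ hc
    refine h2 u hu ?_
    rw [← cor_shi, shi_sh] at hc
    exact hc

theorem kf_sh {x : ℤ × ℤ} {r R : ℤ} {D : Finset (ℤ × ℤ)} {ω : Cfg} :
    kf x r R D ω false 1 = kf (FKA.sh x) r R (D.image FKA.sh) (du ω) true 0 := by
  unfold kf
  rw [KF_sh, rest_sh, CC_sh (F := Opb (rest D (KF (bxx x R) D ω false 1)) ω false) opb_sh.1 opb_sh.2,
    Set.ncard_image_of_injective _ sh_inj.image_injective]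

theorem image_sub_bxx {x : ℤ × ℤ} {R : ℤ} {D : Finset (ℤ × ℤ)} (hD : D ⊆ bxx x R) :
    D.image FKA.sh ⊆ bxx (FKA.sh x) R := by
  intro v hv
  rw [mem_bxx_sh]
  exact hD (mem_image_sh.1 hv)

/-- Tail of the number of the fresh crossing dual clusters. -/
theorem kf_tail' {Q : ℝ} (hQ : 1 ≤ Q) {x : ℤ × ℤ} {r R : ℤ} (hrR : r + 2 < R) {a : ℝ} (ha : 0 < a)
    (ha2 : 2 * a ≤ 1)
    (hA : Pr Q (bxx (FKA.sh x) R) eta1 {ω | 1 ≤ kc (FKA.sh x) r R (bxx (FKA.sh x) R) ω} ≤ a)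
    {D : Finset (ℤ × ℤ)} (hD : D ⊆ bxx x R) {η : Cfg} (hη : Good η) (j : ℕ) :
    Pr Q D η {ω | j ≤ kf x r R D ω false 1} ≤ 2 * (2 * a) ^ j := by
  have hQ0 : 0 < Q := by linarith
  have h := kf_tail hQ hrR ha ha2 hA (image_sub_bxx hD) (f_dual.1 η hη) j
  have h2 := f_dual.2 Q D η ({ω | j ≤ kf (FKA.sh x) r R (D.image FKA.sh) ω true 0}.indicator 1) hQ0 hη
  have h3 : Pr Q D η {ω | j ≤ kf x r R D ω false 1} =
      Pr Q (D.image FKA.sh) (du η) {ω | j ≤ kf (FKA.sh x) r R (D.image FKA.sh) ω true 0} := by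
    refine Eq.trans ?_ h2.symm
    refine Ex_congr fun S _ => ?_
    have h4 := kf_sh (x := x) (r := r) (R := R) (D := D) (ω := cf D η S)
    by_cases h5 : j ≤ kf x r R D (cf D η S) false 1
    · rw [Set.indicator_of_mem (show cf D η S ∈ {ω | j ≤ kf x r R D ω false 1} from h5),
        Set.indicator_of_mem]
      · rfl
      · show j ≤ kf (FKA.sh x) r R (D.image FKA.sh) (du (cf D η S)) true 0
        rw [← h4]
        exact h5
    · rw [Set.indicator_of_notMem (show cf D η S ∉ {ω | j ≤ kf x r R D ω false 1} from h5),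
        Set.indicator_of_notMem]
      show ¬ j ≤ kf (FKA.sh x) r R (D.image FKA.sh) (du (cf D η S)) true 0
      rw [← h4]
      exact h5
  rw [h3]
  exact h

/-! ### The probability of a crossing of the wired box -/

/-- Decay of the crossing probability of the wired box. -/
theorem cross_wired {Q : ℝ} (hQ : 1 ≤ Q) (h : RSW Q) : ∃ α C : ℝ, 0 < α ∧ 0 < C ∧
    ∀ (x : ℤ × ℤ) (r R : ℤ), 1 ≤ r → r + 2 < R →
      Pr Q (bxx x R) eta1 {ω | 1 ≤ kc x r R (bxx x R) ω} ≤ C * ((r : ℝ) / R) ^ α := by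
  have hQ0 : 0 < Q := by linarith
  obtain ⟨α, C, hα, hC, hdec, -⟩ := arm_fk hQ h
  refine ⟨α, C * 4 ^ α, hα, by positivity, fun x r R hr hrR => ?_⟩
  have hr' : (1 : ℝ) ≤ r := by exact_mod_cast hr
  have hR' : (r : ℝ) + 3 ≤ R := by exact_mod_cast (by omega : r + 3 ≤ R)
  have h1 := hdec x (r + 1) (R - 1) (bxx x R) eta1 (fun _ => 1) (by omega) (by omega) f_good.2.2
    (Finset.sdiff_subset.trans (sub_bxx x R)) (fun _ => zero_le_one) (fun _ _ _ => rfl)
  rw [Ex_const hQ0] at h1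
  simp only [one_mul, mul_one] at h1
  refine (Pr_mono hQ0 fun ω hω => arm_of_kc hrR hω).trans (h1.trans ?_)
  have hrR0 : (0 : ℝ) ≤ (r : ℝ) / R := div_nonneg (by linarith) (by linarith)
  rw [mul_assoc, ← Real.mul_rpow (by norm_num) hrR0]
  refine mul_le_mul_of_nonneg_left (Real.rpow_le_rpow ?_ ?_ hα.le) hC.le
  · push_cast
    apply div_nonneg <;> linarith
  · push_cast
    rw [← mul_div_assoc, div_le_div_iff₀ (by linarith) (by linarith)]
    nlinarith

/-- **Master lemma.** The number of the fresh crossing clusters of each colour has a geometric tail,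
whose ratio is small if the annulus is thick, uniformly in the domain and in the boundary
condition. -/
theorem fresh_tail {Q : ℝ} (hQ : 1 ≤ Q) (h : RSW Q) : ∃ α C : ℝ, 0 < α ∧ 0 < C ∧
    ∀ (x : ℤ × ℤ) (r R : ℤ), 1 ≤ r → r + 2 < R → C * ((r : ℝ) / R) ^ α ≤ 1 →
    ∀ (D : Finset (ℤ × ℤ)) (η : Cfg), Good η → ∀ j : ℕ,
      Pr Q D η {ω | j ≤ kf x r R (D ∩ bxx x R) ω true 0} ≤ 2 * (C * ((r : ℝ) / R) ^ α) ^ j ∧
      Pr Q D η {ω | j ≤ kf x r R (D ∩ bxx x R) ω false 1} ≤ 2 * (C * ((r : ℝ) / R) ^ α) ^ j := by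
  have hQ0 : 0 < Q := by linarith
  obtain ⟨α, C, hα, hC, hw⟩ := cross_wired hQ h
  refine ⟨α, 2 * C, hα, by positivity, fun x r R hr hrR hsm D η hη j => ?_⟩
  have hr' : (1 : ℝ) ≤ r := by exact_mod_cast hr
  have hR' : (r : ℝ) + 3 ≤ R := by exact_mod_cast (by omega : r + 3 ≤ R)
  have ha : 0 < C * ((r : ℝ) / R) ^ α := by
    have : 0 < (r : ℝ) / R := div_pos (by linarith) (by linarith)
    positivity
  rw [mul_assoc] at hsm ⊢
  have key : ∀ A : Set Cfg, (∀ ζ, Good ζ → Pr Q (D ∩ bxx x R) ζ A ≤ 2 * (2 * (C * ((r : ℝ) / R) ^ α)) ^ j) →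
      Pr Q D η A ≤ 2 * (2 * (C * ((r : ℝ) / R) ^ α)) ^ j := by
    intro A hA
    unfold Pr
    rw [f_markov Q (D ∩ bxx x R) D η _ hQ0 Finset.inter_subset_left hη,
      ← Ex_const (Q := Q) (D := D) (η := η) hQ0 (2 * (2 * (C * ((r : ℝ) / R) ^ α)) ^ j)]
    exact Ex_mono hQ0 fun S _ => hA _ (f_good.1 D η S hη)
  exact ⟨key _ fun ζ hζ => kf_tail hQ hrR ha hsm (hw x r R hr hrR) Finset.inter_subset_right hζ j,
    key _ fun ζ hζ => kf_tail' hQ hrR ha hsm (hw (FKA.sh x) r R hr hrR) Finset.inter_subset_right hζ j⟩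

end Vale.Agent.P167.QC
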