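import Vale.Agent.P167.H161.Exc
import Vale.Agent.P167.QC.Sep

/-!
# P167, general `q`, crossings: excursions give fresh crossing clusters (deterministic part)
-/

namespace Vale.Agent.P167.QC

open Finset
open Vale.Agent.P145.FB (PStep)
open Vale.Agent.P167.H166 Vale.Agent.P167.H161
open Vale.Agent.P167.FKA (Cor rest mem_rest)
open Relation

/-- The parity of the sites of the colour `b`. -/
def par (b : Bool) : ℤ := if b then 0 else 1

/-- The side of the colour `b` of an edge of the interface. -/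
def sd (b : Bool) (e : Ed) : ℤ × ℤ := if b then ls e else rs e

theorem par_true : par true = 0 := rfl

theorem par_false : par false = 1 := rfl

theorem sd_par (b : Bool) (e : Ed) : ((sd b e).1 + (sd b e).2) % 2 = par b := by
  obtain ⟨c1, c2, c3, c4, c5, c6⟩ := corner e
  cases b
  · exact c6
  · exact c5

theorem sd_cor (b : Bool) (e : Ed) : Cor (hdv e) (sd b e) := by
  obtain ⟨c1, c2, c3, c4, c5, c6⟩ := corner e
  cases b
  · exact ⟨c3, c4⟩
  · exact ⟨c1, c2⟩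

/-- A step of the interface. -/
theorem sd_step (b : Bool) (ω : Cfg) (e : Ed) :
    (ω (hdv e) = b → PStep {hdv e} (sd b e) (sd b (nx ω e))) ∧
      (ω (hdv e) ≠ b → sd b (nx ω e) = sd b e) := by
  cases b
  · refine ⟨fun h => ((nx_step ω e).2 h).2, fun h => ((nx_step ω e).1 ?_).2⟩
    simpa using h
  · refine ⟨fun h => ((nx_step ω e).1 h).1, fun h => ((nx_step ω e).2 ?_).1⟩
    simpa using h

theorem cor_even {v s : ℤ × ℤ} (h : Cor v s) (he : (s.1 + s.2) % 2 = 0) :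
    s = FK.pa v ∨ s = FK.pb v := by
  obtain ⟨a, b⟩ := v
  obtain ⟨c, d⟩ := s
  by_cases h' : Even (a + b) <;> simp only [FK.pa, FK.pb, h', if_true, if_false, Prod.mk.injEq] <;>
    rw [Int.even_iff] at h' <;> simp only [Cor] at h he <;> omega

theorem cor_odd {v s : ℤ × ℤ} (h : Cor v s) (he : (s.1 + s.2) % 2 = 1) :
    s = FK.da v ∨ s = FK.db v := by
  obtain ⟨a, b⟩ := v
  obtain ⟨c, d⟩ := s
  by_cases h' : Even (a + b) <;> simp only [FK.da, FK.db, h', if_true, if_false, Prod.mk.injEq] <;>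
    rw [Int.even_iff] at h' <;> simp only [Cor] at h he <;> omega

/-- All the corners of the colour `b` of a square of the colour `b` are joined. -/
theorem conn_cor {x : ℤ × ℤ} {R : ℤ} {ω : Cfg} {b : Bool} {v s : ℤ × ℤ} (hv : v ∈ FK.Bq x R)
    (hb : ω v = b) (hc : Cor v s) (hp : (s.1 + s.2) % 2 = par b) :
    Conn x R ω s (H161.cor b v) := by
  cases b
  · have h1 : BStep x R ω (FK.da v) (FK.db v) :=
      ⟨by rw [min_dab]; exact hv, Or.inr ⟨odd_da _, FK.dstep_ab hb⟩⟩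
    rcases cor_odd hc hp with h | h
    · rw [h]
      exact ReflTransGen.refl
    · rw [h]
      refine ReflTransGen.single ⟨?_, Or.inr ⟨?_, h1.2.elim (fun h => ?_) fun h => h.2.symm⟩⟩
      · have := h1.1
        rwa [min_comm (FK.db v).1, min_comm (FK.db v).2]
      · rw [← h, Int.odd_iff]; exact hp
      · exact absurd h.1 (by have := odd_da v; rw [Int.even_iff, Int.odd_iff] at *; omega)
  · have h1 : BStep x R ω (FK.pa v) (FK.pb v) :=
      ⟨by rw [min_ab]; exact hv, Or.inl ⟨even_pa _, FK.step_ab hb⟩⟩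
    rcases cor_even hc hp with h | h
    · rw [h]
      exact ReflTransGen.refl
    · rw [h]
      refine ReflTransGen.single ⟨?_, Or.inl ⟨?_, h1.2.elim (fun h => h.2.symm) fun h => ?_⟩⟩
      · have := h1.1
        rwa [min_comm (FK.pb v).1, min_comm (FK.pb v).2]
      · rw [← h, Int.even_iff]; exact hp
      · exact absurd h.1 (by have := even_pa v; rw [Int.even_iff, Int.odd_iff] at *; omega)

theorem bstep_of {x : ℤ × ℤ} {R : ℤ} {ω : Cfg} {b : Bool} {s t : ℤ × ℤ}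
    (h : PStep {v | v ∈ FK.Bq x R ∧ ω v = b} s t) (hp : (s.1 + s.2) % 2 = par b) :
    BStep x R ω s t := by
  refine ⟨h.2.2.1, ?_⟩
  cases b
  · refine Or.inr ⟨by rw [Int.odd_iff]; exact hp, h.1, h.2.1, ?_⟩
    show ¬ ω _ = true
    rw [h.2.2.2]
    simp
  · exact Or.inl ⟨by rw [Int.even_iff]; exact hp, h.1, h.2.1, h.2.2.2⟩

theorem conn_of {x : ℤ × ℤ} {R : ℤ} {ω : Cfg} {b : Bool} {F : Set (ℤ × ℤ)}
    (hF : ∀ v ∈ F, v ∈ FK.Bq x R ∧ ω v = b) {s t : ℤ × ℤ} (h : ReflTransGen (PStep F) s t)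
    (hp : (s.1 + s.2) % 2 = par b) : Conn x R ω s t := by
  induction h with
  | refl => exact ReflTransGen.refl
  | @tail u v hsu huv ih =>
    refine ih.tail (bstep_of (b := b) ⟨huv.1, huv.2.1, hF _ huv.2.2⟩ ?_)
    have := cl_parity (show u ∈ cl F s from hsu)
    omega

theorem mem_Bq_of_le {x : ℤ × ℤ} {R R' : ℤ} (hR : R' < R) {v : ℤ × ℤ} (h : nm (v - x) ≤ R') :
    v ∈ FK.Bq x R := mem_Bq_of_nm (R' := R) le_rfl (lt_of_le_of_lt h hR)

/-- **Many labels give many fresh crossing clusters.** -/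
theorem labels_le (b : Bool) {x : ℤ × ℤ} {r R' R : ℤ} (hR : R' < R) {ω : Cfg}
    {D : Finset (ℤ × ℤ)} {ι : Type*} [Fintype ι] (e : ι → Ed) (N : ι → ℕ)
    (h1 : ∀ i, nm (hdv (e i) - x) ≤ r) (hN1 : ∀ i, R' ≤ nm (hdv ((nx ω)^[N i] (e i)) - x))
    (hN2 : ∀ i, ∀ m < N i, nm (hdv ((nx ω)^[m] (e i)) - x) < R') {κ : Type*} [DecidableEq κ]
    (lab : ℤ × ℤ → κ) (hconn : ∀ {s t : ℤ × ℤ}, Conn x R ω s t → lab s = lab t) (Bd : Finset κ)
    (H1 : ∀ i, ∀ m < N i, hdv ((nx ω)^[m] (e i)) ∉ D → ω (hdv ((nx ω)^[m] (e i))) = b →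
      lab (H161.cor b (hdv ((nx ω)^[m] (e i)))) ∈ Bd)
    (H2 : ∀ s v v' : ℤ × ℤ, v' ∉ D → nm (v' - x) ≤ R' → ω v' = b → Cor v' s →
      (s.1 + s.2) % 2 = par b → v ∈ D → Cor v s → lab s ∈ Bd) :
    ((univ.image (fun i => lab (sd b (e i)))) \ Bd).card ≤
      kf x r R' (D ∩ bxx x R') ω b (par b) := by
  classical
  set F : Set (ℤ × ℤ) := Opb (rest (D ∩ bxx x R') (KF (bxx x R') (D ∩ bxx x R') ω b (par b))) ω b
    with hF
  have hFB : ∀ v ∈ F, v ∈ FK.Bq x R ∧ ω v = b := by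
    rintro v ⟨hv1, hv2⟩
    have h2 := (mem_rest.1 hv1).1
    rw [Finset.mem_inter, mem_bxx] at h2
    exact ⟨mem_Bq_of_le hR h2.2, hv2⟩
  have hOB : ∀ v ∈ Opb (D ∩ bxx x R') ω b, v ∈ FK.Bq x R ∧ ω v = b := by
    rintro v ⟨hv1, hv2⟩
    rw [Finset.mem_inter, mem_bxx] at hv1
    exact ⟨mem_Bq_of_le hR hv1.2, hv2⟩
  -- the labels of the sides are constant
  have hlabs : ∀ i m, m ≤ N i → lab (sd b ((nx ω)^[m] (e i))) = lab (sd b (e i)) := by
    intro i m
    induction m with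
    | zero => intro _; rfl
    | succ m ih =>
      intro hm
      rw [← ih (by omega), Function.iterate_succ_apply']
      by_cases hb : ω (hdv ((nx ω)^[m] (e i))) = b
      · have h3 := (sd_step b ω ((nx ω)^[m] (e i))).1 hb
        refine (hconn (ReflTransGen.single (bstep_of (b := b) (PStep_mono ?_ h3) (sd_par _ _)))).symm
        rw [Set.singleton_subset_iff]
        exact ⟨mem_Bq_of_le hR (hN2 i m (by omega)).le, hb⟩
      · rw [(sd_step b ω ((nx ω)^[m] (e i))).2 hb]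
  -- the visited squares are fresh
  have hfresh : ∀ i m, m < N i → lab (sd b (e i)) ∉ Bd → ω (hdv ((nx ω)^[m] (e i))) = b →
      hdv ((nx ω)^[m] (e i)) ∈ F := by
    intro i m hm hg hb
    have hnm := hN2 i m hm
    have hlab : lab (H161.cor b (hdv ((nx ω)^[m] (e i)))) = lab (sd b (e i)) := by
      rw [← hlabs i m hm.le]
      exact (hconn (conn_cor (mem_Bq_of_le hR hnm.le) hb (sd_cor b _) (sd_par b _))).symm
    have hD : hdv ((nx ω)^[m] (e i)) ∈ D := by
      by_contra hD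
      have := H1 i m hm hD hb
      rw [hlab] at this
      exact hg this
    refine ⟨mem_rest.2 ⟨Finset.mem_inter.2 ⟨hD, mem_bxx.2 hnm.le⟩, ?_⟩, hb⟩
    rintro t ⟨s, v', g1, g2, g3, g4, g5, g6⟩ hct
    have g6' : ReflTransGen (PStep (Opb (D ∩ bxx x R') ω b)) s t := g6
    -- `s` is a corner of a square of `D`
    obtain ⟨v, hv, hcv⟩ : ∃ v ∈ D, Cor v s := by
      rcases ReflTransGen.cases_head g6' with h4 | ⟨u, h4, -⟩
      · exact ⟨_, hD, by rw [h4]; exact hct⟩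
      · exact ⟨_, (Finset.mem_inter.1 h4.2.2.1).1, (FKA.cor_of_step h4).1⟩
    have hv' : v' ∉ D := fun h => g2 (Finset.mem_inter.2 ⟨h, g1⟩)
    have h5 := H2 s v v' hv' (mem_bxx.1 g1) g3 g4 g5 hv hcv
    have h6 : lab s = lab t := hconn (conn_of (b := b) hOB g6' g5)
    have htp : (t.1 + t.2) % 2 = par b := by
      have := cl_parity g6
      omega
    have h7 : lab t = lab (H161.cor b (hdv ((nx ω)^[m] (e i)))) :=
      hconn (conn_cor (mem_Bq_of_le hR hnm.le) hb hct htp)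
    rw [h6, h7, hlab] at h5
    exact hg h5
  have hpath : ∀ i, lab (sd b (e i)) ∉ Bd → ∀ m, m ≤ N i →
      ReflTransGen (PStep F) (sd b (e i)) (sd b ((nx ω)^[m] (e i))) := by
    intro i hg m
    induction m with
    | zero => intro _; exact ReflTransGen.refl
    | succ m ih =>
      intro hm
      have h3 := ih (by omega)
      rw [Function.iterate_succ_apply']
      by_cases hb : ω (hdv ((nx ω)^[m] (e i))) = b
      · refine h3.tail (PStep_mono ?_ ((sd_step b ω _).1 hb))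
        rw [Set.singleton_subset_iff]
        exact hfresh i m (by omega) hg hb
      · rw [(sd_step b ω _).2 hb]
        exact h3
  have hfar : ∀ s v : ℤ × ℤ, Cor v s →
      (nm (v - x) ≤ r → nm (s - x) ≤ r + 1) ∧ (R' ≤ nm (v - x) → R' - 1 ≤ nm (s - x)) := by
    intro s v hs
    simp only [Cor] at hs
    constructor
    · intro hv
      simp only [nm, Prod.fst_sub, Prod.snd_sub, max_le_iff, abs_le] at hv ⊢
      omega
    · intro hv
      simp only [nm, Prod.fst_sub, Prod.snd_sub, le_max_iff, le_abs] at hv ⊢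
      omega
  -- the clusters
  have hmem : ∀ i, lab (sd b (e i)) ∉ Bd → cl F (sd b (e i)) ∈ CC x r R' (par b) F := by
    intro i hg
    refine ⟨sd b (e i), sd_par b _, (hfar _ _ (sd_cor b _)).1 (h1 i), rfl,
      sd b ((nx ω)^[N i] (e i)), hpath i hg _ le_rfl, (hfar _ _ (sd_cor b _)).2 (hN1 i)⟩
  set V : Finset κ := (univ.image (fun i => lab (sd b (e i)))) \ Bd with hV
  have hpre : ∀ l ∈ V, ∃ i, lab (sd b (e i)) = l := by
    intro l hl
    rw [hV, mem_sdiff, mem_image] at hl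
    obtain ⟨⟨i, -, hi⟩, -⟩ := hl
    exact ⟨i, hi⟩
  have hch : ∀ l, ∃ C : Set (ℤ × ℤ), l ∈ V → ∃ i, lab (sd b (e i)) = l ∧ C = cl F (sd b (e i)) := by
    intro l
    by_cases hl : l ∈ V
    · obtain ⟨i, hi⟩ := hpre l hl
      exact ⟨_, fun _ => ⟨i, hi, rfl⟩⟩
    · exact ⟨∅, fun h => absurd h hl⟩
  choose f hf using hch
  have hkey : (V : Set κ).ncard ≤ (CC x r R' (par b) F).ncard := by
    refine Set.ncard_le_ncard_of_injOn f ?_ ?_ (CC_finite _ _ _ _ _)
    · intro l hl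
      obtain ⟨i, hi, hfi⟩ := hf l (Finset.mem_coe.1 hl)
      rw [hfi]
      refine hmem i ?_
      rw [hi]
      have h3 := Finset.mem_coe.1 hl
      rw [hV, mem_sdiff] at h3
      exact h3.2
    · intro l hl l' hl' hll
      obtain ⟨i, hi, hfi⟩ := hf l (Finset.mem_coe.1 hl)
      obtain ⟨i', hi', hfi'⟩ := hf l' (Finset.mem_coe.1 hl')
      have h3 : sd b (e i') ∈ cl F (sd b (e i)) := by
        rw [← hfi, hll, hfi']
        exact ReflTransGen.refl
      have h4 := hconn (conn_of (b := b) hFB h3 (sd_par b _))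
      rw [← hi, ← hi', h4]
  rw [Set.ncard_coe_finset] at hkey
  exact hkey

/-- **Excursions give fresh crossing clusters.** -/
theorem exc_kf {x : ℤ × ℤ} {r R' R : ℤ} (hR : R' < R) (hr : r < R') {ω : Cfg}
    {D : Finset (ℤ × ℤ)} (P : Finset (ℤ × ℤ))
    (H2 : ∀ (b : Bool) (s v v' : ℤ × ℤ), v' ∉ D → nm (v' - x) ≤ R' → ω v' = b → Cor v' s →
      (s.1 + s.2) % 2 = par b → v ∈ D → Cor v s → ∃ q ∈ P, Conn x R ω s q)
    {e0 : Ed} {T : ℕ} {t : ℕ → ℕ} {k : ℕ}
    (hinj : Set.InjOn (fun i : ℕ => (nx ω)^[i] e0) (Set.Iic T)) (ht : Monotone t)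
    (hk : ∀ j < k, nm (hdv ((nx ω)^[t (2 * j)] e0) - x) ≤ r ∧
      R < nm (hdv ((nx ω)^[t (2 * j + 1)] e0) - x) ∧ t (2 * j + 1) ≤ T)
    (H1 : ∀ i ≤ T, hdv ((nx ω)^[i] e0) ∉ D → nm (hdv ((nx ω)^[i] e0) - x) ≤ R' →
      ∃ q ∈ P, Conn x R ω (H161.cor (ω (hdv ((nx ω)^[i] e0))) (hdv ((nx ω)^[i] e0))) q) :
    k ≤ kf x r R' (D ∩ bxx x R') ω true 0 + kf x r R' (D ∩ bxx x R') ω false 1 + P.card := by
  classical
  let e : Fin k → Ed := fun j => (nx ω)^[t (2 * j)] e0
  have h1 : ∀ i, nm (hdv (e i) - x) ≤ r := fun j => (hk j j.2).1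
  have hB : ∀ {v : ℤ × ℤ}, nm (v - x) < R' → v ∈ FK.Bq x R := fun h => mem_Bq_of_nm hR.le h
  have heB : ∀ i, hdv (e i) ∈ FK.Bq x R := fun i => hB (lt_of_le_of_lt (h1 i) hr)
  have hd : ∀ i j, i ≠ j → e j ∉ Arc (FK.Bq x R) ω (e i) := fun i j hij => by
    rcases lt_or_gt_of_ne (Fin.val_ne_of_ne hij) with h | h
    · exact exc_arcs (by omega) hinj ht h (hk i i.2).1 (hk i i.2).2.1 (hk j j.2).1
        (hk j j.2).2.1 (hk j j.2).2.2
    · intro hm
      exact exc_arcs (by omega) hinj ht h (hk j j.2).1 (hk j j.2).2.1 (hk i i.2).1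
        (hk i i.2).2.1 (hk i i.2).2.2 (Arc.symm hm)
  have hinv : ∀ i, Inv (FK.Bq x R : Set (ℤ × ℤ)) ω (Arc (FK.Bq x R) ω (e i)) :=
    fun i => Arc.inv _ _ _
  choose w hw using fun i => exists_PotX (hinv i)
  let lab : ℤ × ℤ → Fin k → ℤ := fun s i => w i s
  have hdiff : ∀ i j, lab (ls (e i)) j - lab (rs (e i)) j = if i = j then 1 else 0 := by
    intro i j
    have h3 := hw j (e i) (Or.inl (heB i))
    by_cases hij : i = j
    · subst hij
      have := h3.1 (self_mem_Arc _ _ _)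
      simp only [lab, if_true]
      omega
    · have := h3.2 (hd j i (Ne.symm hij))
      simp only [lab, hij, if_false]
      omega
  have hconn : ∀ {s t : ℤ × ℤ}, Conn x R ω s t → lab s = lab t := by
    intro s t h
    funext i
    exact (hw i).conn (hinv i) h
  set V1 : Finset (Fin k → ℤ) := univ.image (fun i => lab (ls (e i))) with hV1
  set V2 : Finset (Fin k → ℤ) := univ.image (fun i => lab (rs (e i))) with hV2
  set Bd : Finset (Fin k → ℤ) := P.image lab with hBd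
  have hcard : Fintype.card (Fin k) ≤ (V1 ∪ V2).card :=
    card_le_labels (fun i => lab (ls (e i))) (fun i => lab (rs (e i))) hdiff
  have hbad : ∀ {s : ℤ × ℤ}, (∃ q ∈ P, Conn x R ω s q) → lab s ∈ Bd := by
    rintro s ⟨q, hq, hc⟩
    rw [hBd, mem_image]
    exact ⟨q, hq, (hconn hc).symm⟩
  -- the first exits
  have h2 : ∀ i : Fin k, ∃ n, R' ≤ nm (hdv ((nx ω)^[n] (e i)) - x) ∧ n + t (2 * i) ≤ T := by
    intro i
    have m1 : t (2 * i) ≤ t (2 * i + 1) := ht (by omega)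
    refine ⟨t (2 * i + 1) - t (2 * i), ?_, ?_⟩
    · show R' ≤ nm (hdv ((nx ω)^[t (2 * i + 1) - t (2 * i)] ((nx ω)^[t (2 * i)] e0)) - x)
      rw [← Function.iterate_add_apply, Nat.sub_add_cancel m1]
      have := (hk i i.2).2.1
      omega
    · rw [Nat.sub_add_cancel m1]
      exact (hk i i.2).2.2
  have hch : ∀ i : Fin k, ∃ n, R' ≤ nm (hdv ((nx ω)^[n] (e i)) - x) ∧ n + t (2 * i) ≤ T ∧
      ∀ m < n, nm (hdv ((nx ω)^[m] (e i)) - x) < R' := by
    intro i
    have h3 : ∃ n, R' ≤ nm (hdv ((nx ω)^[n] (e i)) - x) := ⟨_, (h2 i).choose_spec.1⟩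
    refine ⟨Nat.find h3, Nat.find_spec h3, ?_, fun m hm => by
      have := Nat.find_min h3 hm
      omega⟩
    have h4 := Nat.find_min' h3 (h2 i).choose_spec.1
    have h5 := (h2 i).choose_spec.2
    omega
  choose N hN1 hNT hN2 using hch
  have hit : ∀ i m, (nx ω)^[m] (e i) = (nx ω)^[m + t (2 * i)] e0 := by
    intro i m
    rw [Function.iterate_add_apply]
  have hH1 : ∀ b : Bool, ∀ i, ∀ m < N i, hdv ((nx ω)^[m] (e i)) ∉ D →
      ω (hdv ((nx ω)^[m] (e i))) = b → lab (H161.cor b (hdv ((nx ω)^[m] (e i)))) ∈ Bd := by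
    intro b i m hm hnD hb
    have h3 := hNT i
    have h4 := hN2 i m hm
    rw [hit] at hnD hb h4 ⊢
    have h5 := hbad (H1 (m + t (2 * i)) (by omega) hnD h4.le)
    rw [hb] at h5
    exact h5
  have k1 := labels_le true hR e N h1 hN1 hN2 lab hconn Bd (hH1 true)
    (fun s v v' a1 a2 a3 a4 a5 a6 a7 => hbad (H2 true s v v' a1 a2 a3 a4 a5 a6 a7))
  have k2 := labels_le false hR e N h1 hN1 hN2 lab hconn Bd (hH1 false)
    (fun s v v' a1 a2 a3 a4 a5 a6 a7 => hbad (H2 false s v v' a1 a2 a3 a4 a5 a6 a7))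
  rw [par_true] at k1
  rw [par_false] at k2
  have e1 : (univ.image (fun i => lab (sd true (e i)))) = V1 := rfl
  have e2 : (univ.image (fun i => lab (sd false (e i)))) = V2 := rfl
  rw [e1] at k1
  rw [e2] at k2
  have h3 : V1 ∪ V2 ⊆ (V1 \ Bd) ∪ (V2 \ Bd) ∪ Bd := by
    intro l hl
    rw [mem_union] at hl
    rw [mem_union, mem_union, mem_sdiff, mem_sdiff]
    tauto
  calc k = Fintype.card (Fin k) := (Fintype.card_fin k).symm
    _ ≤ (V1 ∪ V2).card := hcard
    _ ≤ ((V1 \ Bd) ∪ (V2 \ Bd) ∪ Bd).card := card_le_card h3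
    _ ≤ ((V1 \ Bd) ∪ (V2 \ Bd)).card + Bd.card := card_union_le _ _
    _ ≤ (V1 \ Bd).card + (V2 \ Bd).card + P.card :=
        add_le_add (card_union_le _ _) card_image_le
    _ ≤ _ := by
        refine Nat.add_le_add_right (Nat.add_le_add k1 k2) _

end Vale.Agent.P167.QC
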