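import Vale.Agent.P167.QC.Mid3

/-!
# P167, general `q`: exponential moments of the number of the strands of a box which visit a small
box, uniformly in the domain, in the boundary condition and relatively to any outside factor
-/

namespace Vale.Agent.P167.QC

open Finset Filter Topology
open Vale.Agent.P145.FB (PStep PConn)
open Vale.Agent.P167.FK Vale.Agent.P167.FKA
open Vale.Agent.P167.H166
open Vale.Agent.P167.H161 (Conn PotX exists_PotX mem_Bq_of_nm card_le_labels)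
open Vale.Agent.P167.H259 (f_markov f_fkg f_comp f_comp2)
open Relation

/-- The entrance edges of the box of radius `R` whose strand visits the box of radius `r`. -/
def Ent (z : ℤ × ℤ) (r R : ℤ) (ω : Cfg) : Set Ed :=
  {e | tlv e ∉ FK.Bq z R ∧ ∃ n : ℕ, (∀ i ≤ n, hdv ((nx ω)^[i] e) ∈ FK.Bq z R) ∧
    hdv ((nx ω)^[n] e) ∈ FK.Bq z r}

theorem ent_finite (z : ℤ × ℤ) (r R : ℤ) (ω : Cfg) : (Ent z r R ω).Finite :=
  (touch_finite (FK.Bq z R)).subset fun _ he => Or.inl (he.2.choose_spec.1 0 (Nat.zero_le _))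

/-- **Many arcs give many fresh crossing clusters.** -/
theorem arcs_kf {x : ℤ × ℤ} {r R' R : ℤ} (hR : R' < R) (hr : r < R') {ω : Cfg}
    {D : Finset (ℤ × ℤ)} (P : Finset (ℤ × ℤ))
    (H : ∀ v, v ∉ D → nm (v - x) ≤ R' → ∃ q ∈ P, Conn x R ω (H161.cor (ω v) v) q)
    {ι : Type*} [Fintype ι] (e : ι → Ed) (h1 : ∀ i, nm (hdv (e i) - x) ≤ r)
    (h2 : ∀ i, ∃ n, R' ≤ nm (hdv ((nx ω)^[n] (e i)) - x))
    (hd : ∀ i j, i ≠ j → e j ∉ Arc (FK.Bq x R) ω (e i)) :
    Fintype.card ι ≤ kf x r R' (D ∩ bxx x R') ω true 0 + kf x r R' (D ∩ bxx x R') ω false 1 +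
      P.card := by
  classical
  have hB : ∀ {v : ℤ × ℤ}, nm (v - x) ≤ R' → v ∈ FK.Bq x R := fun h => mem_Bq_of_le hR h
  have heB : ∀ i, hdv (e i) ∈ FK.Bq x R := fun i => hB (le_trans (h1 i) hr.le)
  have hinv : ∀ i, Inv (FK.Bq x R : Set (ℤ × ℤ)) ω (Arc (FK.Bq x R) ω (e i)) :=
    fun i => Arc.inv _ _ _
  choose w hw using fun i => exists_PotX (hinv i)
  let lab : ℤ × ℤ → ι → ℤ := fun s i => w i s
  have hdiff : ∀ i j, lab (ls (e i)) j - lab (rs (e i)) j = if i = j then 1 else 0 := by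
    intro i j
    have h3 := hw j (e i) (Or.inl (heB i))
    by_cases hij : i = j
    · subst hij
      have := h3.1 (self_mem_Arc _ _ _)
      simp only [lab, if_true]
      omega
    · have := h3.2 (hd j i (Ne.symm hij))
      simp only [lab, hij, if_false]
      omega
  have hconn : ∀ {s t : ℤ × ℤ}, Conn x R ω s t → lab s = lab t := by
    intro s t h
    funext i
    exact (hw i).conn (hinv i) h
  set V1 : Finset (ι → ℤ) := univ.image (fun i => lab (ls (e i))) with hV1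
  set V2 : Finset (ι → ℤ) := univ.image (fun i => lab (rs (e i))) with hV2
  set Bd : Finset (ι → ℤ) := P.image lab with hBd
  have hcard : Fintype.card ι ≤ (V1 ∪ V2).card :=
    card_le_labels (fun i => lab (ls (e i))) (fun i => lab (rs (e i))) hdiff
  have hbad : ∀ {s : ℤ × ℤ}, (∃ q ∈ P, Conn x R ω s q) → lab s ∈ Bd := by
    rintro s ⟨q, hq, hc⟩
    rw [hBd, mem_image]
    exact ⟨q, hq, (hconn hc).symm⟩
  -- the first exits
  have hch : ∀ i : ι, ∃ n, R' ≤ nm (hdv ((nx ω)^[n] (e i)) - x) ∧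
      ∀ m < n, nm (hdv ((nx ω)^[m] (e i)) - x) < R' := by
    intro i
    refine ⟨Nat.find (h2 i), Nat.find_spec (h2 i), fun m hm => ?_⟩
    have := Nat.find_min (h2 i) hm
    omega
  choose N hN1 hN2 using hch
  have hH1 : ∀ b : Bool, ∀ i, ∀ m < N i, hdv ((nx ω)^[m] (e i)) ∉ D →
      ω (hdv ((nx ω)^[m] (e i))) = b → lab (H161.cor b (hdv ((nx ω)^[m] (e i)))) ∈ Bd := by
    intro b i m hm hnD hb
    have h5 := hbad (H _ hnD (hN2 i m hm).le)
    rw [hb] at h5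
    exact h5
  have hH2 : ∀ b : Bool, ∀ s v v' : ℤ × ℤ, v' ∉ D → nm (v' - x) ≤ R' → ω v' = b → Cor v' s →
      (s.1 + s.2) % 2 = par b → v ∈ D → Cor v s → lab s ∈ Bd := by
    intro b s v v' g1 g2 g3 g4 g5 _ _
    have h5 := H v' g1 g2
    rw [g3] at h5
    obtain ⟨q, hq, hc⟩ := h5
    exact hbad ⟨q, hq, (conn_cor (hB g2) g3 g4 g5).trans hc⟩
  have k1 := labels_le true hR e N h1 hN1 hN2 lab hconn Bd (hH1 true) (hH2 true)
  have k2 := labels_le false hR e N h1 hN1 hN2 lab hconn Bd (hH1 false) (hH2 false)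
  rw [par_true] at k1
  rw [par_false] at k2
  have e1 : (univ.image (fun i => lab (sd true (e i)))) = V1 := rfl
  have e2 : (univ.image (fun i => lab (sd false (e i)))) = V2 := rfl
  rw [e1] at k1
  rw [e2] at k2
  have h3 : V1 ∪ V2 ⊆ (V1 \ Bd) ∪ (V2 \ Bd) ∪ Bd := by
    intro l hl
    rw [mem_union] at hl
    rw [Finset.mem_union, Finset.mem_union, Finset.mem_sdiff, Finset.mem_sdiff]
    tauto
  calc Fintype.card ι ≤ (V1 ∪ V2).card := hcard
    _ ≤ ((V1 \ Bd) ∪ (V2 \ Bd) ∪ Bd).card := card_le_card h3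
    _ ≤ ((V1 \ Bd) ∪ (V2 \ Bd)).card + Bd.card := card_union_le _ _
    _ ≤ (V1 \ Bd).card + (V2 \ Bd).card + P.card :=
        add_le_add (card_union_le _ _) card_image_le
    _ ≤ _ := Nat.add_le_add_right (Nat.add_le_add k1 k2) _

theorem arc_ent {B : Finset (ℤ × ℤ)} {ω : Cfg} {e e' : Ed} (h : tlv e ∉ B) (h' : tlv e' ∉ B)
    (ha : e' ∈ Arc B ω e) : e' = e := by
  rcases ha with ⟨n, h1, h2⟩ | ⟨n, h1, h2⟩
  · rcases Nat.eq_zero_or_pos n with rfl | hn
    · exact h1.symm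
    · exfalso
      apply h'
      rw [← h1, Mid.tlv_it ω e hn]
      exact h2 _ (by omega)
  · rcases Nat.eq_zero_or_pos n with rfl | hn
    · exact h1
    · exfalso
      apply h
      rw [← h1, Mid.tlv_it ω e' hn]
      exact h2 _ (by omega)

/-- A strand which enters the box leaves it. -/
theorem ent_exit {B : Finset (ℤ × ℤ)} {ω : Cfg} {e : Ed} (h : tlv e ∉ B) :
    ∃ n : ℕ, hdv ((nx ω)^[n] e) ∉ B := by
  by_cases he : hdv e ∈ B
  · rcases Arc.cases (ω := ω) (Or.inl he) with ⟨ℓ, h1, h2, h3⟩ | ⟨n, h1, -⟩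
    · exfalso
      apply h
      obtain ⟨e', rfl⟩ := (s_nx ω).2 e
      have h4 : nx ω e' ∈ ℓ := by
        rw [← Finset.mem_coe, h3]
        exact self_mem_Arc _ _ _
      rw [tlv_nx]
      exact h2 (Finset.mem_image_of_mem _ (h1.nx_mem_iff.1 h4))
    · exact ⟨n, h1⟩
  · exact ⟨0, he⟩

/-- **The number of the strands** is at most the number of the fresh crossing clusters plus the
number of the frozen clusters. -/
theorem ent_le {z : ℤ × ℤ} {r R' R : ℤ} (hR : R' < R) (hr : r < R') {ω : Cfg}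
    {D : Finset (ℤ × ℤ)} (P : Finset (ℤ × ℤ))
    (H : ∀ v, v ∉ D → nm (v - z) ≤ R' → ∃ q ∈ P, Conn z R ω (H161.cor (ω v) v) q) :
    (Ent z r R ω).ncard ≤ kf z r R' (D ∩ bxx z R') ω true 0 +
      kf z r R' (D ∩ bxx z R') ω false 1 + P.card := by
  classical
  set T := (ent_finite z r R ω).toFinset with hT
  have hmem : ∀ e : T, (e : Ed) ∈ Ent z r R ω := fun e =>
    (Set.Finite.mem_toFinset _).1 e.2
  have hncard : (Ent z r R ω).ncard = Fintype.card T := by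
    rw [Fintype.card_coe, hT, Set.ncard_eq_toFinset_card _ (ent_finite z r R ω)]
  choose ht n hn1 hn2 using hmem
  have harc : ∀ e : T, (nx ω)^[n e] (e : Ed) ∈ Arc (FK.Bq z R) ω (e : Ed) := fun e =>
    Or.inl ⟨n e, rfl, fun i hi => hn1 e i hi.le⟩
  rw [hncard]
  refine arcs_kf hR hr P H (fun e : T => (nx ω)^[n e] (e : Ed)) (fun e => ?_) (fun e => ?_)
    fun e e' hne ha => ?_
  · have := hn2 e
    rw [mem_Bq] at this
    simp only [nm, Prod.fst_sub, Prod.snd_sub, max_le_iff, abs_le]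
    omega
  · obtain ⟨m, hm⟩ := ent_exit (ω := ω) (ht e)
    have hlt : n e < m := by
      by_contra hge
      exact hm (hn1 e m (by omega))
    refine ⟨m - n e, ?_⟩
    rw [← Function.iterate_add_apply, Nat.sub_add_cancel hlt.le]
    rw [mem_Bq] at hm
    simp only [nm, Prod.fst_sub, Prod.snd_sub, le_max_iff, le_abs]
    omega
  · apply hne
    have h3 : (e' : Ed) ∈ Arc (FK.Bq z R) ω (e : Ed) :=
      Arc.trans (Arc.trans (harc e) ha) (Arc.symm (harc e'))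
    exact Subtype.ext (arc_ent (ht e) (ht e') h3).symm

/-! ### Exponential moments -/

/-- Exponential moment of the number of the fresh crossing dual clusters. -/
theorem kf_exp' {Q : ℝ} (hQ : 1 ≤ Q) {x : ℤ × ℤ} {r R : ℤ} (hrR : r + 2 < R) {a y β : ℝ}
    (hy : 1 ≤ y) (hya : y * a < 1) (hβ : β * (1 - y * a) = y - 1)
    (hA : Pr Q (bxx (FKA.sh x) R) eta1 {ω | 1 ≤ kc (FKA.sh x) r R (bxx (FKA.sh x) R) ω} ≤ a)
    {D : Finset (ℤ × ℤ)} (hD : D ⊆ bxx x R) {η : Cfg} (hη : Good η) :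
    Ex Q D η (fun ω => y ^ kf x r R D ω false 1) ≤ 1 + β * a := by
  have hQ0 : 0 < Q := by linarith
  have h := kf_exp hQ hrR hy hya hβ hA (image_sub_bxx hD) (f_dual.1 η hη)
  have h2 := f_dual.2 Q D η (fun ω => y ^ kf (FKA.sh x) r R (D.image FKA.sh) ω true 0) hQ0 hη
  refine le_trans (le_of_eq ?_) h
  refine Eq.trans ?_ h2.symm
  refine Ex_congr fun S _ => ?_
  rw [kf_sh (x := x) (r := r) (R := R) (D := D) (ω := cf D η S)]

/-- **Exponential moments of the number of the fresh crossing clusters** of both colours,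
relatively to a factor which does not depend on the box. -/
theorem fresh_exp {Q : ℝ} (hQ : 1 ≤ Q) (h : RSW Q) {y : ℝ} (hy : 1 ≤ y) : ∃ κ : ℤ, 4 ≤ κ ∧
    ∀ (x : ℤ × ℤ) (r R : ℤ), 1 ≤ r → κ * r ≤ R → ∀ (D : Finset (ℤ × ℤ)) (η : Cfg), Good η →
    ∀ G : Cfg → ℝ, (∀ ω, 0 ≤ G ω) → Ind (D ∩ bxx x R) G →
      Ex Q D η (fun ω => G ω * y ^ (kf x r R (D ∩ bxx x R) ω true 0 +
        kf x r R (D ∩ bxx x R) ω false 1)) ≤ 2 * Ex Q D η G := by
  have hQ0 : 0 < Q := by linarith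
  obtain ⟨α, C, hα, hC, hw⟩ := cross_wired hQ h
  -- the threshold
  set a : ℝ := 1 / (2 * y ^ 2) with ha
  have hy0 : 0 < y := by linarith
  have ha0 : 0 < a := by positivity
  have hlim : Tendsto (fun t : ℝ => C * t⁻¹ ^ α) atTop (𝓝 0) := by
    have h1 : Tendsto (fun t : ℝ => t⁻¹ ^ α) atTop (𝓝 (0 ^ α)) :=
      (Real.continuousAt_rpow_const 0 α (Or.inr hα.le)).tendsto.comp tendsto_inv_atTop_zero
    rw [Real.zero_rpow hα.ne'] at h1
    simpa using h1.const_mul C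
  obtain ⟨t0, ht0⟩ := Filter.eventually_atTop.1 (hlim.eventually_le_const ha0)
  refine ⟨max 4 ⌈t0⌉, le_max_left _ _, fun x r R hr hR D η hη G hG0 hG => ?_⟩
  have hr' : (1 : ℝ) ≤ r := by exact_mod_cast hr
  have h4 : 4 * r ≤ R := le_trans (mul_le_mul_of_nonneg_right (le_max_left _ _) (by omega)) hR
  have hrR : r + 2 < R := by omega
  have hsm : ∀ x : ℤ × ℤ, Pr Q (bxx x R) eta1 {ω | 1 ≤ kc x r R (bxx x R) ω} ≤ a := by
    intro x
    refine (hw x r R hr hrR).trans ?_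
    have h5 : t0 ≤ (R : ℝ) / r := by
      rw [le_div_iff₀ (by linarith)]
      have h6 : (⌈t0⌉ : ℤ) * r ≤ R :=
        le_trans (mul_le_mul_of_nonneg_right (le_max_right _ _) (by omega)) hR
      have h7 : ((⌈t0⌉ : ℤ) : ℝ) * r ≤ R := by exact_mod_cast h6
      exact (mul_le_mul_of_nonneg_right (Int.le_ceil t0) (by linarith)).trans h7
    have := ht0 _ h5
    rwa [inv_div] at this
  have hYa : y ^ 2 * a = 1 / 2 := by
    rw [ha]
    field_simp
  have hβa : 2 * (y ^ 2 - 1) * a ≤ 1 := by nlinarith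
  rw [mul_comm 2 (Ex Q D η G), mul_comm (Ex Q D η G) 2]
  refine markov_le f_markov f_good hQ0 Finset.inter_subset_left hη hG hG0 fun ζ hζ => ?_
  have m1 := kf_exp hQ hrR (a := a) (y := y ^ 2) (β := 2 * (y ^ 2 - 1)) (by nlinarith)
    (by rw [hYa]; norm_num) (by rw [hYa]; ring) (hsm x) (D := D ∩ bxx x R)
    Finset.inter_subset_right hζ
  have m2 := kf_exp' hQ hrR (a := a) (y := y ^ 2) (β := 2 * (y ^ 2 - 1)) (by nlinarith)
    (by rw [hYa]; norm_num) (by rw [hYa]; ring) (hsm (FKA.sh x)) (D := D ∩ bxx x R)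
    Finset.inter_subset_right hζ
  have m3 : Ex Q (D ∩ bxx x R) ζ (fun ω => y ^ (kf x r R (D ∩ bxx x R) ω true 0 +
      kf x r R (D ∩ bxx x R) ω false 1)) ≤
      Ex Q (D ∩ bxx x R) ζ (fun ω => (1 / 2) * ((y ^ 2) ^ kf x r R (D ∩ bxx x R) ω true 0 +
        (y ^ 2) ^ kf x r R (D ∩ bxx x R) ω false 1)) := by
    refine Ex_mono hQ0 fun S _ => ?_
    rw [pow_add, ← pow_mul, ← pow_mul, mul_comm 2, mul_comm 2, pow_mul, pow_mul]
    nlinarith [sq_nonneg (y ^ kf x r R (D ∩ bxx x R) (cf (D ∩ bxx x R) ζ S) true 0 -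
      y ^ kf x r R (D ∩ bxx x R) (cf (D ∩ bxx x R) ζ S) false 1)]
  rw [Ex_mul_left, Ex_add] at m3
  linarith

/-- **Exponential moments of the number of the strands** of a box which visit a small box. -/
theorem ent_exp {Q : ℝ} (hQ : 1 ≤ Q) (h : RSW Q) {y : ℝ} (hy : 1 ≤ y) : ∃ κ : ℤ, 4 ≤ κ ∧
    ∀ (z : ℤ × ℤ) (r R' R : ℤ), 1 ≤ r → κ * r ≤ R' → R' < R → ∀ (D : Finset (ℤ × ℤ)) (η : Cfg),
    Good η → ∀ P : Finset (ℤ × ℤ),
    (∀ S ⊆ D, ∀ v, v ∉ D → nm (v - z) ≤ R' →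
      ∃ q ∈ P, Conn z R (cf D η S) (H161.cor (cf D η S v) v) q) →
    ∀ G : Cfg → ℝ, (∀ ω, 0 ≤ G ω) → Ind (D ∩ bxx z R') G →
      Ex Q D η (fun ω => G ω * y ^ (Ent z r R ω).ncard) ≤ 2 * y ^ P.card * Ex Q D η G := by
  have hQ0 : 0 < Q := by linarith
  obtain ⟨κ, hκ, hE⟩ := fresh_exp hQ h hy
  refine ⟨κ, hκ, fun z r R' R hr hκR hR D η hη P hP G hG0 hG => ?_⟩
  have hrR : r < R' := by nlinarith
  have h1 := hE z r R' hr hκR D η hη G hG0 hG
  have h2 : Ex Q D η (fun ω => G ω * y ^ (Ent z r R ω).ncard) ≤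
      Ex Q D η (fun ω => y ^ P.card * (G ω * y ^ (kf z r R' (D ∩ bxx z R') ω true 0 +
        kf z r R' (D ∩ bxx z R') ω false 1))) := by
    refine Ex_mono hQ0 fun S hS => ?_
    have h3 := ent_le (r := r) hR hrR P (ω := cf D η S) (D := D) (hP S hS)
    have h4 := pow_le_pow_right₀ hy h3
    rw [pow_add] at h4
    calc G (cf D η S) * y ^ (Ent z r R (cf D η S)).ncard
        ≤ G (cf D η S) * (y ^ (kf z r R' (D ∩ bxx z R') (cf D η S) true 0 +
          kf z r R' (D ∩ bxx z R') (cf D η S) false 1) * y ^ P.card) :=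
          mul_le_mul_of_nonneg_left h4 (hG0 _)
      _ = _ := by ring
  rw [Ex_mul_left] at h2
  have hyP : 0 ≤ y ^ P.card := pow_nonneg (by linarith) _
  calc _ ≤ _ := h2
    _ ≤ y ^ P.card * (2 * Ex Q D η G) := mul_le_mul_of_nonneg_left h1 hyP
    _ = _ := by ring

theorem sq_le_two_pow (n : ℕ) : ((n : ℝ)) ^ 2 ≤ 2 * 2 ^ n := by
  have key : ∀ n : ℕ, n ^ 2 ≤ 2 * 2 ^ n := by
    intro n
    induction n with
    | zero => norm_num
    | succ n ih =>
      rcases Nat.lt_or_ge n 3 with h | h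
      · interval_cases n <;> norm_num
      · have h2 : 2 * 2 ^ (n + 1) = 2 * (2 * 2 ^ n) := by ring
        nlinarith
  exact_mod_cast key n

/-- **Second moment of the number of the strands.** -/
theorem ent_two {Q : ℝ} (hQ : 1 ≤ Q) (h : RSW Q) : ∃ κ : ℤ, 4 ≤ κ ∧
    ∀ (z : ℤ × ℤ) (r R' R : ℤ), 1 ≤ r → κ * r ≤ R' → R' < R → ∀ (D : Finset (ℤ × ℤ)) (η : Cfg),
    Good η → ∀ P : Finset (ℤ × ℤ),
    (∀ S ⊆ D, ∀ v, v ∉ D → nm (v - z) ≤ R' →
      ∃ q ∈ P, Conn z R (cf D η S) (H161.cor (cf D η S v) v) q) →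
    ∀ G : Cfg → ℝ, (∀ ω, 0 ≤ G ω) → Ind (D ∩ bxx z R') G →
      Ex Q D η (fun ω => G ω * ((Ent z r R ω).ncard : ℝ) ^ 2) ≤ 4 * 2 ^ P.card * Ex Q D η G := by
  have hQ0 : 0 < Q := by linarith
  obtain ⟨κ, hκ, hE⟩ := ent_exp hQ h (y := 2) (by norm_num)
  refine ⟨κ, hκ, fun z r R' R hr hκR hR D η hη P hP G hG0 hG => ?_⟩
  have h1 := hE z r R' R hr hκR hR D η hη P hP G hG0 hG
  have h2 : Ex Q D η (fun ω => G ω * ((Ent z r R ω).ncard : ℝ) ^ 2) ≤
      Ex Q D η (fun ω => 2 * (G ω * 2 ^ (Ent z r R ω).ncard)) := by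
    refine Ex_mono hQ0 fun S _ => ?_
    have := mul_le_mul_of_nonneg_left (sq_le_two_pow (Ent z r R (cf D η S)).ncard)
      (hG0 (cf D η S))
    linarith
  rw [Ex_mul_left] at h2
  linarith

end Vale.Agent.P167.QC
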