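import Vale.Agent.P167.QC.Main
import Vale.Agent.P167.H161.Law
import Vale.Agent.P167.QE.Main

/-!
# P167, general `q`, crossings: the input `I_crossW` for the random-cluster weights
-/

namespace Vale.Agent.P167.QC

open Set Filter Topology MeasureTheory
open scoped ENNReal
open Vale.Agent.P167.E6 Vale.Agent.P167.E2 Vale.Agent.P167.SLE Vale.Agent.P167.H161
open Vale.Agent.P167.QE (lawW wq wq_pos meanW meanW_eq lawW_prob lwt I_crossW)
open Vale.Agent.P153.R2.C1 (Cross reparam)

open Classical in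
/-- Probabilities for the law of the random-cluster model. -/
theorem lwt_eq {q : ℝ} (hq : 0 < q) {n : ℕ} {p : ZMod n → ℤ × ℤ} {k : ℕ} {S : Finset (ℤ × ℤ)}
    (Q : Cf S → Prop) :
    lwt (wq q) p k S {ω | Q ω} = ENNReal.ofReal (Final.mean q p k S fun A =>
      if h : A ∈ (edges S).powerset then (if Q ⟨A, h⟩ then 1 else 0) else 0) := by
  have hw : ∀ A, 0 < wq q n p k S A := fun A => wq_pos hq n p k S A
  have _ := lawW_prob S hw
  have h0 : (Final.mean q p k S fun A =>
      if h : A ∈ (edges S).powerset then (if Q ⟨A, h⟩ then 1 else 0) else 0) =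
      meanW S (wq q n p k S) fun A =>
        if h : A ∈ (edges S).powerset then (if Q ⟨A, h⟩ then 1 else 0) else 0 := rfl
  rw [h0, meanW_eq S hw]
  have h1 : ∀ A : Cf S, (if h : A.1 ∈ (edges S).powerset then (if Q ⟨A.1, h⟩ then (1 : ℝ) else 0)
      else 0) = {ω : Cf S | Q ω}.indicator 1 A := by
    intro A
    rw [dif_pos A.2]
    by_cases h : Q A
    · rw [Set.indicator_of_mem (show A ∈ {ω : Cf S | Q ω} from h)]
      exact if_pos h
    · rw [Set.indicator_of_notMem (show A ∉ {ω : Cf S | Q ω} from h)]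
      exact if_neg h
  simp only [h1]
  rw [integral_indicator_one MeasurableSet.of_discrete]
  simp only [Measure.real]
  rw [ENNReal.ofReal_toReal (measure_ne_top _ _)]

open Classical in
/-- Bound of a probability by the mean of an indicator. -/
theorem lwt_le {q : ℝ} (hq : 0 < q) {n : ℕ} {p : ZMod n → ℤ × ℤ} {k : ℕ} {S : Finset (ℤ × ℤ)}
    (Q : Cf S → Prop) (E : Finset (Sym2 (ℤ × ℤ)) → Prop) (h : ∀ A : Cf S, Q A → E A.1) {e : ℝ}
    (he : Final.mean q p k S (fun A => if E A then 1 else 0) ≤ e) :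
    lwt (wq q) p k S {ω | Q ω} ≤ ENNReal.ofReal e := by
  rw [lwt_eq hq]
  refine ENNReal.ofReal_le_ofReal (le_trans ?_ he)
  refine mean_mono' hq fun A hA => ?_
  rw [dif_pos (Finset.mem_powerset.2 hA)]
  by_cases h1 : Q ⟨A, Finset.mem_powerset.2 hA⟩
  · rw [if_pos h1, if_pos (h _ h1)]
  · rw [if_neg h1]
    split_ifs <;> norm_num

/-- **The crossing numbers are tight**, `1 ≤ q ≤ 4`. -/
theorem crossW {q : ℝ} (hq1 : 1 ≤ q) (hq4 : q ≤ 4) : I_crossW (wq q) := by
  classical
  have hq0 : 0 < q := by linarith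
  intro Φ δ N k p S h y r hr e' he'
  obtain ⟨e, he, heq⟩ := ENNReal.lt_iff_exists_nnreal_btwn.1 he'
  have he0 : (0 : ℝ) < e := by exact_mod_cast he
  have hη' : Tendsto (fun n => δ n + 2 * δ n) atTop (𝓝 0) := by
    simpa using h.2.1.add (h.2.1.const_mul 2)
  obtain ⟨m, hm⟩ := near_meanq hq1 hq4 h hη' (X := fun n A => Xc (p n) (k n) (δ n) A)
    (fun n A hA => by
      obtain ⟨h1, h2, h3, h4, h5⟩ := h.1 n
      have h6 := near_crv h1.le h4 h5 h2 h3 hA
      refine h6.reparam (OrderIso.refl _) ?_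
      have h7 : reparam (crv (p n) (k n) (δ n) A) (OrderIso.refl unitInterval) =
          crv (p n) (k n) (δ n) A := by
        ext t
        rfl
      rw [h7]
      exact dist_crv_Xc h4 h5 h2 h3 hA h1.le) y hr.le (show r < 3 * r by linarith) he0
  refine ⟨m, ?_⟩
  filter_upwards [hm] with n hn
  refine le_trans (lwt_le hq0 _ (fun A => Cross (Xc (p n) (k n) (δ n) A) y r (3 * r) m)
    (fun A hA => hA) hn) ?_
  rw [ENNReal.ofReal_coe_nnreal]
  exact heq.le

end Vale.Agent.P167.QC
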