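import Vale.Agent.P167.QC.RetLat
import Vale.Agent.P167.QC.CrossW
import Vale.Agent.P167.H174.End6

/-!
# P167, general `q`: no return from `b`, the input `I_finW` for the random-cluster weights
-/

namespace Vale.Agent.P167.QC

open Set Filter Topology MeasureTheory
open scoped ENNReal
open Vale.Agent.P167.E6 Vale.Agent.P167.E2 Vale.Agent.P167.SLE Vale.Agent.P167.H161
open Vale.Agent.P167.H166
open Vale.Agent.P167.QE (lawW wq lwt I_finW)
open Vale.Agent.P167.H174 (bc bc_ne near_b)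
open Vale.Agent.P153.R2.C1 (reparam)
open Vale.Agent.P153.R2.Final (dom circ toC)

theorem nm_cast_le {v : ℤ × ℤ} {c : ℝ} (h1 : |(v.1 : ℝ)| ≤ c) (h2 : |(v.2 : ℝ)| ≤ c) :
    ((nm v : ℤ) : ℝ) ≤ c := by
  simp only [nm]
  rw [Int.cast_max, Int.cast_abs, Int.cast_abs]
  exact max_le h1 h2

theorem le_nm_cast (v : ℤ × ℤ) : |(v.1 : ℝ)| ≤ ((nm v : ℤ) : ℝ) ∧ |(v.2 : ℝ)| ≤ ((nm v : ℤ) : ℝ) := by
  simp only [nm]
  rw [Int.cast_max, Int.cast_abs, Int.cast_abs]
  exact ⟨le_max_left _ _, le_max_right _ _⟩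

/-- Medial edges in the rotated coordinates. -/
theorem hd_rnd {δ : ℝ} (hδ : 0 < δ) (z : ℂ) (c : Medial) :
    ((nm (hdv (H192.me c) - rnd δ z) : ℤ) : ℝ) ≤ 2 * dist (mid δ c) z / δ + 1 ∧
      dist (mid δ c) z ≤ δ * (2 * ((nm (hdv (H192.me c) - rnd δ z) : ℤ) : ℝ) + 2) := by
  obtain ⟨a1, a2, a3⟩ := sq_rnd hδ z c
  obtain ⟨b1, b2, b3⟩ := rot_le (mid 1 c - z / δ)
  rw [a3] at b1 b2 b3
  rw [H192.hdv_me]
  have e1 : 2 * dist (mid δ c) z / δ = 2 * (dist (mid δ c) z / δ) := by ring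
  rw [abs_le] at a1 a2 b1 b2
  constructor
  · rw [e1]
    apply nm_cast_le
    · rw [Prod.fst_sub]
      push_cast
      rw [abs_le]
      constructor <;> linarith
    · rw [Prod.snd_sub]
      push_cast
      rw [abs_le]
      constructor <;> linarith
  · obtain ⟨c1, c2⟩ := le_nm_cast (H192.sq (ahead c) - rnd δ z)
    rw [Prod.fst_sub] at c1
    rw [Prod.snd_sub] at c2
    push_cast at c1 c2
    generalize ((nm (H192.sq (ahead c) - rnd δ z) : ℤ) : ℝ) = m at c1 c2 ⊢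
    rw [abs_le] at c1 c2
    have h1 : |((1 + Complex.I) * (mid 1 c - z / δ)).re| ≤ m + 1 := by
      rw [abs_le]
      constructor <;> linarith
    have h2 : |((1 + Complex.I) * (mid 1 c - z / δ)).im| ≤ m + 1 := by
      rw [abs_le]
      constructor <;> linarith
    have h3 : dist (mid δ c) z / δ ≤ 2 * m + 2 := by linarith
    rw [div_le_iff₀ hδ] at h3
    linarith

/-- Vertices in the rotated coordinates. -/
theorem ro_rnd {δ : ℝ} (hδ : 0 < δ) (z : ℂ) (u : ℤ × ℤ) :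
    ((nm (H192.ro u - rnd δ z) : ℤ) : ℝ) ≤ 2 * dist ((δ : ℂ) * pt u) z / δ + 1 ∧
      dist ((δ : ℂ) * pt u) z ≤ δ * (2 * ((nm (H192.ro u - rnd δ z) : ℤ) : ℝ) + 2) := by
  have h3 := Int.floor_le ((1 + Complex.I) * (z / δ)).re
  have h4 := Int.lt_floor_add_one ((1 + Complex.I) * (z / δ)).re
  have h5 := Int.floor_le ((1 + Complex.I) * (z / δ)).im
  have h6 := Int.lt_floor_add_one ((1 + Complex.I) * (z / δ)).im
  obtain ⟨b1, b2, b3⟩ := rot_le (pt u - z / δ)
  have hn : ‖pt u - z / δ‖ = dist ((δ : ℂ) * pt u) z / δ := by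
    have hδc : (δ : ℂ) ≠ 0 := by exact_mod_cast hδ.ne'
    have e : pt u - z / δ = ((δ : ℂ) * pt u - z) / δ := by
      field_simp
    rw [e, norm_div, Complex.norm_real, Real.norm_of_nonneg hδ.le, dist_eq_norm]
  rw [hn] at b1 b2 b3
  have r1 : ((1 + Complex.I) * pt u).re = ((H192.ro u).1 : ℝ) := by
    simp [pt, H192.ro]
  have r2 : ((1 + Complex.I) * pt u).im = ((H192.ro u).2 : ℝ) := by
    simp [pt, H192.ro]
    ring
  rw [mul_sub, Complex.sub_re, r1] at b1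
  rw [mul_sub, Complex.sub_im, r2] at b2
  rw [mul_sub, Complex.sub_re, Complex.sub_im, r1, r2] at b3
  have e1 : 2 * dist ((δ : ℂ) * pt u) z / δ = 2 * (dist ((δ : ℂ) * pt u) z / δ) := by ring
  have f1 : ((H192.ro u - rnd δ z).1 : ℝ) = (H192.ro u).1 - ⌊((1 + Complex.I) * (z / δ)).re⌋ := by
    rw [Prod.fst_sub]
    push_cast
    rfl
  have f2 : ((H192.ro u - rnd δ z).2 : ℝ) = (H192.ro u).2 - ⌊((1 + Complex.I) * (z / δ)).im⌋ := by
    rw [Prod.snd_sub]
    push_cast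
    rfl
  constructor
  · rw [e1]
    rw [abs_le] at b1 b2
    apply nm_cast_le
    · rw [f1, abs_le]
      constructor <;> linarith
    · rw [f2, abs_le]
      constructor <;> linarith
  · obtain ⟨c1, c2⟩ := le_nm_cast (H192.ro u - rnd δ z)
    rw [f1] at c1
    rw [f2] at c2
    generalize ((nm (H192.ro u - rnd δ z) : ℤ) : ℝ) = m at c1 c2 ⊢
    rw [abs_le] at c1 c2
    have h1 : |((H192.ro u).1 : ℝ) - ((1 + Complex.I) * (z / δ)).re| ≤ m + 1 := by
      rw [abs_le]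
      constructor <;> linarith
    have h2 : |((H192.ro u).2 : ℝ) - ((1 + Complex.I) * (z / δ)).im| ≤ m + 1 := by
      rw [abs_le]
      constructor <;> linarith
    have h3 : dist ((δ : ℂ) * pt u) z / δ ≤ 2 * m + 2 := by linarith
    rw [div_le_iff₀ hδ] at h3
    linarith

open Classical in
/-- **No return from `b`**: paths close to the interfaces. -/
theorem ret_mean {q : ℝ} (hq1 : 1 ≤ q) (hq4 : q ≤ 4) {Φ : (ℝ × ℝ) ≃ₜ (ℝ × ℝ)} {δ : ℕ → ℝ}
    {N k : ℕ → ℕ} {p : ∀ n, ZMod (N n) → ℤ × ℤ} {S : ℕ → Finset (ℤ × ℤ)}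
    (hA : Approx Φ δ N k p S) {r : ℝ} (hr : 0 < r) (hra : r ≤ dist (bc Φ 0) (bq Φ)) {e : ℝ}
    (he : 0 < e) : ∃ r' : ℝ, 0 < r' ∧ ∀ᶠ n in atTop,
      Final.mean q (p n) (k n) (S n) (fun A => if ∃ t0 t1 : ℕ, t0 ≤ t1 ∧ t1 < len (p n) (k n) A ∧
        dist (mid (δ n) (run (p n) (k n) A t0)) (bq Φ) < r' ∧
        r < dist (mid (δ n) (run (p n) (k n) A t1)) (bq Φ) then 1 else 0) ≤ e := by
  obtain ⟨α, C, hα, hC, hbound⟩ := ret_tail hq1 hq4
  obtain ⟨r2, hr2, hr2r, hnear, -⟩ := near_b Φ (r := r / 16) (by linarith)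
  -- the choice of `r'`
  obtain ⟨r', hr', hr'1, hr'2⟩ : ∃ r' : ℝ, 0 < r' ∧ 64 * r' < r2 ∧
      C * (64 * r' / r2) ^ α ≤ e := by
    have h1 : Tendsto (fun x : ℝ => C * (64 * x / r2) ^ α) (𝓝[>] 0) (𝓝 0) := by
      have h2 : Tendsto (fun x : ℝ => 64 * x / r2) (𝓝[>] 0) (𝓝 0) := by
        have h3 : Tendsto (fun x : ℝ => 64 * x / r2) (𝓝 0) (𝓝 (64 * 0 / r2)) :=
          (continuous_const.mul continuous_id).div_const _ |>.tendsto 0
        rw [mul_zero, zero_div] at h3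
        exact h3.mono_left nhdsWithin_le_nhds
      have h4 := (h2.rpow_const (p := α) (Or.inr hα.le)).const_mul C
      rwa [Real.zero_rpow hα.ne', mul_zero] at h4
    have h5 : ∀ᶠ x : ℝ in 𝓝[>] 0, C * (64 * x / r2) ^ α ≤ e :=
      (h1.eventually (gt_mem_nhds he)).mono fun x hx => le_of_lt hx
    have h6 : ∀ᶠ x : ℝ in 𝓝[>] 0, x < r2 / 64 := by
      filter_upwards [Ioo_mem_nhdsGT (show (0 : ℝ) < r2 / 64 by positivity)] with x hx
      exact hx.2
    obtain ⟨x, h7, h8, h9⟩ := (h5.and (h6.and self_mem_nhdsWithin)).exists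
    exact ⟨x, h9, by linarith, h7⟩
  refine ⟨r', hr', ?_⟩
  obtain ⟨hpoly, hδ0, happ⟩ := hA
  have hδsmall : ∀ᶠ n in atTop, δ n < r' / 16 :=
    hδ0.eventually (gt_mem_nhds (show (0 : ℝ) < r' / 16 by positivity))
  filter_upwards [hδsmall, happ (r' / 8) (by positivity)] with n hδn happn
  obtain ⟨hδ, h0k, hk, hp, hS⟩ := hpoly n
  obtain ⟨s, hs, hs0, hsk, hsN, hsd⟩ := happn
  set d := δ n with hd
  set b := bq Φ with hb
  set x := rnd d b with hx
  -- integer radii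
  obtain ⟨ρ, hρ⟩ : ∃ ρ : ℤ, ρ = ⌊2 * r' / d⌋ + 4 := ⟨_, rfl⟩
  obtain ⟨R', hR'⟩ : ∃ R' : ℤ, R' = ⌊r2 / (8 * d)⌋ := ⟨_, rfl⟩
  obtain ⟨R, hR⟩ : ∃ R : ℤ, R = ⌊r / (4 * d)⌋ + 3 := ⟨_, rfl⟩
  have hρ1 : d * ρ ≤ 2 * r' + 4 * d := by
    have h1 := Int.floor_le (2 * r' / d)
    have h2 : d * (⌊2 * r' / d⌋ : ℝ) ≤ 2 * r' := by
      have := mul_le_mul_of_nonneg_left h1 hδ.le
      rwa [mul_div_cancel₀ _ hδ.ne'] at this
    rw [hρ]; push_cast
    linarith
  have hρ2 : 2 * r' + 3 * d ≤ d * ρ := by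
    have h1 := (Int.lt_floor_add_one (2 * r' / d)).le
    have h2 : 2 * r' ≤ d * ((⌊2 * r' / d⌋ : ℝ) + 1) := by
      have := mul_le_mul_of_nonneg_left h1 hδ.le
      rwa [mul_div_cancel₀ _ hδ.ne'] at this
    rw [hρ]; push_cast
    linarith
  have hR'1 : d * R' ≤ r2 / 8 := by
    have h1 := Int.floor_le (r2 / (8 * d))
    rw [← hR'] at h1
    have := mul_le_mul_of_nonneg_left h1 hδ.le
    have e : d * (r2 / (8 * d)) = r2 / 8 := by field_simp
    linarith
  have hR'2 : r2 / 8 - d ≤ d * R' := by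
    have h1 := (Int.lt_floor_add_one (r2 / (8 * d))).le
    rw [← hR'] at h1
    have := mul_le_mul_of_nonneg_left h1 hδ.le
    have e : d * (r2 / (8 * d)) = r2 / 8 := by field_simp
    linarith
  have hR1 : d * R ≤ r / 4 + 3 * d := by
    have h1 := Int.floor_le (r / (4 * d))
    have := mul_le_mul_of_nonneg_left h1 hδ.le
    have e : d * (r / (4 * d)) = r / 4 := by field_simp
    rw [hR]; push_cast
    linarith
  have hR2 : r / 4 + 2 * d ≤ d * R := by
    have h1 := (Int.lt_floor_add_one (r / (4 * d))).le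
    have := mul_le_mul_of_nonneg_left h1 hδ.le
    have e : d * (r / (4 * d)) = r / 4 := by field_simp
    rw [hR]; push_cast
    linarith
  have key : ∀ a c : ℤ, d * (a : ℝ) < d * (c : ℝ) → a < c := by
    intro a c h
    have := lt_of_mul_lt_mul_left h hδ.le
    exact_mod_cast this
  have key' : ∀ a c : ℤ, d * (a : ℝ) ≤ d * (c : ℝ) → a ≤ c := by
    intro a c h
    have := le_of_mul_le_mul_left h hδ
    exact_mod_cast this
  have hρR : ρ + 2 < R' := by
    apply key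
    push_cast
    nlinarith
  have hRR' : R' + 5 ≤ R := by
    apply key'
    push_cast
    nlinarith
  have hρ0 : 1 ≤ ρ := by
    have h1 : 0 ≤ ⌊2 * r' / d⌋ := Int.floor_nonneg.2 (by positivity)
    omega
  -- coordinates
  have hmul : ∀ {a m : ℝ}, m ≤ 2 * a / d + 1 → d * m ≤ 2 * a + d := by
    intro a m h
    have h1 := mul_le_mul_of_nonneg_left h hδ.le
    have h2 : d * (2 * a / d + 1) = 2 * a + d := by field_simp
    linarith
  -- vertices near `b`
  have hvert : ∀ j : ℕ, j < N n → dist ((d : ℂ) * pt (p n (j : ZMod (N n)))) (bc Φ (s j)) <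
      r' / 8 := by
    intro j hj
    exact hsd j hj (s j) ⟨le_rfl, hs (Nat.le_succ j)⟩
  have hs01 : ∀ j : ℕ, j ≤ N n → 0 ≤ s j ∧ s j ≤ 2 * Real.pi := by
    intro j hj
    exact ⟨hs0 ▸ hs (Nat.zero_le j), hsN ▸ hs hj⟩
  have hclose : ∀ j : ℕ, j < N n → nm (H192.ro (p n (j : ZMod (N n))) - x) ≤ R' + 3 →
      dist (bc Φ (s j)) b < r2 := by
    intro j hj h
    have h1 := (ro_rnd hδ b (p n (j : ZMod (N n)))).2
    have h2 := hvert j hj
    have h3 := dist_triangle_left (bc Φ (s j)) b ((d : ℂ) * pt (p n (j : ZMod (N n))))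
    have h4 : ((nm (H192.ro (p n (j : ZMod (N n))) - x) : ℤ) : ℝ) ≤ (R' : ℝ) + 3 := by
      exact_mod_cast h
    rw [← hx] at h1
    nlinarith
  have hfar' : ∀ j : ℕ, j < N n → dist (bc Φ (s j)) b < r / 16 →
      nm (H192.ro (p n (j : ZMod (N n))) - x) < R := by
    intro j hj h
    have h2 := hvert j hj
    have h3 := dist_triangle ((d : ℂ) * pt (p n (j : ZMod (N n)))) (bc Φ (s j)) b
    have h1 := hmul (ro_rnd hδ b (p n (j : ZMod (N n)))).1
    apply key
    rw [← hx] at h1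
    linarith
  have hw : ∀ i, k n ≤ i → i < N n → nm (H192.ro (p n i) - x) ≤ R' + 3 → ∀ l, k n ≤ l → l ≤ i →
      nm (H192.ro (p n l) - x) < R := by
    intro j hj1 hj2 hj3 j' hj4 hj5
    refine hfar' j' (by omega) ?_
    obtain ⟨a1, a2⟩ := hs01 j hj2.le
    refine hnear (s j) a1 a2 (hclose j hj2 hj3) _ ?_
    have h1 : Real.pi ≤ s j' := hsk ▸ hs hj4
    have h2 : s j' ≤ s j := hs hj5
    rw [abs_of_nonneg (by linarith), abs_of_nonneg (by linarith)]
    linarith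
  have hf : ∀ i < k n, nm (H192.ro (p n i) - x) ≤ R' + 3 → ∀ l, i ≤ l → l < k n →
      nm (H192.ro (p n l) - x) < R := by
    intro j hj1 hj3 j' hj4 hj5
    refine hfar' j' (by omega) ?_
    obtain ⟨a1, a2⟩ := hs01 j (by omega)
    refine hnear (s j) a1 a2 (hclose j (by omega) hj3) _ ?_
    have h1 : s j' ≤ Real.pi := hsk ▸ hs hj5.le
    have h2 : s j ≤ s j' := hs hj4
    rw [abs_of_nonpos (by linarith), abs_of_nonpos (by linarith)]
    linarith
  have ha : R + 1 < nm (H192.ro (p n 0) - x) := by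
    have h1 := (ro_rnd hδ b (p n 0)).2
    have h2 := hvert 0 (by omega)
    rw [hs0, Nat.cast_zero] at h2
    have h3 := dist_triangle_left (bc Φ 0) b ((d : ℂ) * pt (p n 0))
    apply key
    push_cast
    rw [← hx] at h1
    nlinarith
  have hbk : nm (H192.ro (p n (k n : ZMod (N n))) - x) + 1 ≤ ρ := by
    have h2 := hvert (k n) hk
    rw [hsk] at h2
    have h1 := hmul (ro_rnd hδ b (p n (k n : ZMod (N n)))).1
    have h3 : dist ((d : ℂ) * pt (p n (k n : ZMod (N n)))) b < r' / 8 := h2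
    apply key'
    push_cast
    rw [← hx] at h1
    nlinarith
  -- the event
  refine (mean_mono' (by linarith) fun A hAS => ?_).trans ((hbound (N n) (p n) (S n) (k n) hp hS
    h0k hk x ρ R' R hρ0 hρR hRR' hw hf ha hbk).trans ?_)
  · split_ifs with g1 g2 g2
    · exact le_rfl
    · exfalso
      apply g2
      obtain ⟨t0, t1, c1, c2, c3, c4⟩ := g1
      refine ⟨t0, t1, c1, c2, ?_, ?_⟩
      · have h1 := hmul (hd_rnd hδ b (run (p n) (k n) A t0)).1
        apply key'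
        rw [← hx] at h1
        linarith
      · have h1 := (hd_rnd hδ b (run (p n) (k n) A t1)).2
        apply key
        rw [← hx] at h1
        nlinarith
    · exact zero_le_one
    · exact le_rfl
  · refine le_trans (mul_le_mul_of_nonneg_left (Real.rpow_le_rpow ?_ ?_ hα.le) hC.le) hr'2
    · apply div_nonneg
      · exact_mod_cast (by omega : (0 : ℤ) ≤ ρ)
      · exact_mod_cast (by omega : (0 : ℤ) ≤ R')
    · have h1 : (0 : ℝ) < (R' : ℝ) := by exact_mod_cast (by omega : (0 : ℤ) < R')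
      rw [div_le_div_iff₀ h1 hr2]
      have h2 : d * ((ρ : ℝ) * r2) ≤ d * (64 * r' * (R' : ℝ)) := by
        nlinarith
      exact le_of_mul_le_mul_left h2 hδ

/-- **No return from `b`**, `1 ≤ q ≤ 4`. -/
theorem finW {q : ℝ} (hq1 : 1 ≤ q) (hq4 : q ≤ 4) : I_finW (wq q) := by
  classical
  have hq0 : 0 < q := by linarith
  intro Φ δ N k p S h r0 hr0 e' he'
  obtain ⟨e, he, heq⟩ := ENNReal.lt_iff_exists_nnreal_btwn.1 he'
  have he0 : (0 : ℝ) < e := by exact_mod_cast he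
  have hpi := Real.pi_pos
  have hab : 0 < dist (bc Φ 0) (bq Φ) := by
    rw [dist_pos]
    exact bc_ne le_rfl (by linarith) hpi.ne
  set r : ℝ := min (r0 / 2) (dist (bc Φ 0) (bq Φ)) with hr
  have hr1 : 0 < r := lt_min (by linarith) hab
  have hr2 : r ≤ r0 / 2 := min_le_left _ _
  obtain ⟨r', hr', hm⟩ := ret_mean hq1 hq4 h hr1 (min_le_right _ _) he0
  refine ⟨r' / 2, by linarith, ?_⟩
  filter_upwards [hm, h.2.1.eventually (gt_mem_nhds (show (0 : ℝ) < min r r' / 16 from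
    div_pos (lt_min hr1 hr') (by norm_num)))] with n hn hδn
  obtain ⟨h1, h2, h3, h4, h5⟩ := h.1 n
  have e1 : δ n < r / 16 := lt_of_lt_of_le hδn (by linarith [min_le_left r r'])
  have e2 : δ n < r' / 16 := lt_of_lt_of_le hδn (by linarith [min_le_right r r'])
  refine le_trans (lwt_le hq0 _ (fun A => A ⊆ edges (S n) ∧ ∃ t0 t1 : ℕ, t0 ≤ t1 ∧
    t1 < len (p n) (k n) A ∧ dist (mid (δ n) (run (p n) (k n) A t0)) (bq Φ) < r' ∧
    r < dist (mid (δ n) (run (p n) (k n) A t1)) (bq Φ)) ?_ (e := e) ?_) ?_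
  · rintro A ⟨s, t, hst, hs, ht⟩
    have hAS : A.1 ⊆ edges (S n) := Finset.mem_powerset.1 A.2
    refine ⟨hAS, ?_⟩
    have hnear : Near (fun j => mid (δ n) (run (p n) (k n) A.1 j)) (len (p n) (k n) A.1)
        (Xc (p n) (k n) (δ n) A.1) (δ n + 2 * δ n) := by
      have h6 := near_crv h1.le h4 h5 h2 h3 hAS
      refine h6.reparam (OrderIso.refl _) ?_
      have h7 : reparam (crv (p n) (k n) (δ n) A.1) (OrderIso.refl unitInterval) =
          crv (p n) (k n) (δ n) A.1 := by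
        ext t
        rfl
      rw [h7]
      exact dist_crv_Xc h4 h5 h2 h3 hAS h1.le
    obtain ⟨u, hu, hL, hd⟩ := hnear
    refine ⟨u s, u t, hu hst, hL t, ?_, ?_⟩
    · have c1 := hd s
      have c2 := dist_triangle_left (mid (δ n) (run (p n) (k n) A.1 (u s))) (bq Φ)
        (Xc (p n) (k n) (δ n) A.1 s)
      linarith
    · have c1 := hd t
      have c2 := dist_triangle (Xc (p n) (k n) (δ n) A.1 t)
        (mid (δ n) (run (p n) (k n) A.1 (u t))) (bq Φ)
      linarith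
  · refine le_trans (mean_mono' hq0 fun A hA => ?_) hn
    split_ifs with g1 g2 g2
    · exact le_rfl
    · exact absurd g1.2 g2
    · exact zero_le_one
    · exact le_rfl
  · rw [ENNReal.ofReal_coe_nnreal]
    exact heq.le

end Vale.Agent.P167.QC
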