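import Vale.Agent.P167.QC.Frz
import Vale.Agent.P167.H161.Lat
import Vale.Agent.P167.K8.RswFin

/-!
# P167, general `q`, crossings: the tail of the number of the excursions of the interface
-/

namespace Vale.Agent.P167.QC

open Vale.Agent.P145.FB (PStep)
open Vale.Agent.P167.E6 Vale.Agent.P167.E2
open Vale.Agent.P167.H166 Vale.Agent.P167.H161
open Vale.Agent.P167.FKA (Cor rest mem_rest Pr_mono Ex_mono Ex_congr Ex_const ind_nonneg)
open Vale.Agent.P167.FK (Good RSW Pr Ex)
open Vale.Agent.P167.H718 (Dq wE etaQ mem_Dq' mem_wE mem_wiredOpen good_etaQ)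

variable {n : ℕ} {p : ZMod n → ℤ × ℤ} {S : Finset (ℤ × ℤ)} {k : ℕ}

/-- The odd corners of the square of an edge are its two faces. -/
theorem odd_corner {u s : ℤ × ℤ} {r : Fin 4} (hc : Cor (H192.sq s(u, u + dir (r + 1))) s)
    (hs : (s.1 + s.2) % 2 = 1) :
    s = H192.rf (face u r) ∨ s = H192.rf (face u (r + 1)) := by
  obtain ⟨⟨h1, h2⟩, h3⟩ := face_key u r
  rw [← h3] at hc
  have h4 := H192.odd_rf (face u r)
  rw [Int.even_iff] at h4
  obtain ⟨a, b⟩ := s
  simp only [Cor] at hc hs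
  generalize H192.rf (face u r) = x at *
  generalize H192.rf (face u (r + 1)) = y at *
  obtain ⟨x1, x2⟩ := x
  obtain ⟨y1, y2⟩ := y
  simp only [Prod.mk.injEq] at *
  omega

theorem exists_form (v : ℤ × ℤ) : ∃ (u : ℤ × ℤ) (r : Fin 4), H192.ed v = s(u, u + dir (r + 1)) := by
  obtain ⟨u, r, h⟩ := H192.isEdge_ed v
  refine ⟨u, r - 1, ?_⟩
  rw [h]
  have e : r - 1 + 1 = r := by clear h; revert r; decide
  rw [e]

theorem fin4_back (r : Fin 4) : r + 1 - 1 = r := by revert r; decide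

/-- An exterior face at a square of the random domain is at a free vertex. -/
theorem ext_face (hp : IsPolygon p) (hS : Encloses p S) (h0 : 0 < k) (hk : k < n) {v s : ℤ × ℤ}
    (hv : v ∈ Dq S p k) (hc : Cor v s) (hs : (s.1 + s.2) % 2 = 1) {f : ℤ × ℤ}
    (hf : s = H192.rf f) (hfS : f ∉ S) : ∃ i < k, ∃ d, face (p i) d = f := by
  obtain ⟨hv1, hv2⟩ := mem_Dq'.1 hv
  obtain ⟨u, r, hur⟩ := exists_form v
  have hvs : v = H192.sq s(u, u + dir (r + 1)) := by rw [← hur, H192.sq_ed]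
  rw [hur, mem_edges, fin4_back] at hv1
  rw [hvs] at hc
  have hfs : f = face u r ∨ f = face u (r + 1) := by
    rcases odd_corner hc hs with h | h
    · left
      rw [hf] at h
      exact H192.rf_inj h
    · right
      rw [hf] at h
      exact H192.rf_inj h
  -- the directed edge of the polygon
  have key : ∀ (u' : ℤ × ℤ) (d : Fin 4), H192.ed v = s(u', u' + dir d) → face u' d ∈ S →
      face u' (d - 1) = f → ∃ i < k, ∃ d, face (p i) d = f := by
    intro u' d he h1 h2
    obtain ⟨i, hi1, hi2⟩ := (hS u' d).2 ⟨h1, by rw [h2]; exact hfS⟩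
    have hn : 2 < n := hp.1
    have _ : NeZero n := ⟨by omega⟩
    obtain ⟨j, hj, rfl⟩ : ∃ j : ℕ, j < n ∧ (j : ZMod n) = i :=
      ⟨i.val, ZMod.val_lt i, ZMod.natCast_zmod_val i⟩
    by_cases hjk : j < k
    · exact ⟨j, hjk, d - 1, by rw [hi1, h2]⟩
    by_cases hjn : j + 1 < n
    · exfalso
      apply hv2
      rw [mem_wE]
      exact ⟨j, by omega, hjn, by rw [he, hi1, hi2]⟩
    · have hj1 : j + 1 = n := by omega
      refine ⟨0, h0, d + 2, ?_⟩
      have h3 : (j : ZMod n) + 1 = ((0 : ℕ) : ZMod n) := by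
        have : ((j + 1 : ℕ) : ZMod n) = 0 := by rw [hj1]; exact ZMod.natCast_self n
        push_cast at this ⊢
        exact this
      rw [← h3, hi2, face_right, h2]
  rcases hfs with h | h
  · rcases hv1 with h1 | h1
    · exact key u (r + 1) hur h1 (by rw [fin4_back, h])
    · exact absurd (h ▸ h1) hfS
  · rcases hv1 with h1 | h1
    · exact absurd (h ▸ h1) hfS
    · refine key (u + dir (r + 1)) (r + 1 + 2) ?_ ?_ ?_
      · rw [dir_add_two', hur, Sym2.eq_swap]
      · rw [face_right, fin4_back]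
        exact h1
      · have e1 : r + 1 + 2 - 1 = r + 1 + 1 := by clear * -; revert r; decide
        rw [e1, face_left, h]

/-- **Excursions of the interface give fresh crossing clusters.** -/
theorem rexc_kf (hp : IsPolygon p) (hS : Encloses p S) (h0 : 0 < k) (hk : k < n) {c : ℕ → ℕ}
    (hc : Monotone c) {M : ℕ} (hM : ∀ i < n, c i < M) {ρ : ℤ} (hρ0 : 0 ≤ ρ)
    (hρ : ∀ i j, i < n → j < n → c i = c j → nm (H192.ro (p i) - H192.ro (p j)) ≤ ρ)
    {x : ℤ × ℤ} {r R' R : ℤ} (hr : r < R') (hR : R' + ρ + 5 ≤ R)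
    {A : Finset (Sym2 (ℤ × ℤ))} (hA : A ⊆ edges S) {m : ℕ} (h : RExc p k A x r R m) :
    m ≤ kf x r R' (Dq S p k ∩ bxx x R') (om p k A) true 0 +
      kf x r R' (Dq S p k ∩ bxx x R') (om p k A) false 1 + 2 * M := by
  obtain ⟨P, hP, hPP⟩ := frz2 hp hS hc hk hM hρ
  obtain ⟨g1, g2⟩ := hPP x (R' + 1) R (by omega) (om p k A)
  rw [ovq_om hp hS hA] at g1 g2
  obtain ⟨t, ht, h⟩ := h
  have hpos := len_pos hp hS hk hA
  have hinj : Set.InjOn (fun i : ℕ => (nx (om p k A))^[i] (H192.me (cs p)))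
      (Set.Iic (len p k A - 1)) := by
    intro i hi j hj hij
    rw [Set.mem_Iic] at hi hj
    simp only at hij
    rw [run_om, run_om] at hij
    exact run_inj hp hS hk hA (by omega) (by omega) (H192.me_inj hij)
  -- frozen open squares
  have hW : ∀ v : ℤ × ℤ, v ∉ Dq S p k → om p k A v = true → v ∈ FW p k := by
    intro v hv h1
    rw [mem_Dq'] at hv
    rcases om_true.1 h1 with h2 | h2
    · by_contra h3
      exact hv ⟨hA h2, fun h4 => h3 (mem_FW.2 h4)⟩
    · exact mem_FW.2 h2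
  have key := exc_kf (x := x) (r := r) (R' := R') (R := R) (by omega) hr (ω := om p k A)
    (D := Dq S p k) P ?_ (e0 := H192.me (cs p)) (T := len p k A - 1) (t := t) (k := m) hinj ht ?_ ?_
  · exact key.trans (Nat.add_le_add_left hP _)
  · -- corners
    intro b s v v' a1 a2 a3 a4 a5 a6 a7
    cases b
    · have h1 : H192.ed v' ∉ edges S := by
        intro h1
        have h2 : H192.ed v' ∈ wE p k := by
          by_contra h2
          exact a1 (mem_Dq'.2 ⟨h1, h2⟩)
        have h3 : om p k A v' = true := om_true.2 (Or.inr h2)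
        rw [a3] at h3
        exact absurd h3 (by simp)
      obtain ⟨u, d, hud⟩ := exists_form v'
      have hvs : v' = H192.sq s(u, u + dir (d + 1)) := by rw [← hud, H192.sq_ed]
      rw [hud, mem_edges, fin4_back, not_or] at h1
      have a4' := a4
      rw [hvs] at a4'
      obtain ⟨f, hf, hfS⟩ : ∃ f, s = H192.rf f ∧ f ∉ S := by
        rcases odd_corner a4' a5 with h2 | h2
        · exact ⟨_, h2, h1.2⟩
        · exact ⟨_, h2, h1.1⟩
      obtain ⟨i, hi, d', hd'⟩ := ext_face hp hS h0 hk a6 a7 a5 hf hfS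
      have h2 := g2 i hi ?_ d' (by rw [hd']; exact hfS)
      · rw [hd', ← hf] at h2
        exact h2
      · rw [nm_sub_le] at a2 ⊢
        simp only [Cor] at a4
        rw [hf, ← hd'] at a4
        obtain ⟨y1, y2⟩ := v'
        have h3 : ((H192.rf (face (p i) d')).1 = (H192.ro (p i)).1 ∨
            (H192.rf (face (p i) d')).1 = (H192.ro (p i)).1 + 1 ∨
            (H192.rf (face (p i) d')).1 = (H192.ro (p i)).1 - 1) ∧
            ((H192.rf (face (p i) d')).2 = (H192.ro (p i)).2 ∨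
            (H192.rf (face (p i) d')).2 = (H192.ro (p i)).2 + 1 ∨
            (H192.rf (face (p i) d')).2 = (H192.ro (p i)).2 - 1) := by
          clear * -
          obtain ⟨a, b⟩ := p (i : ZMod n)
          rcases H192.fin4_cases d' with rfl | rfl | rfl | rfl <;>
            simp only [face, H192.rf, H192.ro] <;> refine ⟨?_, ?_⟩ <;> simp <;> omega
        simp only at a2 a4
        omega
    · have h1 := g1 v' (Or.inl (hW v' a1 a3)) (by omega)
      obtain ⟨q, hq, h2⟩ := h1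
      rw [a3] at h2
      exact ⟨q, hq, (conn_cor (b := true) (mem_Bq_of_le (by omega) a2) a3 a4 a5).trans h2⟩
  · intro j hj
    obtain ⟨h1, h2, h3⟩ := h j hj
    rw [run_om, run_om, H192.hdv_me, H192.hdv_me]
    exact ⟨h1, h2, by omega⟩
  · intro i hi hnD hnm
    rw [run_om] at hnD hnm ⊢
    refine g1 _ ?_ (by omega)
    by_cases hb : om p k A (hdv (H192.me (run p k A i))) = true
    · exact Or.inl (hW _ hnD hb)
    · right
      rcases ahead_cases hp hS h0 hk hA (j := i) (by omega) with h3 | ⟨i', hi', h4, h5, h6⟩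
      · exfalso
        apply hnD
        rw [mem_Dq', H192.ed_hdv_me]
        refine ⟨h3, fun h4 => hb ?_⟩
        rw [om_true, H192.ed_hdv_me]
        exact Or.inr h4
      · refine ⟨i', (run p k A i).2, hi', h5, h6, ?_⟩
        rw [H192.hdv_me]
        unfold ahead
        rw [← h4]

/-- `√q` is in the range of the RSW theorem. -/
theorem rsw_sqrt {q : ℝ} (h1 : 1 ≤ q) (h4 : q ≤ 4) : 1 ≤ √q ∧ RSW √q := by
  have hs1 : 1 ≤ √q := by rw [Real.one_le_sqrt]; exact h1
  have hs2 : √q ≤ 2 := by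
    rw [Real.sqrt_le_left (by norm_num)]
    linarith
  refine ⟨hs1, ?_⟩
  have h := K8.k_rsw (Real.arccos (√q / 2)) (Real.arccos_nonneg _) ?_
  · rw [Real.cos_arccos (by linarith) (by linarith)] at h
    rwa [mul_div_cancel₀ _ (by norm_num : (2 : ℝ) ≠ 0)] at h
  · rw [show Real.pi / 3 = Real.arccos (1 / 2) by
      rw [← Real.cos_pi_div_three, Real.arccos_cos (by positivity) (by linarith [Real.pi_pos])]]
    exact Real.arccos_le_arccos (by linarith)

theorem weight_nonneg {q : ℝ} (hq : 0 < q) (p : ZMod n → ℤ × ℤ) (k : ℕ) (S : Finset (ℤ × ℤ))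
    (A : Finset (Sym2 (ℤ × ℤ))) : 0 ≤ Final.weight q p k S A := by
  have hs : 0 < √q := Real.sqrt_pos.2 hq
  unfold Final.weight Final.selfDual
  have : 0 ≤ 1 - √q / (1 + √q) := by
    rw [sub_nonneg, div_le_one (by linarith)]
    linarith
  positivity

theorem mean_mono' {q : ℝ} (hq : 0 < q) {F G : Finset (Sym2 (ℤ × ℤ)) → ℝ}
    (h : ∀ A ⊆ edges S, F A ≤ G A) : Final.mean q p k S F ≤ Final.mean q p k S G := by
  unfold Final.mean
  refine div_le_div_of_nonneg_right (Finset.sum_le_sum fun A hA => ?_)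
    (Finset.sum_nonneg fun A _ => weight_nonneg hq p k S A)
  exact mul_le_mul_of_nonneg_left (h A (Finset.mem_powerset.1 hA)) (weight_nonneg hq p k S A)

open Classical in
/-- From events of the configuration of the plane to the random-cluster measure of `Question`. -/
theorem mean_le_Pr {q : ℝ} (hq : 0 < q) (hp : IsPolygon p) (hS : Encloses p S)
    (E : Finset (Sym2 (ℤ × ℤ)) → Prop) (Ev : Set Cfg) (h : ∀ A ⊆ edges S, E A → om p k A ∈ Ev) :
    Final.mean q p k S (fun A => if E A then 1 else 0) ≤ Pr (√q) (Dq S p k) (etaQ p k) Ev := by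
  have h1 := H718.mean_eq_Ex (k := k) hq hp hS (Ev.indicator (1 : Cfg → ℝ))
  unfold Pr
  rw [← h1]
  refine mean_mono' hq fun A hA => ?_
  by_cases h2 : E A
  · rw [if_pos h2, Set.indicator_of_mem (show H192.cfg (wiredOpen p k A) ∈ Ev from h A hA h2)]
    rfl
  · rw [if_neg h2]
    exact ind_nonneg _ _

open Classical in
/-- **Tail of the number of the excursions of the interface**, with a small ratio if the annulus is
thick. -/
theorem rexc_tail {q : ℝ} (h1 : 1 ≤ q) (h4 : q ≤ 4) : ∃ α C : ℝ, 0 < α ∧ 0 < C ∧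
    ∀ (n : ℕ) (p : ZMod n → ℤ × ℤ) (S : Finset (ℤ × ℤ)) (k : ℕ),
    IsPolygon p → Encloses p S → 0 < k → k < n → ∀ (c : ℕ → ℕ), Monotone c → ∀ (M : ℕ),
    (∀ i < n, c i < M) → ∀ ρ : ℤ, 0 ≤ ρ → (∀ i j, i < n → j < n → c i = c j →
      nm (H192.ro (p i) - H192.ro (p j)) ≤ ρ) →
    ∀ (x : ℤ × ℤ) (r R' R : ℤ), 1 ≤ r → r + 2 < R' → R' + ρ + 5 ≤ R →
      C * ((r : ℝ) / R') ^ α ≤ 1 → ∀ j : ℕ, 0 < j →
      Final.mean q p k S (fun A => if RExc p k A x r R (2 * M + 2 * j - 1) then 1 else 0) ≤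
        4 * (C * ((r : ℝ) / R') ^ α) ^ j := by
  obtain ⟨hs1, hrsw⟩ := rsw_sqrt h1 h4
  have hQ0 : (0 : ℝ) < √q := by linarith
  have hq0 : 0 < q := by linarith
  obtain ⟨α, C, hα, hC, h⟩ := fresh_tail hs1 hrsw
  refine ⟨α, C, hα, hC, fun n p S k hp hS h0 hk c hc M hM ρ hρ0 hρ x r R' R hr hrR hR hsm j hj => ?_⟩
  obtain ⟨t1, t2⟩ := h x r R' hr hrR hsm (Dq S p k) (etaQ p k) good_etaQ j
  have hle := mean_le_Pr (k := k) hq0 hp hS (fun A => RExc p k A x r R (2 * M + 2 * j - 1))
    ({ω | j ≤ kf x r R' (Dq S p k ∩ bxx x R') ω true 0} ∪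
      {ω | j ≤ kf x r R' (Dq S p k ∩ bxx x R') ω false 1}) fun A hA hE => ?_
  · refine hle.trans ((FKA.Pr_union_le hQ0 _ _).trans ?_)
    linarith
  · have h5 := rexc_kf hp hS h0 hk hc hM hρ0 hρ (by omega) hR hA hE
    by_cases h7 : j ≤ kf x r R' (Dq S p k ∩ bxx x R') (om p k A) true 0
    · exact Or.inl h7
    · refine Or.inr ?_
      show j ≤ kf x r R' (Dq S p k ∩ bxx x R') (om p k A) false 1
      omega

end Vale.Agent.P167.QC
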