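import Vale.Agent.P167.QC.Mid2
import Vale.Agent.P167.QC.Det

/-!
# P167, general `q`, Lemma M, 3: strands of a box, crossings, counting flows
-/

set_option linter.unusedSimpArgs false

namespace Vale.Agent.P167.QC.Mid

open Finset
open Vale.Agent.P145.FB (PStep)
open Vale.Agent.P167.H166
open Vale.Agent.P167.H161
open Vale.Agent.P167.FKA (Cor)
open Relation

/-- A strand of the box: it enters along `e` and leaves along `nx^N e`. -/
structure Str (z : ℤ × ℤ) (R : ℤ) (ω : Cfg) (e : Ed) (N : ℕ) : Prop where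
  t : tlv e ∉ FK.Bq z R
  b : ∀ i < N, hdv ((nx ω)^[i] e) ∈ FK.Bq z R
  x : hdv ((nx ω)^[N] e) ∉ FK.Bq z R
  pos : 0 < N

theorem tlv_it (ω : Cfg) (e : Ed) {i : ℕ} (h : 0 < i) :
    tlv ((nx ω)^[i] e) = hdv ((nx ω)^[i - 1] e) := by
  obtain ⟨j, rfl⟩ := Nat.exists_eq_succ_of_ne_zero h.ne'
  rw [Function.iterate_succ_apply', tlv_nx]
  rfl

section

variable {z : ℤ × ℤ} {R : ℤ} {ω : Cfg} {e : Ed} {N : ℕ}

/-- Two interfaces which enter the box from outside do not meet in it. -/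
theorem inj_in {e' : Ed} {i j : ℕ} (h1 : tlv e ∉ FK.Bq z R)
    (h2 : ∀ l < i, hdv ((nx ω)^[l] e) ∈ FK.Bq z R) (h1' : tlv e' ∉ FK.Bq z R)
    (h2' : ∀ l < j, hdv ((nx ω)^[l] e') ∈ FK.Bq z R) (h : (nx ω)^[i] e = (nx ω)^[j] e') :
    i = j ∧ e = e' := by
  have key : ∀ {a a' : Ed} {i j : ℕ}, tlv a ∉ FK.Bq z R →
      (∀ l < j, hdv ((nx ω)^[l] a') ∈ FK.Bq z R) → (nx ω)^[i] a = (nx ω)^[j] a' → i ≤ j →
      i = j ∧ a = a' := by
    intro a a' i j ha hj hij hle
    have h3 : a = (nx ω)^[j - i] a' := by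
      apply ((s_nx ω).1.iterate i)
      rw [hij, ← Function.iterate_add_apply, show i + (j - i) = j by omega]
    rcases Nat.eq_zero_or_pos (j - i) with h4 | h4
    · rw [h4] at h3
      exact ⟨by omega, h3⟩
    · exfalso
      apply ha
      rw [h3, tlv_it ω a' h4]
      exact hj _ (by omega)
  rcases le_total i j with h3 | h3
  · exact key h1 h2' h h3
  · obtain ⟨h4, h5⟩ := key h1' h2 h.symm h3
    exact ⟨h4.symm, h5.symm⟩

theorem Str.mem_arc (h : Str z R ω e N) {e' : Ed} :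
    e' ∈ Arc (FK.Bq z R) ω e ↔ ∃ n ≤ N, (nx ω)^[n] e = e' := by
  constructor
  · rintro (⟨n, h1, h2⟩ | ⟨n, h1, h2⟩)
    · refine ⟨n, ?_, h1⟩
      by_contra hn
      exact h.x (h2 N (by omega))
    · rcases Nat.eq_zero_or_pos n with rfl | h4
      · exact ⟨0, Nat.zero_le _, h1.symm⟩
      · exfalso
        apply h.t
        rw [← h1, tlv_it ω e' h4]
        exact h2 _ (by omega)
  · rintro ⟨n, h1, h2⟩
    exact Or.inl ⟨n, h2, fun i hi => h.b i (by omega)⟩

/-- The potential of a strand on the boundary of the box. -/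
theorem Str.bdy (h : Str z R ω e N) {w : ℤ × ℤ → ℤ} (hw : PotX z R (Arc (FK.Bq z R) ω e) w) :
    Bdy z R w e ((nx ω)^[N] e) where
  he := ⟨h.b 0 h.pos, h.t⟩
  he' := ⟨by rw [tlv_it ω e h.pos]; exact h.b _ (by have := h.pos; omega), h.x⟩
  j := (hw e (Or.inl (h.b 0 h.pos))).1 (self_mem_Arc _ _ _)
  j' := (hw _ (Or.inr (by rw [tlv_it ω e h.pos]; exact h.b _ (by have := h.pos; omega)))).1
    (h.mem_arc.2 ⟨N, le_rfl, rfl⟩)
  c := by
    intro a ha h1 h2
    refine (hw a (ha.elim (fun x => Or.inl x.1) fun x => Or.inr x.1)).2 fun h3 => ?_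
    obtain ⟨n, h4, h5⟩ := h.mem_arc.1 h3
    rcases Nat.eq_zero_or_pos n with rfl | h6
    · exact h1 h5.symm
    · have h7 : n < N := by
        rcases lt_or_eq_of_le h4 with h7 | rfl
        · exact h7
        · exact absurd h5.symm h2
      have h8 : hdv a ∈ FK.Bq z R := by rw [← h5]; exact h.b n h7
      have h9 : tlv a ∈ FK.Bq z R := by
        rw [← h5, tlv_it ω e h6]
        exact h.b _ (by omega)
      rcases ha with ha | ha
      · exact ha.2 h9
      · exact ha.2 h8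

end

/-- The number of the visits of `e` between the indices `i` and `j`. -/
def cnt (ω : Cfg) (e0 : Ed) (i j : ℕ) (e : Ed) : ℤ :=
  ∑ l ∈ Finset.Ico i j, if e = (nx ω)^[l] e0 then 1 else 0

theorem sg_mul_orb (ω : Cfg) (e0 : Ed) (i j : ℕ) (e : Ed) : sg e * orb ω e0 i j e = cnt ω e0 i j e := by
  unfold orb cnt
  rw [Finset.mul_sum]
  refine Finset.sum_congr rfl fun l _ => ?_
  unfold uf
  split_ifs with h
  · rw [← h]
    rcases e with ⟨a, b⟩ | ⟨a, b⟩ <;> by_cases hp : Even (a + b) <;> simp [sg, hp]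
  · simp

/-- The number of the visits before and after a square. -/
theorem cnt_nx (ω : Cfg) (e0 : Ed) (i j : ℕ) (e : Ed) :
    cnt ω e0 (i + 1) (j + 1) (nx ω e) = cnt ω e0 i j e := by
  unfold cnt
  rw [← Finset.sum_Ico_add' (fun l => if nx ω e = (nx ω)^[l] e0 then (1 : ℤ) else 0) i j 1]
  refine Finset.sum_congr rfl fun l _ => ?_
  rw [Function.iterate_succ_apply']
  by_cases h : e = (nx ω)^[l] e0
  · rw [if_pos h, if_pos (by rw [← h])]
  · rw [if_neg h, if_neg fun h' => h ((s_nx ω).1 h')]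

theorem cnt_top (ω : Cfg) (e0 : Ed) {i j : ℕ} (h : i ≤ j) (e : Ed) :
    cnt ω e0 i (j + 1) e = cnt ω e0 i j e + if e = (nx ω)^[j] e0 then 1 else 0 := by
  unfold cnt
  rw [Finset.sum_Ico_succ_top h]

theorem cnt_bot (ω : Cfg) (e0 : Ed) {i j : ℕ} (h : i < j) (e : Ed) :
    cnt ω e0 i j e = (if e = (nx ω)^[i] e0 then 1 else 0) + cnt ω e0 (i + 1) j e := by
  unfold cnt
  rw [Finset.sum_eq_sum_Ico_succ_bot h]

theorem cnt_zero {ω : Cfg} {e0 : Ed} {i j : ℕ} {e : Ed}
    (h : ∀ l, i ≤ l → l < j → e ≠ (nx ω)^[l] e0) : cnt ω e0 i j e = 0 := by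
  refine Finset.sum_eq_zero fun l hl => if_neg ?_
  rw [Finset.mem_Ico] at hl
  exact h l hl.1 hl.2

theorem cnt_one {ω : Cfg} {e0 : Ed} {i j l : ℕ} {e : Ed} (h0 : i ≤ l) (h1 : l < j)
    (he : e = (nx ω)^[l] e0) (h : ∀ m, i ≤ m → m < j → e = (nx ω)^[m] e0 → m = l) :
    cnt ω e0 i j e = 1 := by
  unfold cnt
  rw [Finset.sum_eq_single l, if_pos he]
  · intro m hm hne
    rw [Finset.mem_Ico] at hm
    exact if_neg fun h' => hne (h m hm.1 hm.2 h')
  · intro hn
    exact absurd (Finset.mem_Ico.2 ⟨h0, h1⟩) hn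

/-- A function which is conserved at a square takes the same value at its corners of the colour
of the square. -/
theorem sq_gen {f : ℤ × ℤ → ℤ} {ω : Cfg} {v : ℤ × ℤ} {b : Bool} (hb : ω v = b)
    (hf : ∀ e, hdv e = v → f (ls (nx ω e)) = f (ls e) ∧ f (rs (nx ω e)) = f (rs e)) {s t : ℤ × ℤ}
    (hs : Cor v s) (hsp : (s.1 + s.2) % 2 = par b) (ht : Cor v t) (htp : (t.1 + t.2) % 2 = par b) :
    f s = f t := by
  by_cases hne : s = t
  · rw [hne]
  have hv : PStep {v} s t := by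
    obtain ⟨a, c⟩ := v
    obtain ⟨s1, s2⟩ := s
    obtain ⟨t1, t2⟩ := t
    simp only [Cor] at hs ht
    have : par b = 0 ∨ par b = 1 := by cases b <;> simp [par]
    simp only [Prod.mk.injEq] at hne
    simp only at hsp htp
    refine ⟨?_, ?_, ?_⟩
    · simp only
      omega
    · simp only
      omega
    · simp only [Set.mem_singleton_iff, Prod.mk.injEq]
      omega
  cases b
  · obtain ⟨e, he1, he2⟩ := (exists_edge hv).2 (by rw [Int.odd_iff]; exact hsp)
    obtain ⟨h3, h4⟩ := (nx_step ω e).2 (by rw [he1]; exact hb)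
    rw [he1, he2] at h4
    have h5 := opp hv h4
    have h6 := (hf e he1).2
    rw [he2, ← h5] at h6
    exact h6.symm
  · obtain ⟨e, he1, he2⟩ := (exists_edge hv).1 (by rw [Int.even_iff]; exact hsp)
    obtain ⟨h3, h4⟩ := (nx_step ω e).1 (by rw [he1]; exact hb)
    rw [he1, he2] at h3
    have h5 := opp hv h3
    have h6 := (hf e he1).1
    rw [he2, ← h5] at h6
    exact h6.symm

/-- A segment of an interface between two disjoint sets of squares. -/
theorem exists_seg (ω : Cfg) (e : Ed) {S T : Set (ℤ × ℤ)} {i i' : ℕ} (hi : i ≤ i')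
    (hS : tlv ((nx ω)^[i] e) ∈ S) (hT : hdv ((nx ω)^[i'] e) ∈ T) :
    ∃ p q, i ≤ p ∧ p ≤ q ∧ q ≤ i' ∧ tlv ((nx ω)^[p] e) ∈ S ∧ hdv ((nx ω)^[q] e) ∈ T ∧
      ∀ l, p ≤ l → l < q → hdv ((nx ω)^[l] e) ∉ S ∧ hdv ((nx ω)^[l] e) ∉ T := by
  classical
  -- the first index `q` in `T`
  have hex : ∃ q, i ≤ q ∧ hdv ((nx ω)^[q] e) ∈ T := ⟨i', hi, hT⟩
  obtain ⟨hq1, hq2⟩ := Nat.find_spec hex
  set q := Nat.find hex with hq
  have hqi : q ≤ i' := Nat.find_min' hex ⟨hi, hT⟩
  have hqmin : ∀ l, i ≤ l → l < q → hdv ((nx ω)^[l] e) ∉ T := fun l h1 h2 h3 =>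
    Nat.find_min hex h2 ⟨h1, h3⟩
  -- the last index `p` whose tail is in `S`
  have hex2 : ∃ m, m ≤ q - i ∧ tlv ((nx ω)^[q - m] e) ∈ S :=
    ⟨q - i, le_rfl, by rw [show q - (q - i) = i by omega]; exact hS⟩
  obtain ⟨hm1, hm2⟩ := Nat.find_spec hex2
  set m := Nat.find hex2 with hm
  refine ⟨q - m, q, by omega, by omega, hqi, hm2, hq2, fun l h1 h2 => ⟨fun h3 => ?_,
    hqmin l (by omega) h2⟩⟩
  have h4 : q - (l + 1) < m := by omega
  refine Nat.find_min hex2 h4 ⟨by omega, ?_⟩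
  rw [show q - (q - (l + 1)) = l + 1 by omega, tlv_it ω e (Nat.succ_pos l)]
  exact h3

theorem sd_cor_tl (b : Bool) (e : Ed) : Cor (tlv e) (sd b e) := by
  rcases e with ⟨a, c⟩ | ⟨a, c⟩ <;> cases b <;> by_cases hp : Even (a + c) <;>
    simp [tlv, sd, ls, rs, Cor, hp]

/-- A function which is constant on the medial edges of a box is constant on its sites. -/
theorem box_const {x : ℤ × ℤ} {ρ : ℤ} {f : ℤ × ℤ → ℤ}
    (h : ∀ e : Ed, (hdv e ∈ FK.Bq x ρ ∨ tlv e ∈ FK.Bq x ρ) → f (ls e) = f (rs e)) {s t : ℤ × ℤ}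
    (hs : nm (s - x) ≤ ρ) (ht : nm (t - x) ≤ ρ) : f s = f t := by
  obtain ⟨x1, x2⟩ := x
  have hH : ∀ a c : ℤ, x1 - ρ ≤ a → a < x1 + ρ → x2 - ρ ≤ c → c ≤ x2 + ρ →
      f (a + 1, c) = f (a, c) := by
    intro a c h1 h2 h3 h4
    have h5 := h (Sum.inr (a, c - 1)) (by
      by_cases hp : Even (a + (c - 1)) <;> simp only [hdv, tlv, hp, if_true, if_false, mem_Bq] <;>
        omega)
    by_cases hp : Even (a + (c - 1))
    · simp only [ls, rs, hp, if_true] at h5
      rw [show c - 1 + 1 = c by ring] at h5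
      exact h5
    · simp only [ls, rs, hp, if_false] at h5
      rw [show c - 1 + 1 = c by ring] at h5
      exact h5.symm
  have hV : ∀ a c : ℤ, x1 - ρ ≤ a → a ≤ x1 + ρ → x2 - ρ ≤ c → c < x2 + ρ →
      f (a, c + 1) = f (a, c) := by
    intro a c h1 h2 h3 h4
    have h5 := h (Sum.inl (a - 1, c)) (by
      by_cases hp : Even (a - 1 + c) <;> simp only [hdv, tlv, hp, if_true, if_false, mem_Bq] <;>
        omega)
    by_cases hp : Even (a - 1 + c)
    · simp only [ls, rs, hp, if_true] at h5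
      rw [show a - 1 + 1 = a by ring] at h5
      exact h5
    · simp only [ls, rs, hp, if_false] at h5
      rw [show a - 1 + 1 = a by ring] at h5
      exact h5.symm
  have key : ∀ a c : ℤ, x1 - ρ ≤ a → a ≤ x1 + ρ → x2 - ρ ≤ c → c ≤ x2 + ρ →
      f (a, c) = f (x1 - ρ, x2 - ρ) := by
    intro a c h1 h2 h3 h4
    have e1 : f (a, c) = f (x1 - ρ, c) := by
      induction a, h1 using Int.leInduction with
      | base => rfl
      | succ a ha ih => rw [hH a c ha (by omega) h3 h4, ih (by omega)]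
    rw [e1]
    clear e1
    induction c, h3 using Int.leInduction with
    | base => rfl
    | succ c hc ih => rw [hV (x1 - ρ) c le_rfl (by omega) hc (by omega), ih (by omega)]
  simp only [nm, Prod.fst_sub, Prod.snd_sub, max_le_iff, abs_le] at hs ht
  rw [show s = (s.1, s.2) from rfl, show t = (t.1, t.2) from rfl,
    key s.1 s.2 (by omega) (by omega) (by omega) (by omega),
    key t.1 t.2 (by omega) (by omega) (by omega) (by omega)]

/-- The path along the bank of a segment of an interface. -/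
theorem bank_path (b : Bool) {ω : Cfg} {e : Ed} {F : Set (ℤ × ℤ)} {p q : ℕ} (hpq : p ≤ q)
    (h : ∀ l, p ≤ l → l < q → hdv ((nx ω)^[l] e) ∈ F) :
    ReflTransGen (PStep {v | v ∈ F ∧ ω v = b}) (sd b ((nx ω)^[p] e)) (sd b ((nx ω)^[q] e)) := by
  induction q, hpq using Nat.le_induction with
  | base => exact ReflTransGen.refl
  | succ q hq ih =>
    have h3 := ih fun l h1 h2 => h l h1 (by omega)
    rw [Function.iterate_succ_apply']
    by_cases hb : ω (hdv ((nx ω)^[q] e)) = b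
    · refine h3.tail (PStep_mono ?_ ((sd_step b ω _).1 hb))
      rw [Set.singleton_subset_iff]
      exact ⟨h q hq (by omega), hb⟩
    · rw [(sd_step b ω _).2 hb]
      exact h3

theorem cor_in {x v s : ℤ × ℤ} {r : ℤ} (h : v ∈ FK.Bq x r) (hs : Cor v s) : nm (s - x) ≤ r := by
  rw [mem_Bq] at h
  simp only [Cor] at hs
  simp only [nm, Prod.fst_sub, Prod.snd_sub, max_le_iff, abs_le]
  omega

theorem cor_out {x v s : ℤ × ℤ} {R : ℤ} (h : v ∉ FK.Bq x R) (hs : Cor v s) : R ≤ nm (s - x) := by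
  rw [mem_Bq] at h
  simp only [Cor] at hs
  simp only [nm, Prod.fst_sub, Prod.snd_sub, le_max_iff, le_abs]
  omega

end Vale.Agent.P167.QC.Mid
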