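import Vale.Agent.P167.QC.Det
import Vale.Agent.P167.H161.Frz
import Vale.Agent.P167.H718.Rc3

/-!
# P167, general `q`, crossings: the frozen squares form few connected pieces
-/

namespace Vale.Agent.P167.QC

open Vale.Agent.P145.FB (PStep)
open Vale.Agent.P167.E6 Vale.Agent.P167.E2
open Vale.Agent.P167.H166 Vale.Agent.P167.H161
open Vale.Agent.P167.FKA (Cor rest mem_rest)
open Vale.Agent.P167.H718 (Dq wE etaQ mem_Dq' mem_wE mem_wiredOpen)

variable {n : ℕ} {p : ZMod n → ℤ × ℤ} {S : Finset (ℤ × ℤ)} {k : ℕ}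

section

variable (hp : IsPolygon p) (hS : Encloses p S)
include hp hS

open Classical in
/-- **Few frozen pieces.** -/
theorem frz2 {c : ℕ → ℕ} (hc : Monotone c) {M : ℕ} (hk : k < n)
    (hM : ∀ i < n, c i < M) {ρ : ℤ} (hρ : ∀ i j, i < n → j < n → c i = c j →
      nm (H192.ro (p i) - H192.ro (p j)) ≤ ρ) :
    ∃ P : Finset (ℤ × ℤ), P.card ≤ 2 * M ∧ ∀ (x : ℤ × ℤ) (r R : ℤ), r + ρ + 4 ≤ R →
      ∀ w : Cfg, (∀ v ∈ Fq p k S, nm (v - x) < r →
        ∃ q ∈ P, Conn x R (ovq p k S w) (H161.cor (ovq p k S w v) v) q) ∧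
      ∀ i < k, nm (H192.ro (p i) - x) ≤ r + 2 → ∀ d, face (p i) d ∉ S →
        ∃ q ∈ P, Conn x R (ovq p k S w) (H192.rf (face (p i) d)) q := by
  let iW : ℕ → ℕ := fun u => sInf {i | k ≤ i ∧ i < n ∧ c i = u}
  let iF : ℕ → ℕ := fun u => sInf {i | i < k ∧ c i = u}
  refine ⟨(Finset.range M).image (fun u => H192.ro (p (iW u))) ∪
    (Finset.range M).image (fun u => H192.rf (face (p (iF u)) (ri p (iF u)))), ?_, ?_⟩
  · refine (Finset.card_union_le _ _).trans ?_
    have h1 := Finset.card_image_le (s := Finset.range M) (f := fun u => H192.ro (p (iW u)))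
    have h2 := Finset.card_image_le (s := Finset.range M)
      (f := fun u => H192.rf (face (p (iF u)) (ri p (iF u))))
    rw [Finset.card_range] at h1 h2
    omega
  · intro x r R hR w
    constructor
    swap
    · intro i hi1 hnm d hi2
      rw [nm_sub_le] at hnm
      have hmem : iF (c i) ∈ {i' | i' < k ∧ c i' = c i} :=
        Nat.sInf_mem (s := {i' | i' < k ∧ c i' = c i}) ⟨i, hi1, rfl⟩
      have hle : iF (c i) ≤ i :=
        Nat.sInf_le (s := {i' | i' < k ∧ c i' = c i}) ⟨hi1, rfl⟩
      obtain ⟨g1, g3⟩ := hmem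
      have hnear : ∀ l, iF (c i) ≤ l → l ≤ i → nm (H192.ro (p l) - x) < R := by
        intro l hl1 hl2
        have h5 : c l = c i := le_antisymm (hc hl2) (by rw [← g3]; exact hc hl1)
        have h6 := hρ l i (by omega) (by omega) h5
        rw [nm_sub_le] at h6
        rw [nm_sub_lt]
        omega
      refine ⟨H192.rf (face (p (iF (c i))) (ri p (iF (c i)))), ?_, ?_⟩
      · refine Finset.mem_union_right _ (Finset.mem_image.2 ⟨c i, ?_, rfl⟩)
        exact Finset.mem_range.2 (hM i (by omega))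
      · have hch : Conn x R (ovq p k S w) (H192.rf (face (p i) (ri p i)))
            (H192.rf (face (p (iF (c i))) (ri p (iF (c i))))) :=
          (fchain hp hS hle hi1 hnear).symm
        exact (floc hp hS hi1 (hnear i hle le_rfl) hi2).symm.trans hch
    intro v hv hnm
    rw [nm_sub_lt] at hnm
    rcases hv with hv | hv
    · -- wired
      obtain ⟨i, hi1, hi2, hi3⟩ := hv
      rw [show ovq p k S w v = true from ovq_FW ⟨i, hi1, hi2, hi3⟩]
      obtain ⟨d, hd⟩ := hp.2.2 (i : ZMod n)
      have hv1 : v = H192.sq s(p i, p i + dir d) := by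
        rw [← hd, ← hi3, H192.sq_ed]
      obtain ⟨h3, h4⟩ := sq_near (p i) d
      rw [← hv1] at h3 h4
      have hmem : iW (c i) ∈ {i' | k ≤ i' ∧ i' < n ∧ c i' = c i} :=
        Nat.sInf_mem (s := {i' | k ≤ i' ∧ i' < n ∧ c i' = c i}) ⟨i, hi1, by omega, rfl⟩
      have hle : iW (c i) ≤ i :=
        Nat.sInf_le (s := {i' | k ≤ i' ∧ i' < n ∧ c i' = c i}) ⟨hi1, by omega, rfl⟩
      obtain ⟨g1, g2, g3⟩ := hmem
      have hnear : ∀ l, iW (c i) ≤ l → l ≤ i → nm (H192.ro (p l) - x) < R := by
        intro l hl1 hl2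
        have h5 : c l = c i := le_antisymm (hc hl2) (by rw [← g3]; exact hc hl1)
        have h6 := hρ l i (by omega) (by omega) h5
        rw [nm_sub_le] at h6
        rw [nm_sub_lt]
        omega
      refine ⟨H192.ro (p (iW (c i))), ?_, ?_⟩
      · refine Finset.mem_union_left _ (Finset.mem_image.2 ⟨c i, ?_, rfl⟩)
        exact Finset.mem_range.2 (hM i (by omega))
      · have hch : Conn x R (ovq p k S w) (H192.ro (p i)) (H192.ro (p (iW (c i)))) :=
          (wchain hp g1 hle (by omega) hnear).symm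
        obtain ⟨h5, h6⟩ := H192.ro_dir (p i) d
        have h7 := pa_mem h5 h6 (H192.even_ro _)
        rw [← H192.sq_dir, ← hv1] at h7
        simp only [H161.cor, if_true]
        rcases h7 with h7 | h7
        · rw [h7]
          exact hch
        · rw [h7]
          have h8 := wstep (S := S) (w := w) hp hi1 hi2 (hnear i hle le_rfl)
          have e1 : p ((i + 1 : ℕ) : ZMod n) = p i + dir d := by
            rw [← hd]
            push_cast
            rfl
          rw [e1] at h8
          exact Relation.ReflTransGen.head h8.symm hch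
    · -- free
      rw [ovq_FO hp hS hv]
      obtain ⟨i, d, hi1, hi2, hi3, hv1⟩ := hv
      obtain ⟨h3, h4⟩ := sq_near (p i) (d + 1)
      rw [← hv1] at h3 h4
      have hmem : iF (c i) ∈ {i' | i' < k ∧ c i' = c i} :=
        Nat.sInf_mem (s := {i' | i' < k ∧ c i' = c i}) ⟨i, hi1, rfl⟩
      have hle : iF (c i) ≤ i :=
        Nat.sInf_le (s := {i' | i' < k ∧ c i' = c i}) ⟨hi1, rfl⟩
      obtain ⟨g1, g3⟩ := hmem
      have hnear : ∀ l, iF (c i) ≤ l → l ≤ i → nm (H192.ro (p l) - x) < R := by
        intro l hl1 hl2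
        have h5 : c l = c i := le_antisymm (hc hl2) (by rw [← g3]; exact hc hl1)
        have h6 := hρ l i (by omega) (by omega) h5
        rw [nm_sub_le] at h6
        rw [nm_sub_lt]
        omega
      refine ⟨H192.rf (face (p (iF (c i))) (ri p (iF (c i)))), ?_, ?_⟩
      · refine Finset.mem_union_right _ (Finset.mem_image.2 ⟨c i, ?_, rfl⟩)
        exact Finset.mem_range.2 (hM i (by omega))
      · have hch : Conn x R (ovq p k S w) (H192.rf (face (p i) (ri p i)))
            (H192.rf (face (p (iF (c i))) (ri p (iF (c i))))) :=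
          (fchain hp hS hle hi1 hnear).symm
        obtain ⟨⟨h5, h6⟩, h8⟩ := face_key (p i) d
        have h7 := da_mem h5 h6 (H192.odd_rf _)
        rw [h8, ← hv1] at h7
        simp only [H161.cor, Bool.false_eq_true, if_false]
        rcases h7 with h7 | h7
        · rw [h7]
          exact (floc hp hS hi1 (hnear i hle le_rfl) hi2).symm.trans hch
        · rw [h7]
          exact (floc hp hS hi1 (hnear i hle le_rfl) hi3).symm.trans hch


end

/-- The configuration of the plane of the set `A` of open edges. -/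
noncomputable def om (p : ZMod n → ℤ × ℤ) (k : ℕ) (A : Finset (Sym2 (ℤ × ℤ))) : Cfg :=
  H192.cfg (wiredOpen p k A)

theorem om_true {A : Finset (Sym2 (ℤ × ℤ))} {v : ℤ × ℤ} :
    om p k A v = true ↔ H192.ed v ∈ A ∨ H192.ed v ∈ wE p k := by
  unfold om
  rw [H192.cfg_true, mem_wiredOpen]

theorem mem_FW {v : ℤ × ℤ} : v ∈ FW p k ↔ H192.ed v ∈ wE p k := by
  rw [mem_wE]
  rfl

theorem run_om {A : Finset (Sym2 (ℤ × ℤ))} (j : ℕ) :
    (nx (om p k A))^[j] (H192.me (cs p)) = H192.me (run p k A j) := by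
  induction j with
  | zero => rfl
  | succ j ih =>
    rw [Function.iterate_succ_apply', ih, run_succ]
    exact H192.nx_me _ (H192.cfg_hdv _)

theorem FO_not_edges {v : ℤ × ℤ} (h : v ∈ FO p k S) : H192.ed v ∉ edges S := by
  obtain ⟨i, r, -, h1, h2, rfl⟩ := h
  rw [H192.ed_sq ⟨p i, r + 1, rfl⟩, mem_edges, fin4_2]
  tauto

theorem ovq_om (hp : IsPolygon p) (hS : Encloses p S) {A : Finset (Sym2 (ℤ × ℤ))}
    (hA : A ⊆ edges S) : ovq p k S (om p k A) = om p k A := by
  funext v
  by_cases h : v ∈ Fq p k S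
  · rcases h with h | h
    · rw [ovq_FW h, om_true.2 (Or.inr (mem_FW.1 h))]
    · rw [ovq_FO hp hS h]
      by_contra hne
      have h1 : om p k A v = true := by
        cases h2 : om p k A v
        · exact absurd h2.symm hne
        · rfl
      rcases om_true.1 h1 with h3 | h3
      · exact FO_not_edges h (hA h3)
      · exact not_FW_of_FO hp hS h (mem_FW.2 h3)
  · exact ovq_off _ _ h

end Vale.Agent.P167.QC
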