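import Vale.Agent.P167.H161.Main
import Vale.Agent.P167.H718.Rc
import Vale.Agent.P167.H166.Pot
import Vale.Agent.P167.H174.Exh

/-!
# P167, general `q`, Stage II: a disc in the domain contains only random squares
-/

set_option autoImplicit false

namespace Vale.Agent.P167.QC

open Set Filter Topology
open Vale.Agent.P167.E6 Vale.Agent.P167.E2
open Vale.Agent.P167.H166 Vale.Agent.P167.H161
open Vale.Agent.P167.H718 (Dq wE mem_wE mem_Dq)
open Vale.Agent.P153.R2.Final (dom circ toC)

variable {n : ℕ} {p : ZMod n → ℤ × ℤ} {S : Finset (ℤ × ℤ)} {k : ℕ}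

theorem face_of_pt {δ : ℝ} (hδ : 0 < δ) {f g : ℤ × ℤ} {x y : ℝ} (h1 : δ * f.1 ≤ x)
    (h2 : x ≤ δ * (f.1 + 1)) (h3 : δ * f.2 ≤ y) (h4 : y ≤ δ * (f.2 + 1)) (g1 : δ * g.1 < x)
    (g2 : x < δ * (g.1 + 1)) (g3 : δ * g.2 < y) (g4 : y < δ * (g.2 + 1)) : f = g := by
  have a1 : f.1 < g.1 + 1 := by
    have : δ * (f.1 : ℝ) < δ * (g.1 + 1) := by linarith
    have := lt_of_mul_lt_mul_left this hδ.le
    exact_mod_cast this
  have a2 : g.1 < f.1 + 1 := by
    have : δ * (g.1 : ℝ) < δ * (f.1 + 1) := by linarith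
    have := lt_of_mul_lt_mul_left this hδ.le
    exact_mod_cast this
  have a3 : f.2 < g.2 + 1 := by
    have : δ * (f.2 : ℝ) < δ * (g.2 + 1) := by linarith
    have := lt_of_mul_lt_mul_left this hδ.le
    exact_mod_cast this
  have a4 : g.2 < f.2 + 1 := by
    have : δ * (g.2 : ℝ) < δ * (f.2 + 1) := by linarith
    have := lt_of_mul_lt_mul_left this hδ.le
    exact_mod_cast this
  ext <;> omega

/-- **The faces at the sides of an edge of the disc.** -/
theorem faces_in {δ : ℝ} (hδ : 0 < δ) {z : ℂ} {r : ℝ} (hK : Metric.closedBall z r ⊆ region δ S)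
    {c : Medial} (h : dist (mid δ c) z + δ / 4 ≤ r) :
    face c.1 (c.2 + 1) ∈ S ∧ face c.1 c.2 ∈ S := by
  have key : ∀ u : ℂ, ‖u‖ ≤ 1 → mid δ c + (δ / 4 : ℝ) * u ∈ region δ S := by
    intro u hu
    refine hK ?_
    rw [Metric.mem_closedBall]
    have h1 := dist_triangle (mid δ c + (δ / 4 : ℝ) * u) (mid δ c) z
    have h2 : dist (mid δ c + (δ / 4 : ℝ) * u) (mid δ c) ≤ δ / 4 := by
      rw [dist_eq_norm, add_sub_cancel_left, norm_mul, Complex.norm_real,
        Real.norm_of_nonneg (by positivity)]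
      nlinarith
    linarith
  obtain ⟨⟨a, b⟩, s⟩ := c
  have n1 : ‖(1 : ℂ)‖ ≤ 1 := by simp
  have n2 : ‖(-1 : ℂ)‖ ≤ 1 := by simp
  have n3 : ‖Complex.I‖ ≤ 1 := by simp
  have n4 : ‖-Complex.I‖ ≤ 1 := by simp
  rcases H192.fin4_cases s with rfl | rfl | rfl | rfl
  · simp only [f4_01, face0, face1]
    constructor
    · obtain ⟨f, hf, b1, b2, b3, b4⟩ := key (-1) n2
      have : f = (a - 1, b) := by
        refine face_of_pt hδ b1 b2 b3 b4 ?_ ?_ ?_ ?_ <;>
          · simp only [mid, f4_01, dir1, pt, Complex.add_re, Complex.mul_re, Complex.add_im,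
              Complex.mul_im, Complex.ofReal_re, Complex.ofReal_im, Complex.div_ofNat_re,
              Complex.div_ofNat_im, Complex.neg_re, Complex.neg_im, Complex.one_re, Complex.one_im,
              Prod.mk_add_mk]
            push_cast
            linarith
      exact this ▸ hf
    · obtain ⟨f, hf, b1, b2, b3, b4⟩ := key 1 n1
      have : f = (a, b) := by
        refine face_of_pt hδ b1 b2 b3 b4 ?_ ?_ ?_ ?_ <;>
          · simp only [mid, f4_01, dir1, pt, Complex.add_re, Complex.mul_re, Complex.add_im,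
              Complex.mul_im, Complex.ofReal_re, Complex.ofReal_im, Complex.div_ofNat_re,
              Complex.div_ofNat_im, Complex.neg_re, Complex.neg_im, Complex.one_re, Complex.one_im,
              Prod.mk_add_mk]
            push_cast
            linarith
      exact this ▸ hf
  · simp only [f4_11, face1, face2]
    constructor
    · obtain ⟨f, hf, b1, b2, b3, b4⟩ := key (-Complex.I) n4
      have : f = (a - 1, b - 1) := by
        refine face_of_pt hδ b1 b2 b3 b4 ?_ ?_ ?_ ?_ <;>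
          · simp only [mid, f4_11, dir2, pt, Complex.add_re, Complex.mul_re, Complex.add_im,
              Complex.mul_im, Complex.ofReal_re, Complex.ofReal_im, Complex.div_ofNat_re,
              Complex.div_ofNat_im, Complex.neg_re, Complex.neg_im, Complex.I_re, Complex.I_im,
              Prod.mk_add_mk]
            push_cast
            linarith
      exact this ▸ hf
    · obtain ⟨f, hf, b1, b2, b3, b4⟩ := key Complex.I n3
      have : f = (a - 1, b) := by
        refine face_of_pt hδ b1 b2 b3 b4 ?_ ?_ ?_ ?_ <;>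
          · simp only [mid, f4_11, dir2, pt, Complex.add_re, Complex.mul_re, Complex.add_im,
              Complex.mul_im, Complex.ofReal_re, Complex.ofReal_im, Complex.div_ofNat_re,
              Complex.div_ofNat_im, Complex.neg_re, Complex.neg_im, Complex.I_re, Complex.I_im,
              Prod.mk_add_mk]
            push_cast
            linarith
      exact this ▸ hf
  · simp only [f4_21, face2, face3]
    constructor
    · obtain ⟨f, hf, b1, b2, b3, b4⟩ := key 1 n1
      have : f = (a, b - 1) := by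
        refine face_of_pt hδ b1 b2 b3 b4 ?_ ?_ ?_ ?_ <;>
          · simp only [mid, f4_21, dir3, pt, Complex.add_re, Complex.mul_re, Complex.add_im,
              Complex.mul_im, Complex.ofReal_re, Complex.ofReal_im, Complex.div_ofNat_re,
              Complex.div_ofNat_im, Complex.neg_re, Complex.neg_im, Complex.one_re, Complex.one_im,
              Prod.mk_add_mk]
            push_cast
            linarith
      exact this ▸ hf
    · obtain ⟨f, hf, b1, b2, b3, b4⟩ := key (-1) n2
      have : f = (a - 1, b - 1) := by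
        refine face_of_pt hδ b1 b2 b3 b4 ?_ ?_ ?_ ?_ <;>
          · simp only [mid, f4_21, dir3, pt, Complex.add_re, Complex.mul_re, Complex.add_im,
              Complex.mul_im, Complex.ofReal_re, Complex.ofReal_im, Complex.div_ofNat_re,
              Complex.div_ofNat_im, Complex.neg_re, Complex.neg_im, Complex.one_re, Complex.one_im,
              Prod.mk_add_mk]
            push_cast
            linarith
      exact this ▸ hf
  · simp only [f4_31, face3, face0]
    constructor
    · obtain ⟨f, hf, b1, b2, b3, b4⟩ := key Complex.I n3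
      have : f = (a, b) := by
        refine face_of_pt hδ b1 b2 b3 b4 ?_ ?_ ?_ ?_ <;>
          · simp only [mid, f4_31, dir0, pt, Complex.add_re, Complex.mul_re, Complex.add_im,
              Complex.mul_im, Complex.ofReal_re, Complex.ofReal_im, Complex.div_ofNat_re,
              Complex.div_ofNat_im, Complex.neg_re, Complex.neg_im, Complex.I_re, Complex.I_im,
              Prod.mk_add_mk]
            push_cast
            linarith
      exact this ▸ hf
    · obtain ⟨f, hf, b1, b2, b3, b4⟩ := key (-Complex.I) n4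
      have : f = (a, b - 1) := by
        refine face_of_pt hδ b1 b2 b3 b4 ?_ ?_ ?_ ?_ <;>
          · simp only [mid, f4_31, dir0, pt, Complex.add_re, Complex.mul_re, Complex.add_im,
              Complex.mul_im, Complex.ofReal_re, Complex.ofReal_im, Complex.div_ofNat_re,
              Complex.div_ofNat_im, Complex.neg_re, Complex.neg_im, Complex.I_re, Complex.I_im,
              Prod.mk_add_mk]
            push_cast
            linarith
      exact this ▸ hf

/-- The distance of the midpoint of the edge of a square. -/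
theorem dist_of_sq {δ : ℝ} (hδ : 0 < δ) {z : ℂ} {c : Medial} {R : ℤ}
    (h : nm (H192.sq (ahead c) - rnd δ z) ≤ R) : dist (mid δ c) z ≤ 2 * (R + 1) * δ := by
  rw [nm_sub_le] at h
  obtain ⟨c1, c2, c3, c4⟩ := h
  obtain ⟨a1, a2, a3⟩ := sq_rnd hδ z c
  obtain ⟨-, -, b3⟩ := rot_le (mid 1 c - z / δ)
  rw [a3] at b3
  have c1' : -(R : ℝ) ≤ ((H192.sq (ahead c)).1 : ℝ) - (rnd δ z).1 := by exact_mod_cast c1
  have c2' : ((H192.sq (ahead c)).1 : ℝ) - (rnd δ z).1 ≤ (R : ℝ) := by exact_mod_cast c2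
  have c3' : -(R : ℝ) ≤ ((H192.sq (ahead c)).2 : ℝ) - (rnd δ z).2 := by exact_mod_cast c3
  have c4' : ((H192.sq (ahead c)).2 : ℝ) - (rnd δ z).2 ≤ (R : ℝ) := by exact_mod_cast c4
  have d1 : |((1 + Complex.I) * (mid 1 c - z / δ)).re| ≤ R + 1 := by
    rw [abs_le] at a1 ⊢
    constructor <;> linarith
  have d2 : |((1 + Complex.I) * (mid 1 c - z / δ)).im| ≤ R + 1 := by
    rw [abs_le] at a2 ⊢
    constructor <;> linarith
  have d3 : dist (mid δ c) z / δ ≤ 2 * (R + 1) := by linarith
  rwa [div_le_iff₀ hδ] at d3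

/-- The lattice distance of a square whose edge has its midpoint near the point. -/
theorem sq_of_dist {δ : ℝ} (hδ : 0 < δ) {z : ℂ} {c : Medial} {ρ : ℝ}
    (h : dist (mid δ c) z ≤ ρ) : nm (H192.sq (ahead c) - rnd δ z) ≤ ⌈2 * ρ / δ⌉ + 1 := by
  obtain ⟨a1, a2, a3⟩ := sq_rnd hδ z c
  obtain ⟨b1, b2, -⟩ := rot_le (mid 1 c - z / δ)
  have h4 : dist (mid δ c) z / δ ≤ ρ / δ := div_le_div_of_nonneg_right h hδ.le
  rw [a3] at b1 b2
  have h5 : 2 * ρ / δ = 2 * (ρ / δ) := by ring
  have h6 := Int.le_ceil (2 * ρ / δ)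
  rw [abs_le] at a1 a2 b1 b2
  rw [nm_sub_le]
  refine ⟨?_, ?_, ?_, ?_⟩
  · have : -((⌈2 * ρ / δ⌉ + 1 : ℤ) : ℝ) ≤ ((H192.sq (ahead c)).1 : ℝ) - (rnd δ z).1 := by
      push_cast
      linarith
    exact_mod_cast this
  · have : ((H192.sq (ahead c)).1 : ℝ) - (rnd δ z).1 ≤ ((⌈2 * ρ / δ⌉ + 1 : ℤ) : ℝ) := by
      push_cast
      linarith
    exact_mod_cast this
  · have : -((⌈2 * ρ / δ⌉ + 1 : ℤ) : ℝ) ≤ ((H192.sq (ahead c)).2 : ℝ) - (rnd δ z).2 := by
      push_cast
      linarith
    exact_mod_cast this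
  · have : ((H192.sq (ahead c)).2 : ℝ) - (rnd δ z).2 ≤ ((⌈2 * ρ / δ⌉ + 1 : ℤ) : ℝ) := by
      push_cast
      linarith
    exact_mod_cast this

/-- Every square is the square ahead of a medial edge. -/
theorem exists_ahead (q : ℤ × ℤ) : ∃ c : Medial, H192.sq (ahead c) = q ∧ ahead c = H192.ed q := by
  obtain ⟨v, r, h⟩ := H192.isEdge_ed q
  refine ⟨(v, r - 1), ?_, ?_⟩
  · unfold ahead
    simp only [fin4_1]
    rw [← h, H192.sq_ed]
  · unfold ahead
    simp only [fin4_1]
    exact h.symm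

/-- An edge with both faces in the domain is not in the polygon. -/
theorem not_poly (hp : IsPolygon p) (hS : Encloses p S) {c : Medial}
    (h1 : face c.1 (c.2 + 1) ∈ S) (h2 : face c.1 c.2 ∈ S) (i : ZMod n) :
    ahead c ≠ s(p i, p (i + 1)) := by
  intro h
  obtain ⟨r, hr⟩ := hp.2.2 i
  have h3 := (hS (p i) r).1 ⟨i, rfl, hr⟩
  rw [hr] at h
  unfold ahead at h
  rw [Sym2.eq_iff] at h
  rcases h with ⟨h4, h5⟩ | ⟨h4, h5⟩
  · rw [h4] at h5
    have h6 := add_dir_inj h5
    rw [← h4, ← h6] at h3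
    refine h3.2 ?_
    have : c.2 + 1 - 1 = c.2 := add_sub_cancel_right _ _
    rw [this]
    exact h2
  · -- the opposite direction
    have h6 : dir (c.2 + 1) = -dir r := by
      have : c.1 + dir (c.2 + 1) = p i := h5
      rw [h4] at this
      have h7 : dir r + dir (c.2 + 1) = 0 := by
        have h8 : p i + (dir r + dir (c.2 + 1)) = p i + 0 := by rw [← add_assoc, this, add_zero]
        exact add_left_cancel h8
      rw [eq_neg_iff_add_eq_zero, add_comm]
      exact h7
    rw [← dir_add_two] at h6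
    have h7 : c.2 + 1 = r + 2 := dir_inj h6
    rw [h4, h7] at h1
    rw [face_right] at h1
    exact h3.2 h1

/-- **The box of a disc of the domain.** -/
theorem box_Dq {δ : ℝ} (hδ : 0 < δ) (hp : IsPolygon p) (hS : Encloses p S) {z : ℂ} {r : ℝ}
    (hK : Metric.closedBall z r ⊆ region δ S) {R : ℤ} (hR : (2 * R + 3) * δ ≤ r) :
    FK.Bq (rnd δ z) R ⊆ Dq S p k := by
  intro q hq
  obtain ⟨c, rfl, hc⟩ := exists_ahead q
  rw [H166.mem_Bq] at hq
  have h1 : nm (H192.sq (ahead c) - rnd δ z) ≤ R := by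
    rw [nm_sub_le]
    omega
  have h2 := dist_of_sq hδ h1
  obtain ⟨h3, h4⟩ := faces_in hδ hK (c := c) (by nlinarith)
  have he : H192.IsEdge (ahead c) := H192.isEdge_ahead c
  rw [mem_Dq he]
  constructor
  · show s(c.1, c.1 + dir (c.2 + 1)) ∈ edges S
    rw [mem_edges]
    exact Or.inl h3
  · rw [mem_wE]
    rintro ⟨i, -, -, hi⟩
    exact not_poly hp hS h3 h4 (i : ZMod n) hi

theorem nm_hdv_ls (e : Ed) : nm (hdv e - ls e) ≤ 1 := by
  rw [nm_sub_le]
  rcases e with v | v <;> simp only [hdv, ls] <;> split_ifs <;> (dsimp only; omega)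

/-- **The starting point is not in the box.** -/
theorem start_far {δ : ℝ} (hδ : 0 < δ) (hp : IsPolygon p) (hS : Encloses p S) {z : ℂ} {r : ℝ}
    (hK : Metric.closedBall z r ⊆ region δ S) {R : ℤ} (hR : (2 * R + 3) * δ ≤ r) :
    R ≤ nm (ls (H192.me (cs p)) - rnd δ z) := by
  by_contra hcon
  push Not at hcon
  have h0 := nm_hdv_ls (H192.me (cs p))
  rw [H192.hdv_me] at h0
  have h1 : nm (H192.sq (ahead (cs p)) - rnd δ z) ≤ R := by
    rw [nm_sub_le] at h0 ⊢
    have h2 : nm (ls (H192.me (cs p)) - rnd δ z) ≤ R - 1 := by omega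
    rw [nm_sub_le] at h2
    omega
  have h2 := dist_of_sq hδ h1
  obtain ⟨h3, h4⟩ := faces_in hδ hK (c := cs p) (by nlinarith)
  have h5 := not_poly hp hS h3 h4 (-1)
  rw [neg_add_cancel] at h5
  exact h5 (cs_ahead hp)

/-- A closed disc in the domain is eventually enclosed. -/
theorem exists_ball {Φ : (ℝ × ℝ) ≃ₜ (ℝ × ℝ)} {δ : ℕ → ℝ} {N k : ℕ → ℕ}
    {p : ∀ n, ZMod (N n) → ℤ × ℤ} {S : ℕ → Finset (ℤ × ℤ)} (h : Approx Φ δ N k p S) {z : ℂ}
    (hz : z ∈ toC '' dom Φ) : ∃ r : ℝ, 0 < r ∧
      ∀ᶠ n in atTop, Metric.closedBall z r ⊆ region (δ n) (S n) := by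
  have h1 : IsOpen (toC '' dom Φ) := Vale.Agent.P153.R2.R1.isOpen_DC Φ
  obtain ⟨r, hr, h2⟩ := Metric.isOpen_iff.1 h1 z hz
  refine ⟨r / 2, by positivity, H174.exhausts_of_approx h _ ?_ (isCompact_closedBall z (r / 2))⟩
  exact (Metric.closedBall_subset_ball (by linarith)).trans h2

end Vale.Agent.P167.QC
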