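import Vale.Agent.P167.QC.S2Geo
import Vale.Agent.P167.QC.Lat
import Vale.Agent.P167.FKA.All
import Vale.Agent.P167.H192.S2.Near
import Vale.Agent.P167.H397.Q.S2Defs

/-!
# P167, general `q`, Stage II, (1c): the interface does not come near a fixed interior point
-/

set_option autoImplicit false

namespace Vale.Agent.P167.QC

open Set Filter Topology
open Vale.Agent.P167.E6 Vale.Agent.P167.E2
open Vale.Agent.P167.H166 Vale.Agent.P167.H161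
open Vale.Agent.P153.R2.Final (dom circ toC)

/-- Radii. -/
theorem s2_radii {δ ρ r₀ : ℝ} (hδ : 0 < δ) (hρ : 0 < ρ) (h1 : 4 * ρ ≤ r₀ / 8) (h2 : 8 * δ ≤ ρ) :
    1 ≤ ⌈2 * (ρ + δ) / δ⌉ + 2 ∧ ⌈2 * (ρ + δ) / δ⌉ + 2 ≤ ⌊r₀ / (2 * δ)⌋ - 2 ∧
    (2 * ((⌊r₀ / (2 * δ)⌋ - 2 : ℤ) : ℝ) + 3) * δ ≤ r₀ ∧
    ((⌈2 * (ρ + δ) / δ⌉ + 2 : ℤ) : ℝ) / ((⌊r₀ / (2 * δ)⌋ - 2 : ℤ) : ℝ) ≤ 16 * ρ / r₀ := by
  have a1 := Int.le_ceil (2 * (ρ + δ) / δ)
  have a2 := Int.ceil_lt_add_one (2 * (ρ + δ) / δ)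
  have a3 := Int.floor_le (r₀ / (2 * δ))
  have a4 := Int.lt_floor_add_one (r₀ / (2 * δ))
  have e1 : 2 * (ρ + δ) / δ = 2 * (ρ / δ) + 2 := by field_simp
  have e2 : r₀ / (2 * δ) = (r₀ / δ) / 2 := by field_simp
  rw [e1] at a1 a2
  rw [e2] at a3 a4
  have hx : 8 ≤ ρ / δ := by rw [le_div_iff₀ hδ]; linarith
  have hy : 32 * (ρ / δ) ≤ r₀ / δ := by
    rw [← mul_div_assoc]
    exact div_le_div_of_nonneg_right (by linarith) hδ.le
  rw [e1, e2]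
  refine ⟨?_, ?_, ?_, ?_⟩
  · have : 0 ≤ ⌈2 * (ρ / δ) + 2⌉ := Int.ceil_nonneg (by positivity)
    omega
  · have : (⌈2 * (ρ / δ) + 2⌉ : ℝ) + 2 ≤ (⌊r₀ / δ / 2⌋ : ℝ) - 2 := by linarith
    exact_mod_cast this
  · push_cast
    have : (2 * ((⌊r₀ / δ / 2⌋ : ℝ) - 2) + 3) * δ ≤ (r₀ / δ) * δ :=
      mul_le_mul_of_nonneg_right (by linarith) hδ.le
    rwa [div_mul_cancel₀ _ hδ.ne'] at this
  · push_cast
    have hr0 : 0 < r₀ := by linarith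
    have h3 : 16 * ρ / r₀ = 16 * (ρ / δ) / (r₀ / δ) := by field_simp
    rw [h3, div_le_div_iff₀ (by linarith) (by positivity)]
    have h4 : (⌈2 * (ρ / δ) + 2⌉ : ℝ) + 2 ≤ 3 * (ρ / δ) := by linarith
    have h5 : r₀ / δ / 4 ≤ (⌊r₀ / δ / 2⌋ : ℝ) - 2 := by linarith
    have h6 : 0 ≤ r₀ / δ := by positivity
    nlinarith

open Classical in
/-- **(1c)**: the interface does not come near a fixed interior point. -/
theorem s_near {q : ℝ} (hq1 : 1 ≤ q) (hq4 : q ≤ 4) : H397.Q.S_near q := by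
  intro Φ δ N k p S h z hz ε hε
  have hq0 : 0 < q := by linarith
  obtain ⟨hQ, hR⟩ := rsw_sqrt hq1 hq4
  obtain ⟨α, C, hα, hC, hA, -⟩ := FKA.arm_fk hQ hR
  obtain ⟨r₀, hr₀, hball⟩ := exists_ball h hz
  obtain ⟨ρ, hρ, hρ1, hρ2⟩ : ∃ ρ : ℝ, 0 < ρ ∧ 4 * ρ ≤ r₀ / 8 ∧ C * (16 * ρ / r₀) ^ α ≤ ε := by
    have h1 : Tendsto (fun ρ : ℝ => C * (16 * ρ / r₀) ^ α) (𝓝[>] 0) (𝓝 0) := by
      have h2 : Tendsto (fun ρ : ℝ => 16 * ρ / r₀) (𝓝[>] 0) (𝓝 0) := by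
        have : Tendsto (fun ρ : ℝ => 16 * ρ / r₀) (𝓝 0) (𝓝 (16 * 0 / r₀)) :=
          Continuous.tendsto (by fun_prop) 0
        rw [mul_zero, zero_div] at this
        exact this.mono_left nhdsWithin_le_nhds
      have h3 := (h2.rpow_const (p := α) (Or.inr hα.le)).const_mul C
      rw [Real.zero_rpow hα.ne', mul_zero] at h3
      exact h3
    have h4 : ∀ᶠ ρ : ℝ in 𝓝[>] 0, ρ < r₀ / 32 :=
      (gt_mem_nhds (by positivity : (0 : ℝ) < r₀ / 32)).filter_mono nhdsWithin_le_nhds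
    obtain ⟨ρ, h5, h6, h7⟩ := ((h1.eventually (ge_mem_nhds hε)).and
      (h4.and self_mem_nhdsWithin)).exists
    exact ⟨ρ, h7, by linarith, h5⟩
  obtain ⟨h1, h2, -⟩ := h
  refine ⟨ρ, hρ, fun c hc => ?_⟩
  filter_upwards [hball, h2.eventually (gt_mem_nhds (show (0 : ℝ) < ρ / 8 by positivity))]
    with n hn1 hn2
  obtain ⟨hδ, hk0, hkN, hp, hS⟩ := h1 n
  obtain ⟨b1, b2, b3, b4⟩ := s2_radii hδ hρ hρ1 (by linarith : 8 * δ n ≤ ρ)
  set rb : ℤ := ⌈2 * (ρ + δ n) / δ n⌉ + 2 with hrb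
  set Rb : ℤ := ⌊r₀ / (2 * δ n)⌋ - 2 with hRb
  have h3 := H192.S2.near_mean (k := k n) hq1 hA hp hS (z := rnd (δ n) z) b1 b2
    (fun v hv => box_Dq hδ hp hS hn1 b3 (Finset.mem_sdiff.1 hv).1)
    (start_far hδ hp hS hn1 b3)
  refine (mean_mono' hq0 fun A hA => ?_).trans (h3.trans (le_trans ?_ hρ2))
  · by_cases h4 : A ∈ {A | ∃ t, dist (c n A t) z < ρ}
    · rw [indicator_of_mem h4]
      obtain ⟨t, ht⟩ := h4
      have h5 : c n A = crv (p n) (k n) (δ n) A := isInterface_unique hp hS hkN hA (hc n A hA)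
      obtain ⟨u, -, -, hu⟩ := near_crv hδ.le hp hS hk0 hkN hA
      have h6 := hu t
      rw [← h5] at h6
      have h7 : dist (mid (δ n) (run (p n) (k n) A (u t))) z ≤ ρ + δ n := by
        have := dist_triangle (mid (δ n) (run (p n) (k n) A (u t))) (c n A t) z
        rw [dist_comm (mid (δ n) (run (p n) (k n) A (u t))) (c n A t)] at this
        linarith
      have h8 := sq_of_dist hδ h7
      have h9 := nm_hdv_ls (H192.me (run (p n) (k n) A (u t)))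
      rw [H192.hdv_me] at h9
      have h10 : ∃ j, nm (ls (H192.me (run (p n) (k n) A j)) - rnd (δ n) z) ≤ rb := by
        refine ⟨u t, ?_⟩
        rw [nm_sub_le] at h8 h9 ⊢
        omega
      rw [if_pos h10]
      exact le_rfl
    · rw [indicator_of_notMem h4]
      split_ifs <;> norm_num
  · refine mul_le_mul_of_nonneg_left ?_ hC.le
    refine Real.rpow_le_rpow ?_ b4 hα.le
    have : (0 : ℝ) ≤ rb := by exact_mod_cast (by omega : (0 : ℤ) ≤ rb)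
    have : (0 : ℝ) ≤ Rb := by exact_mod_cast (by omega : (0 : ℤ) ≤ Rb)
    positivity

end Vale.Agent.P167.QC
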