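import Vale.Agent.P167.QC.Lat
import Vale.Agent.P167.H161.Main

/-!
# P167, general `q`, crossings: the numbers of crossings are tight
-/

namespace Vale.Agent.P167.QC

open Set Filter Topology
open Vale.Agent.P167.E6 Vale.Agent.P167.E2
open Vale.Agent.P167.H161
open Vale.Agent.P153.R2.C1 (Cross)
open Vale.Agent.P153.R2.Final (dom circ toC)

theorem RExc.anti {n : ℕ} {p : ZMod n → ℤ × ℤ} {k : ℕ} {A : Finset (Sym2 (ℤ × ℤ))} {x : ℤ × ℤ}
    {r R : ℤ} {m m' : ℕ} (h : RExc p k A x r R m) (hm : m' ≤ m) : RExc p k A x r R m' := by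
  obtain ⟨t, ht, h⟩ := h
  exact ⟨t, ht, fun j hj => h j (by omega)⟩

theorem mean_sum' {q : ℝ} {n : ℕ} {p : ZMod n → ℤ × ℤ} {k : ℕ} {S : Finset (ℤ × ℤ)} {ι : Type*}
    (I : Finset ι) (F : ι → Finset (Sym2 (ℤ × ℤ)) → ℝ) :
    Final.mean q p k S (fun A => ∑ i ∈ I, F i A) = ∑ i ∈ I, Final.mean q p k S (F i) := by
  unfold Final.mean
  rw [← Finset.sum_div, Finset.sum_comm]
  congr 1
  exact Finset.sum_congr rfl fun A _ => by rw [Finset.mul_sum]

open Classical in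
/-- Tail of the number of the excursions, ratio `1 / 2`. -/
theorem rexc_meanq {q : ℝ} (hq1 : 1 ≤ q) (hq4 : q ≤ 4) : ∃ κ : ℤ, 2 ≤ κ ∧ ∀ (n : ℕ)
    (p : ZMod n → ℤ × ℤ) (S : Finset (ℤ × ℤ)) (k : ℕ),
    IsPolygon p → Encloses p S → 0 < k → k < n → ∀ (c : ℕ → ℕ), Monotone c → ∀ (M : ℕ),
    (∀ i < n, c i < M) → ∀ ρ : ℤ, 0 ≤ ρ → (∀ i j, i < n → j < n → c i = c j →
      nm (H192.ro (p i) - H192.ro (p j)) ≤ ρ) →
    ∀ (x : ℤ × ℤ) (r R : ℤ), 1 ≤ r → κ * r ≤ R → κ * r + ρ + 4 ≤ R → ∀ m : ℕ,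
      Final.mean q p k S (fun A => if RExc p k A x r R m then 1 else 0) ≤
        4 * (1 / 2) ^ ((m - 2 * M) / 2) := by
  have hq0 : 0 < q := by linarith
  obtain ⟨α, C, hα, hC, h⟩ := rexc_tail hq1 hq4
  obtain ⟨L, hL, hL4⟩ : ∃ L : ℕ, C * ((1 : ℝ) / L) ^ α ≤ 1 / 2 ∧ 4 ≤ L := by
    have h1 : Tendsto (fun L : ℕ => C * ((1 : ℝ) / L) ^ α) atTop (𝓝 0) := by
      have h2 : Tendsto (fun L : ℕ => (1 : ℝ) / L) atTop (𝓝 0) :=
        tendsto_const_div_atTop_nhds_zero_nat 1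
      have h3 := (h2.rpow_const (p := α) (Or.inr hα.le)).const_mul C
      rw [Real.zero_rpow hα.ne', mul_zero] at h3
      exact h3
    obtain ⟨L, h2, h3⟩ := ((h1.eventually (ge_mem_nhds (show (0 : ℝ) < 1 / 2 by norm_num))).and
      (eventually_ge_atTop 4)).exists
    exact ⟨L, h2, h3⟩
  refine ⟨L + 1, by omega, fun n p S k hp hS h0 hk c hc M hM ρ hρ0 hρ x r R hr hR hR' m => ?_⟩
  have hLr : (4 : ℤ) ≤ L := by exact_mod_cast hL4
  have hr' : (1 : ℝ) ≤ r := by exact_mod_cast hr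
  have hL0 : (0 : ℝ) < L := by positivity
  have hratio : (r : ℝ) / ((L * r : ℤ) : ℝ) = 1 / L := by
    push_cast
    field_simp
  have hbase : C * ((r : ℝ) / ((L * r : ℤ) : ℝ)) ^ α ≤ 1 / 2 := by rw [hratio]; exact hL
  have hbase0 : 0 ≤ C * ((r : ℝ) / ((L * r : ℤ) : ℝ)) ^ α := by rw [hratio]; positivity
  have htriv : ∀ E : Finset (Sym2 (ℤ × ℤ)) → Prop,
      Final.mean q p k S (fun A => if E A then 1 else 0) ≤ 1 := by
    intro E
    refine (mean_le_Pr (k := k) hq0 hp hS E Set.univ fun _ _ _ => Set.mem_univ _).trans ?_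
    exact FKA.Pr_le_one (Real.sqrt_pos.2 hq0) _
  by_cases hm : m ≤ 2 * M
  · have h1 : (m - 2 * M) / 2 = 0 := by omega
    rw [h1, pow_zero]
    exact (htriv _).trans (by norm_num)
  · push Not at hm
    have h2 := h n p S k hp hS h0 hk c hc M hM ρ hρ0 hρ x r (L * r) R hr (by nlinarith) (by linarith)
      (hbase.trans (by norm_num)) ((m - 2 * M + 1) / 2) (by omega)
    refine le_trans ?_ (h2.trans ?_)
    · refine mean_mono' hq0 fun A _ => ?_
      by_cases h3 : RExc p k A x r R m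
      · rw [if_pos h3, if_pos (RExc.anti h3 (by omega))]
      · rw [if_neg h3]
        split_ifs <;> norm_num
    · refine mul_le_mul_of_nonneg_left ?_ (by norm_num)
      refine (pow_le_pow_left₀ hbase0 hbase _).trans ?_
      exact pow_le_pow_of_le_one (by norm_num) (by norm_num) (by omega)

open Classical in
/-- **The numbers of crossings of the interface are tight**, lattice form. -/
theorem scross_meanq {q : ℝ} (hq1 : 1 ≤ q) (hq4 : q ≤ 4) {Φ : (ℝ × ℝ) ≃ₜ (ℝ × ℝ)} {δ : ℕ → ℝ} {N k : ℕ → ℕ}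
    {p : ∀ n, ZMod (N n) → ℤ × ℤ} {S : ℕ → Finset (ℤ × ℤ)} (h : Approx Φ δ N k p S) (y : ℂ)
    {r r' : ℝ} (h0 : 0 ≤ r) (hr : r < r') {e : ℝ} (he : 0 < e) : ∃ m : ℕ, ∀ᶠ n in atTop,
      Final.mean q (p n) (k n) (S n) (fun A => if SCross (fun j => mid (δ n) (run (p n) (k n) A j))
        (len (p n) (k n) A) y r r' m then 1 else 0) ≤ e := by
  have hq0 : 0 < q := by linarith
  obtain ⟨κ, hκ, hκ2⟩ := rexc_meanq hq1 hq4
  obtain ⟨h1, h2, h3⟩ := h
  set K : ℝ := (κ : ℝ) with hK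
  have hK2 : (2 : ℝ) ≤ K := by rw [hK]; exact_mod_cast hκ
  set d : ℝ := (r' - r) / 2 with hd
  have hd0 : 0 < d := by rw [hd]; linarith
  set ρ₀ : ℝ := d / (64 * K) with hρ₀
  have hρpos : 0 < ρ₀ := by rw [hρ₀]; positivity
  set ε : ℝ := d / 192 with hε
  have hε0 : 0 < ε := by rw [hε]; positivity
  obtain ⟨M, hM⟩ := blocks Φ hε0
  obtain ⟨Zs, -, hZf, hZc⟩ := (isCompact_closedBall y r').finite_cover_balls hρpos
  set Z : Finset ℂ := hZf.toFinset with hZ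
  have hZ1 : ∀ u, dist u y ≤ r' → ∃ z ∈ Z, dist u z ≤ ρ₀ := by
    intro u hu
    have := hZc (Metric.mem_closedBall.2 hu)
    simp only [mem_iUnion, Metric.mem_ball] at this
    obtain ⟨z, hz, hz'⟩ := this
    exact ⟨z, hZf.mem_toFinset.2 hz, hz'.le⟩
  have hZpos : 0 < Z.card := by
    obtain ⟨z, hz, -⟩ := hZ1 y (by rw [dist_self]; linarith)
    exact Finset.card_pos.2 ⟨z, hz⟩
  -- the number of crossings
  obtain ⟨l, hl⟩ : ∃ l : ℕ, Z.card * (4 * (1 / 2 : ℝ) ^ l) ≤ e := by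
    have h4 : Tendsto (fun l : ℕ => (Z.card : ℝ) * (4 * (1 / 2 : ℝ) ^ l)) atTop (𝓝 0) := by
      have := ((tendsto_pow_atTop_nhds_zero_of_lt_one (r := (1 / 2 : ℝ)) (by norm_num)
        (by norm_num)).const_mul 4).const_mul (Z.card : ℝ)
      simpa using this
    exact ((h4.eventually (gt_mem_nhds he)).exists).imp fun _ h => h.le
  refine ⟨Z.card * (2 * l + 2 * M), ?_⟩
  have hdiv : (Z.card * (2 * l + 2 * M) / Z.card - 2 * M) / 2 = l := by
    rw [Nat.mul_div_cancel_left _ hZpos]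
    omega
  filter_upwards [h2.eventually (gt_mem_nhds (show (0 : ℝ) < d / (16 * (K + 3)) by positivity)),
    h3 ε hε0] with n hn1 hn2
  obtain ⟨s, hs, hs0, -, hsN, hsd⟩ := hn2
  obtain ⟨hδ, hk0, hkN, hp, hS⟩ := h1 n
  obtain ⟨c, hc, hcM, hcρ⟩ := hM (δ n) (N n) (p n) s hδ hs hs0 hsN hsd
  have hrad := radii hK2 hd0 hδ hn1
  -- radii
  set rb : ℤ := ⌈2 * ρ₀ / δ n⌉ + 2 with hrb
  set Rb : ℤ := ⌊(d - δ n - ρ₀) / (2 * δ n)⌋ - 3 with hRb
  set ρ : ℤ := ⌊6 * ε / δ n⌋ with hρ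
  have b1 := Int.le_ceil (2 * ρ₀ / δ n)
  have b2 := Int.ceil_lt_add_one (2 * ρ₀ / δ n)
  have b3 := Int.floor_le ((d - δ n - ρ₀) / (2 * δ n))
  have b4 := Int.lt_floor_add_one ((d - δ n - ρ₀) / (2 * δ n))
  have b5 := Int.floor_le (6 * ε / δ n)
  have b6 : 0 ≤ ρ := Int.floor_nonneg.2 (by positivity)
  have b7 : (1 : ℤ) ≤ rb := by
    have : 0 ≤ ⌈2 * ρ₀ / δ n⌉ := Int.ceil_nonneg (by positivity)
    omega
  have b8 : κ * rb + ρ + 4 ≤ Rb := by
    have : (κ : ℝ) * (rb : ℝ) + (ρ : ℝ) + 4 ≤ (Rb : ℝ) := by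
      have c1 : (rb : ℝ) ≤ 2 * ρ₀ / δ n + 3 := by
        rw [hrb]; push_cast; linarith
      have c2 : (κ : ℝ) * (rb : ℝ) ≤ K * (2 * ρ₀ / δ n + 3) :=
        mul_le_mul_of_nonneg_left c1 (by linarith)
      have c3 : (Rb : ℝ) ≥ (d - δ n - ρ₀) / (2 * δ n) - 4 := by
        rw [hRb]; push_cast; linarith
      have c4 : (ρ : ℝ) ≤ 6 * ε / δ n := b5
      linarith
    exact_mod_cast this
  have b9 : κ * rb ≤ Rb := by omega
  -- the estimate
  have key : ∀ A : Finset (Sym2 (ℤ × ℤ)), (if SCross (fun j => mid (δ n) (run (p n) (k n) A j))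
        (len (p n) (k n) A) y r r' (Z.card * (2 * l + 2 * M)) then (1 : ℝ) else 0) ≤
      ∑ z ∈ Z, if RExc (p n) (k n) A (rnd (δ n) z) rb Rb
        (Z.card * (2 * l + 2 * M) / Z.card) then (1 : ℝ) else 0 := by
    intro A
    split_ifs with hA
    · have h5 : r + d + δ n ≤ r' := by
        have : δ n < d := by
          refine hn1.trans_le ?_
          rw [div_le_iff₀ (by positivity)]
          nlinarith
        rw [hd] at this ⊢
        linarith
      obtain ⟨z, hz, hz1⟩ := hA.cover (r₁ := r + d) (δ := δ n) (ρ₀ := ρ₀)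
        (fun j _ => by rw [run_succ]; exact mid_next (δ n) hδ.le _ _) hδ.le (by linarith) h5
        (by linarith) hZ1
      have h6 : r' - (r + d) - δ n - ρ₀ = d - δ n - ρ₀ := by rw [hd]; ring
      rw [h6] at hz1
      have h7 : RExc (p n) (k n) A (rnd (δ n) z) rb Rb (Z.card * (2 * l + 2 * M) / Z.card) := by
        refine rexc_of_scross hδ ?_ ?_ hz1
        · rw [hrb]; push_cast; linarith
        · have h8 : (d - δ n - ρ₀) / δ n = 2 * ((d - δ n - ρ₀) / (2 * δ n)) := by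
            field_simp
          rw [h8, hRb]
          push_cast
          linarith
      calc (1 : ℝ) = if RExc (p n) (k n) A (rnd (δ n) z) rb Rb
            (Z.card * (2 * l + 2 * M) / Z.card) then (1 : ℝ) else 0 := by rw [if_pos h7]
        _ ≤ _ := Finset.single_le_sum (f := fun z => if RExc (p n) (k n) A (rnd (δ n) z) rb Rb
            (Z.card * (2 * l + 2 * M) / Z.card) then (1 : ℝ) else 0)
            (fun z _ => by
              show (0 : ℝ) ≤ if RExc (p n) (k n) A (rnd (δ n) z) rb Rb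
                (Z.card * (2 * l + 2 * M) / Z.card) then (1 : ℝ) else 0
              split_ifs <;> norm_num) hz
    · exact Finset.sum_nonneg fun z _ => by split_ifs <;> norm_num
  refine (mean_mono' hq0 fun A _ => key A).trans ?_
  rw [mean_sum']
  refine le_trans ?_ hl
  rw [← nsmul_eq_mul]
  refine Finset.sum_le_card_nsmul _ _ _ fun z _ => ?_
  have h9 := hκ2 (N n) (p n) (S n) (k n) hp hS hk0 hkN c hc M hcM ρ b6
    (fun i j hi hj hij => Int.le_floor.2 (hcρ i j hi hj hij)) (rnd (δ n) z) rb Rb b7 b9 b8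
    (Z.card * (2 * l + 2 * M) / Z.card)
  rw [hdiv] at h9
  exact h9

open Classical in
/-- **The numbers of crossings are tight** for all curves near the interfaces. -/
theorem near_meanq {q : ℝ} (hq1 : 1 ≤ q) (hq4 : q ≤ 4) {Φ : (ℝ × ℝ) ≃ₜ (ℝ × ℝ)} {δ : ℕ → ℝ} {N k : ℕ → ℕ}
    {p : ∀ n, ZMod (N n) → ℤ × ℤ} {S : ℕ → Finset (ℤ × ℤ)} (h : Approx Φ δ N k p S)
    {X : ∀ n, Finset (Sym2 (ℤ × ℤ)) → C(unitInterval, ℂ)} {η : ℕ → ℝ} (hη : Tendsto η atTop (𝓝 0))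
    (hX : ∀ n, ∀ A ⊆ edges (S n), Near (fun j => mid (δ n) (run (p n) (k n) A j))
      (len (p n) (k n) A) (X n A) (η n)) (y : ℂ)
    {r r' : ℝ} (h0 : 0 ≤ r) (hr : r < r') {e : ℝ} (he : 0 < e) : ∃ m : ℕ, ∀ᶠ n in atTop,
      Final.mean q (p n) (k n) (S n) (fun A => if Cross (X n A) y r r' m then 1 else 0) ≤ e := by
  obtain ⟨m, hm⟩ := scross_meanq hq1 hq4 h y (r := r + (r' - r) / 3) (r' := r' - (r' - r) / 3)
    (by linarith) (by linarith) he
  refine ⟨m, ?_⟩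
  filter_upwards [hm, hη.eventually (gt_mem_nhds (show (0 : ℝ) < (r' - r) / 3 by linarith))]
    with n hn1 hn2
  refine (mean_mono' (by linarith) fun A hA => ?_).trans hn1
  split_ifs with h1 h2 h2
  · exact le_rfl
  · exact absurd ((hX n A hA).cross (by linarith) (by linarith) h1) h2
  · exact zero_le_one
  · exact le_rfl

end Vale.Agent.P167.QC
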