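import Vale.Agent.P167.H161.Box

/-!
# P167, general `q`, Lemma M (three strands, one between the two others), 1: flows of medial edges
and their potentials
-/

namespace Vale.Agent.P167.QC.Mid

open Finset
open Vale.Agent.P167.H166
open Vale.Agent.P167.H161

/-- The divergence of a flow (positive to the right and upwards) at a square. -/
def dv (U : Ed → ℤ) (v : ℤ × ℤ) : ℤ :=
  U (Sum.inl v) + U (Sum.inr v) - U (Sum.inl (v.1 - 1, v.2)) - U (Sum.inr (v.1, v.2 - 1))

/-- The unit flow along a medial edge. -/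
def uf (e : Ed) : Ed → ℤ := fun e' => if e' = e then sg e else 0

theorem dv_uf (e : Ed) (v : ℤ × ℤ) :
    dv (uf e) v = (if v = tlv e then 1 else 0) - (if v = hdv e then 1 else 0) := by
  obtain ⟨x, y⟩ := v
  rcases e with ⟨a, b⟩ | ⟨a, b⟩ <;> by_cases hp : Even (a + b) <;>
    simp only [dv, uf, sg, hdv, tlv, hp, if_true, if_false, Sum.inl.injEq, Sum.inr.injEq,
      Prod.mk.injEq, reduceCtorEq] <;> split_ifs <;> omega

/-- The flow along the interface from the index `i` to the index `j`. -/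
def orb (ω : Cfg) (e : Ed) (i j : ℕ) : Ed → ℤ := fun e' =>
  ∑ l ∈ Finset.Ico i j, uf ((nx ω)^[l] e) e'

theorem dv_sum {ι : Type*} (s : Finset ι) (U : ι → Ed → ℤ) (v : ℤ × ℤ) :
    dv (fun e' => ∑ l ∈ s, U l e') v = ∑ l ∈ s, dv (U l) v := by
  simp only [dv, Finset.sum_add_distrib, Finset.sum_sub_distrib]

theorem dv_orb (ω : Cfg) (e : Ed) {i j : ℕ} (h : i < j) (v : ℤ × ℤ) :
    dv (orb ω e i j) v = (if v = tlv ((nx ω)^[i] e) then 1 else 0) -
      (if v = hdv ((nx ω)^[j - 1] e) then 1 else 0) := by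
  induction j, h using Nat.le_induction with
  | base =>
    unfold orb
    rw [dv_sum, Nat.Ico_succ_singleton, Finset.sum_singleton, dv_uf]
    simp
  | succ j hj ih =>
    have h1 : dv (orb ω e i (j + 1)) v = dv (orb ω e i j) v + dv (uf ((nx ω)^[j] e)) v := by
      unfold orb
      rw [dv_sum, dv_sum, Finset.sum_Ico_succ_top (by omega)]
    rw [h1, ih, dv_uf]
    have h2 : (nx ω)^[j] e = nx ω ((nx ω)^[j - 1] e) := by
      rw [← Function.iterate_succ_apply' (nx ω), show (j - 1).succ = j by omega]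
    have h3 : tlv ((nx ω)^[j] e) = hdv ((nx ω)^[j - 1] e) := by
      rw [h2, tlv_nx]
    rw [h3, Nat.add_sub_cancel]
    ring

/-- The flow from `p` to `q` on the line. -/
def seg (p q x : ℤ) : ℤ := (if p ≤ x ∧ x < q then 1 else 0) - (if q ≤ x ∧ x < p then 1 else 0)

theorem seg_dv (p q x : ℤ) :
    seg p q x - seg p q (x - 1) = (if x = p then 1 else 0) - (if x = q then 1 else 0) := by
  unfold seg
  split_ifs <;> omega

theorem seg_ne {p q x : ℤ} (h : seg p q x ≠ 0) : min p q ≤ x ∧ x < max p q := by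
  unfold seg at h
  split_ifs at h <;> omega

/-- The flow from the square `p` to the square `q`: first horizontal, then vertical. -/
def UL (p q : ℤ × ℤ) : Ed → ℤ
  | Sum.inl v => if v.2 = p.2 then seg p.1 q.1 v.1 else 0
  | Sum.inr v => if v.1 = q.1 then seg p.2 q.2 v.2 else 0

theorem dv_UL (p q v : ℤ × ℤ) :
    dv (UL p q) v = (if v = p then 1 else 0) - (if v = q then 1 else 0) := by
  obtain ⟨x, y⟩ := v
  obtain ⟨p1, p2⟩ := p
  obtain ⟨q1, q2⟩ := q
  have h1 := seg_dv p1 q1 x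
  have h2 := seg_dv p2 q2 y
  simp only [dv, UL, Prod.mk.injEq]
  by_cases h3 : y = p2
  · by_cases h4 : x = q1
    · simp only [h3, h4, if_true, and_true, true_and] at h1 h2 ⊢
      split_ifs at h1 h2 ⊢ <;> omega
    · simp only [h3, h4, if_true, if_false, and_true, false_and] at h1 h2 ⊢
      split_ifs at h1 h2 ⊢ <;> omega
  · by_cases h4 : x = q1
    · simp only [h3, h4, if_true, if_false, and_false, true_and] at h1 h2 ⊢
      split_ifs at h1 h2 ⊢ <;> omega
    · simp only [h3, h4, if_false, and_false, false_and]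
      omega

/-- The rectangle spanned by two squares. -/
def hull (p q : ℤ × ℤ) : Set (ℤ × ℤ) :=
  {v | min p.1 q.1 ≤ v.1 ∧ v.1 ≤ max p.1 q.1 ∧ min p.2 q.2 ≤ v.2 ∧ v.2 ≤ max p.2 q.2}

theorem UL_hull {p q : ℤ × ℤ} {e : Ed} (h : UL p q e ≠ 0) : hdv e ∈ hull p q ∧ tlv e ∈ hull p q := by
  obtain ⟨p1, p2⟩ := p
  obtain ⟨q1, q2⟩ := q
  have key : ∀ P : Prop, (¬ P → UL (p1, p2) (q1, q2) e = 0) → P := fun P hP => by
    by_contra hn
    exact h (hP hn)
  rcases e with ⟨a, b⟩ | ⟨a, b⟩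
  · have h1 : b = p2 := key _ fun hn => by simp [UL, hn]
    have h2 : min p1 q1 ≤ a ∧ a < max p1 q1 := by
      refine seg_ne fun hn => h ?_
      simp [UL, hn]
    by_cases hp : Even (a + b) <;> simp only [hull, hdv, tlv, hp, if_true, if_false,
      Set.mem_ofPred_eq] <;> omega
  · have h1 : a = q1 := key _ fun hn => by simp [UL, hn]
    have h2 : min p2 q2 ≤ b ∧ b < max p2 q2 := by
      refine seg_ne fun hn => h ?_
      simp [UL, hn]
    by_cases hp : Even (a + b) <;> simp only [hull, hdv, tlv, hp, if_true, if_false,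
      Set.mem_ofPred_eq] <;> omega

/-- Existence of the potential of a flow. -/
theorem exists_PotU {x : ℤ × ℤ} {R : ℤ} {U : Ed → ℤ} (h : ∀ v ∈ FK.Bq x R, dv U v = 0) :
    ∃ w : ℤ × ℤ → ℤ, ∀ e : Ed, (hdv e ∈ FK.Bq x R ∨ tlv e ∈ FK.Bq x R) →
      w (ls e) = w (rs e) + sg e * U e := by
  classical
  obtain ⟨x1, x2⟩ := x
  obtain ⟨w, h1, h2⟩ := exists_pot (fun x y => -U (Sum.inr (x, y - 1)))
    (fun x y => U (Sum.inl (x - 1, y))) (x1 - R) (x2 - R) (x1 + R) (x2 + R) (by
      intro x y a1 a2 a3 a4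
      have := h (x, y) (by rw [mem_Bq]; simp only; omega)
      simp only [dv] at this
      have e1 : x + 1 - 1 = x := by ring
      have e2 : y + 1 - 1 = y := by ring
      rw [e1, e2]
      linarith)
  refine ⟨fun s => w s.1 s.2, ?_⟩
  rintro (⟨x, y⟩ | ⟨x, y⟩) he
  · have hb : x1 - R ≤ x + 1 ∧ x + 1 ≤ x1 + R ∧ x2 - R ≤ y ∧ y < x2 + R := by
      simp only [hdv, tlv, mem_Bq] at he
      by_cases hp : Even (x + y) <;> simp only [hp, if_true, if_false] at he <;> omega
    have h3 := h2 (x + 1) y hb.1 hb.2.1 hb.2.2.1 hb.2.2.2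
    have e1 : x + 1 - 1 = x := by ring
    rw [e1] at h3
    by_cases hp : Even (x + y) <;> simp only [ls, rs, sg, hp, if_true, if_false] <;> linarith
  · have hb : x1 - R ≤ x ∧ x < x1 + R ∧ x2 - R ≤ y + 1 ∧ y + 1 ≤ x2 + R := by
      simp only [hdv, tlv, mem_Bq] at he
      by_cases hp : Even (x + y) <;> simp only [hp, if_true, if_false] at he <;> omega
    have h3 := h1 x (y + 1) hb.1 hb.2.1 hb.2.2.1 hb.2.2.2
    have e1 : y + 1 - 1 = y := by ring
    rw [e1] at h3
    by_cases hp : Even (x + y) <;> simp only [ls, rs, sg, hp, if_true, if_false] <;> linarith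

end Vale.Agent.P167.QC.Mid
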