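import Vale.Agent.P167.QC.Mid1

/-!
# P167, general `q`, Lemma M, 2: the boundary cycle of a box and the interlacing of the ends
-/

set_option linter.unusedSimpArgs false

namespace Vale.Agent.P167.QC.Mid

open Finset
open Vale.Agent.P167.H166
open Vale.Agent.P167.H161

/-- The sites of the boundary of the box, in the counterclockwise order. -/
def bc (z : ℤ × ℤ) (R k : ℤ) : ℤ × ℤ :=
  if k ≤ 2 * R then (z.1 - R + k, z.2 - R)
  else if k ≤ 4 * R then (z.1 + R, z.2 - R + (k - 2 * R))
  else if k ≤ 6 * R then (z.1 + R - (k - 4 * R), z.2 + R)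
  else (z.1 - R, z.2 + R - (k - 6 * R))

/-- The medial edge between the sites `bc k` and `bc (k + 1)`. -/
def be (z : ℤ × ℤ) (R k : ℤ) : Ed :=
  if k < 2 * R then Sum.inr (z.1 - R + k, z.2 - R - 1)
  else if k < 4 * R then Sum.inl (z.1 + R - 1, z.2 - R + (k - 2 * R))
  else if k < 6 * R then Sum.inr (z.1 + R - (k - 4 * R) - 1, z.2 + R - 1)
  else Sum.inl (z.1 - R - 1, z.2 + R - (k - 6 * R) - 1)

theorem be_cases {z : ℤ × ℤ} {R k : ℤ} (h0 : 0 ≤ k) (h1 : k < 8 * R) :
    (hdv (be z R k) ∈ FK.Bq z R ∧ tlv (be z R k) ∉ FK.Bq z R ∧ ls (be z R k) = bc z R k ∧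
      rs (be z R k) = bc z R (k + 1)) ∨
    (tlv (be z R k) ∈ FK.Bq z R ∧ hdv (be z R k) ∉ FK.Bq z R ∧ ls (be z R k) = bc z R (k + 1) ∧
      rs (be z R k) = bc z R k) := by
  obtain ⟨z1, z2⟩ := z
  unfold be bc
  by_cases c1 : k < 2 * R
  · rw [if_pos c1, if_pos (show k ≤ 2 * R by omega), if_pos (show k + 1 ≤ 2 * R by omega)]
    simp only
    by_cases hp : Even (z1 - R + k + (z2 - R - 1)) <;>
      simp only [hdv, tlv, ls, rs, hp, if_true, if_false, mem_Bq, Prod.mk.injEq, true_and,
        and_true] <;> omega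
  · rw [if_neg c1]
    by_cases c2 : k < 4 * R
    · rw [if_pos c2]
      rw [show (if k ≤ 2 * R then ((z1, z2).1 - R + k, (z1, z2).2 - R)
        else if k ≤ 4 * R then ((z1, z2).1 + R, (z1, z2).2 - R + (k - 2 * R))
        else if k ≤ 6 * R then ((z1, z2).1 + R - (k - 4 * R), (z1, z2).2 + R)
        else ((z1, z2).1 - R, (z1, z2).2 + R - (k - 6 * R))) =
          (z1 + R, z2 - R + (k - 2 * R)) by
        simp only
        split_ifs <;> simp only [Prod.mk.injEq] <;> omega]
      rw [if_neg (show ¬ k + 1 ≤ 2 * R by omega), if_pos (show k + 1 ≤ 4 * R by omega)]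
      simp only
      by_cases hp : Even (z1 + R - 1 + (z2 - R + (k - 2 * R))) <;>
        simp only [hdv, tlv, ls, rs, hp, if_true, if_false, mem_Bq, Prod.mk.injEq, true_and,
        and_true] <;> omega
    · rw [if_neg c2]
      by_cases c3 : k < 6 * R
      · rw [if_pos c3]
        rw [show (if k ≤ 2 * R then ((z1, z2).1 - R + k, (z1, z2).2 - R)
          else if k ≤ 4 * R then ((z1, z2).1 + R, (z1, z2).2 - R + (k - 2 * R))
          else if k ≤ 6 * R then ((z1, z2).1 + R - (k - 4 * R), (z1, z2).2 + R)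
          else ((z1, z2).1 - R, (z1, z2).2 + R - (k - 6 * R))) =
            (z1 + R - (k - 4 * R), z2 + R) by
          simp only
          split_ifs <;> simp only [Prod.mk.injEq] <;> omega]
        rw [if_neg (show ¬ k + 1 ≤ 2 * R by omega), if_neg (show ¬ k + 1 ≤ 4 * R by omega),
          if_pos (show k + 1 ≤ 6 * R by omega)]
        simp only
        by_cases hp : Even (z1 + R - (k - 4 * R) - 1 + (z2 + R - 1)) <;>
          simp only [hdv, tlv, ls, rs, hp, if_true, if_false, mem_Bq, Prod.mk.injEq, true_and,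
        and_true] <;> omega
      · rw [if_neg c3]
        rw [show (if k ≤ 2 * R then ((z1, z2).1 - R + k, (z1, z2).2 - R)
          else if k ≤ 4 * R then ((z1, z2).1 + R, (z1, z2).2 - R + (k - 2 * R))
          else if k ≤ 6 * R then ((z1, z2).1 + R - (k - 4 * R), (z1, z2).2 + R)
          else ((z1, z2).1 - R, (z1, z2).2 + R - (k - 6 * R))) =
            (z1 - R, z2 + R - (k - 6 * R)) by
          simp only
          split_ifs <;> simp only [Prod.mk.injEq] <;> omega]
        rw [if_neg (show ¬ k + 1 ≤ 2 * R by omega), if_neg (show ¬ k + 1 ≤ 4 * R by omega),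
          if_neg (show ¬ k + 1 ≤ 6 * R by omega)]
        simp only
        by_cases hp : Even (z1 - R - 1 + (z2 + R - (k - 6 * R) - 1)) <;>
          simp only [hdv, tlv, ls, rs, hp, if_true, if_false, mem_Bq, Prod.mk.injEq, true_and,
        and_true] <;> omega

theorem be_surj {z : ℤ × ℤ} {R : ℤ} {e : Ed}
    (he : (hdv e ∈ FK.Bq z R ∧ tlv e ∉ FK.Bq z R) ∨ (tlv e ∈ FK.Bq z R ∧ hdv e ∉ FK.Bq z R)) :
    ∃ k, 0 ≤ k ∧ k < 8 * R ∧ be z R k = e := by
  obtain ⟨z1, z2⟩ := z
  rcases e with ⟨a, b⟩ | ⟨a, b⟩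
  · -- horizontal medial edge between `(a, b)` and `(a + 1, b)`
    have h1 : (z1 - R ≤ a ∧ a < z1 + R ∧ ¬ (a + 1 < z1 + R) ∧ z2 - R ≤ b ∧ b < z2 + R) ∨
        (z1 - R ≤ a + 1 ∧ a + 1 < z1 + R ∧ ¬ (z1 - R ≤ a) ∧ z2 - R ≤ b ∧ b < z2 + R) := by
      by_cases hp : Even (a + b) <;>
        simp only [hdv, tlv, hp, if_true, if_false, mem_Bq] at he <;> omega
    rcases h1 with h1 | h1
    · refine ⟨2 * R + (b - (z2 - R)), by omega, by omega, ?_⟩
      unfold be
      rw [if_neg (by omega), if_pos (by omega)]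
      simp only [Sum.inl.injEq, Prod.mk.injEq]
      omega
    · refine ⟨6 * R + (z2 + R - 1 - b), by omega, by omega, ?_⟩
      unfold be
      rw [if_neg (by omega), if_neg (by omega), if_neg (by omega)]
      simp only [Sum.inl.injEq, Prod.mk.injEq]
      omega
  · have h1 : (z2 - R ≤ b ∧ b < z2 + R ∧ ¬ (b + 1 < z2 + R) ∧ z1 - R ≤ a ∧ a < z1 + R) ∨
        (z2 - R ≤ b + 1 ∧ b + 1 < z2 + R ∧ ¬ (z2 - R ≤ b) ∧ z1 - R ≤ a ∧ a < z1 + R) := by
      by_cases hp : Even (a + b) <;>
        simp only [hdv, tlv, hp, if_true, if_false, mem_Bq] at he <;> omega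
    rcases h1 with h1 | h1
    · refine ⟨4 * R + (z1 + R - 1 - a), by omega, by omega, ?_⟩
      unfold be
      rw [if_neg (by omega), if_neg (by omega), if_pos (by omega)]
      simp only [Sum.inr.injEq, Prod.mk.injEq]
      omega
    · refine ⟨a - (z1 - R), by omega, by omega, ?_⟩
      unfold be
      rw [if_pos (by omega)]
      simp only [Sum.inr.injEq, Prod.mk.injEq]
      omega

/-- A function on the sites of the box whose only jumps along the boundary are at the edge `e`, where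
an interface enters, and at the edge `e'`, where an interface leaves. -/
structure Bdy (z : ℤ × ℤ) (R : ℤ) (f : ℤ × ℤ → ℤ) (e e' : Ed) : Prop where
  he : hdv e ∈ FK.Bq z R ∧ tlv e ∉ FK.Bq z R
  he' : tlv e' ∈ FK.Bq z R ∧ hdv e' ∉ FK.Bq z R
  j : f (ls e) = f (rs e) + 1
  j' : f (ls e') = f (rs e') + 1
  c : ∀ a : Ed, (hdv a ∈ FK.Bq z R ∧ tlv a ∉ FK.Bq z R) ∨ (tlv a ∈ FK.Bq z R ∧
    hdv a ∉ FK.Bq z R) → a ≠ e → a ≠ e' → f (ls a) = f (rs a)

theorem Bdy.form {z : ℤ × ℤ} {R : ℤ} {f : ℤ × ℤ → ℤ} {e e' : Ed} (h : Bdy z R f e e') {p p' : ℤ}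
    (hp0 : 0 ≤ p) (hp1 : p < 8 * R) (hp : be z R p = e) (hp0' : 0 ≤ p') (hp1' : p' < 8 * R)
    (hp' : be z R p' = e') {k : ℤ} (h0 : 0 ≤ k) (h1 : k ≤ 8 * R) :
    f (bc z R k) = f (bc z R 0) - (if p < k then 1 else 0) + (if p' < k then 1 else 0) := by
  induction k, h0 using Int.leInduction with
  | base => rw [if_neg (by omega), if_neg (by omega)]; ring
  | succ k hk ih =>
    have ih := ih (by omega)
    have h2 := be_cases (z := z) hk (show k < 8 * R by omega)
    by_cases ha : be z R k = e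
    · -- entrance
      have hkp : k = p := by
        by_contra hne
        rw [← hp] at ha
        -- `be` is injective
        have h3 := be_cases (z := z) hp0 hp1
        revert ha hne
        obtain ⟨z1, z2⟩ := z
        unfold be
        split_ifs <;> simp only [Sum.inl.injEq, Sum.inr.injEq, Prod.mk.injEq, reduceCtorEq,
          false_imp_iff] <;> omega
      have hpp : p ≠ p' := by
        rintro rfl
        have e1 := h.he.1
        have e2 := h.he'.2
        rw [← hp] at e1
        rw [← hp'] at e2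
        exact e2 e1
      rcases h2 with ⟨h3, h4, h5, h6⟩ | ⟨h3, h4, h5, h6⟩
      · rw [ha] at h5 h6
        have h7 := h.j
        rw [h5, h6, ih] at h7
        split_ifs at h7 ⊢ <;> omega
      · rw [ha] at h4
        exact absurd h.he.1 h4
    · by_cases ha' : be z R k = e'
      · have hkp : k = p' := by
          by_contra hne
          rw [← hp'] at ha'
          revert ha' hne
          obtain ⟨z1, z2⟩ := z
          unfold be
          split_ifs <;> simp only [Sum.inl.injEq, Sum.inr.injEq, Prod.mk.injEq, reduceCtorEq,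
            false_imp_iff] <;> omega
        have hpp : p ≠ p' := by
          rintro rfl
          exact ha (by rw [hkp, hp])
        rcases h2 with ⟨h3, h4, h5, h6⟩ | ⟨h3, h4, h5, h6⟩
        · rw [ha'] at h4
          exact absurd h.he'.1 h4
        · rw [ha'] at h5 h6
          have h7 := h.j'
          rw [h5, h6, ih] at h7
          split_ifs at h7 ⊢ <;> omega
      · have h7 := h.c (be z R k) (h2.imp (fun x => ⟨x.1, x.2.1⟩) (fun x => ⟨x.1, x.2.1⟩)) ha ha'
        have hkp : k ≠ p := fun h => ha (by rw [h, hp])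
        have hkp' : k ≠ p' := fun h => ha' (by rw [h, hp'])
        rcases h2 with ⟨h3, h4, h5, h6⟩ | ⟨h3, h4, h5, h6⟩ <;>
        · rw [h5, h6, ih] at h7
          split_ifs at h7 ⊢ <;> omega

/-- **Interlacing.** `f` jumps at `a`, `c`; `g` jumps at `m`, `m'` and separates `a` from `c`: then
`f` separates `m` from `m'`; the values are those of the two sides of `a`, and the value of `g` at
`a` is one of the values at the two sides of `m`. -/
theorem interlace {z : ℤ × ℤ} {R : ℤ} {f g : ℤ × ℤ → ℤ} {a c m m' : Ed} (hf : Bdy z R f a c)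
    (hg : Bdy z R g m m') (ham : a ≠ m) (hcm : c ≠ m') (hs : g (ls a) ≠ g (ls c)) :
    ((f (ls m) = f (ls a) ∧ f (ls m') = f (rs a)) ∨ (f (ls m) = f (rs a) ∧ f (ls m') = f (ls a))) ∧
    (g (ls a) = g (ls m) ∨ g (ls a) = g (rs m)) := by
  obtain ⟨ka, a0, a1, a2⟩ := be_surj (z := z) (R := R) (Or.inl hf.he)
  obtain ⟨kc, c0, c1, c2⟩ := be_surj (z := z) (R := R) (Or.inr hf.he')
  obtain ⟨km, m0, m1, m2⟩ := be_surj (z := z) (R := R) (Or.inl hg.he)
  obtain ⟨kn, n0, n1, n2⟩ := be_surj (z := z) (R := R) (Or.inr hg.he')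
  have hF := fun k h0 h1 => hf.form a0 a1 a2 c0 c1 c2 (k := k) h0 h1
  have hG := fun k h0 h1 => hg.form m0 m1 m2 n0 n1 n2 (k := k) h0 h1
  have b1 := be_cases (z := z) a0 a1
  have b2 := be_cases (z := z) c0 c1
  have b3 := be_cases (z := z) m0 m1
  have b4 := be_cases (z := z) n0 n1
  rw [a2] at b1
  rw [c2] at b2
  rw [m2] at b3
  rw [n2] at b4
  replace b1 := b1.resolve_right fun h => h.2.1 hf.he.1
  replace b2 := b2.resolve_left fun h => hf.he'.2 h.1
  replace b3 := b3.resolve_right fun h => h.2.1 hg.he.1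
  replace b4 := b4.resolve_left fun h => hg.he'.2 h.1
  have d1 : ka ≠ km := by rintro rfl; exact ham (a2.symm.trans m2)
  have d2 : kc ≠ kn := by rintro rfl; exact hcm (c2.symm.trans n2)
  have d3 : ka ≠ kc := by
    rintro rfl
    have := b2.2.1
    rw [← c2, a2] at this
    exact this b1.1
  have d4 : ka ≠ kn := by
    rintro rfl
    have := b4.2.1
    rw [← n2, a2] at this
    exact this b1.1
  have d5 : km ≠ kc := by
    rintro rfl
    have := b2.2.1
    rw [← c2, m2] at this
    exact this b3.1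
  have d6 : km ≠ kn := by
    rintro rfl
    have := b4.2.1
    rw [← n2, m2] at this
    exact this b3.1
  have t1 : ∀ {x y : ℤ}, x ≠ y → ((if x < y + 1 then 1 else 0 : ℤ) = if x < y then 1 else 0) := by
    intro x y hxy
    split_ifs <;> omega
  have t2 : ∀ x : ℤ, (if x < x then 1 else 0 : ℤ) = 0 := fun x => if_neg (lt_irrefl x)
  have t3 : ∀ x : ℤ, (if x < x + 1 then 1 else 0 : ℤ) = 1 := fun x => if_pos (by omega)
  have t4 : ∀ {x y : ℤ}, x ≠ y → ((if y < x then 1 else 0 : ℤ) = 1 - if x < y then 1 else 0) := by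
    intro x y hxy
    split_ifs <;> omega
  have f1 := hF ka a0 a1.le
  have f2 := hF (ka + 1) (by omega) (by omega)
  have f3 := hF km m0 m1.le
  have f4 := hF (kn + 1) (by omega) (by omega)
  have g1 := hG ka a0 a1.le
  have g2 := hG (kc + 1) (by omega) (by omega)
  have g3 := hG km m0 m1.le
  have g4 := hG (km + 1) (by omega) (by omega)
  rw [t2] at f1 g3
  rw [t3, t1 d3.symm] at f2
  rw [t1 d4, t1 (Ne.symm (show kn ≠ kc from fun h => ?_))] at f4
  · rw [t1 d5, t1 (show kn ≠ kc from fun h => ?_)] at g2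
    · rw [t3, t1 d6.symm] at g4
      rw [t4 d5.symm, t4 d2] at g2
      rw [t4 d1, t4 d4] at g1
      rw [t4 d6] at g3 g4
      rw [t4 d3] at f1 f2
      rw [t4 d5] at f3
      rw [b1.2.2.1, b2.2.2.1] at hs
      rw [b1.2.2.1, b1.2.2.2, b3.2.2.1, b3.2.2.2, b4.2.2.1]
      clear b1 b2 b3 b4 hF hG a2 c2 m2 n2 hf hg ham hcm t1 t2 t3 t4
      split_ifs at * <;> omega
    · exact d2 h.symm
  · exact d2 h.symm

end Vale.Agent.P167.QC.Mid
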