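import Vale.Agent.P167.QC.Mid3
import Vale.Agent.P167.QN.Fresh

/-!
# P167, general `q`, Lemma M, 4: a strand between two others gives a fresh crossing

Three strands of a box: `τ_c` is explored completely, `τ_a` is explored until it comes near `τ_c`.
If the strand `τ_m` separates them, then one of its two crossings of an annulus around the tip of
`τ_a` has a bank whose cluster does not contain any explored square.
-/

set_option linter.unusedSimpArgs false

namespace Vale.Agent.P167.QC.Mid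

open Finset
open Vale.Agent.P145.FB (PStep)
open Vale.Agent.P167.H166
open Vale.Agent.P167.H161
open Vale.Agent.P167.FKA (Cor)
open Vale.Agent.P167.QN (Ann mem_Ann FreshP FreshD)
open Relation

/-- A crossing of the colour `b` whose cluster in the annulus contains only squares of `D`. -/
def FreshB (b : Bool) (x : ℤ × ℤ) (r R : ℤ) (D : Finset (ℤ × ℤ)) (ω : Cfg) : Prop :=
  ∃ s t : ℤ × ℤ, (s.1 + s.2) % 2 = par b ∧ nm (s - x) ≤ r ∧ R ≤ nm (t - x) ∧
    ReflTransGen (PStep {v | v ∈ Ann x r R ∧ ω v = b}) s t ∧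
    ∀ v ∈ Ann x r R, ω v = b → ∀ u : ℤ × ℤ, (u.1 + u.2) % 2 = par b → Cor v u →
      ReflTransGen (PStep {v | v ∈ Ann x r R ∧ ω v = b}) s u → v ∈ D

theorem FreshB.fresh {b : Bool} {x : ℤ × ℤ} {r R : ℤ} {D : Finset (ℤ × ℤ)} {ω : Cfg}
    (h : FreshB b x r R D ω) : FreshP x r R D ω ∨ FreshD x r R D ω := by
  obtain ⟨s, t, h1, h2, h3, h4, h5⟩ := h
  cases b
  · refine Or.inr ⟨s, t, by rw [Int.odd_iff]; exact h1, h2, h3, h4, fun v hv hb u hu hc hr =>
      h5 v hv hb u (by rw [Int.odd_iff] at hu; exact hu) hc hr⟩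
  · refine Or.inl ⟨s, t, by rw [Int.even_iff]; exact h1, h2, h3, h4, fun v hv hb u hu hc hr =>
      h5 v hv hb u (by rw [Int.even_iff] at hu; exact hu) hc hr⟩

theorem rtg_symm {F : Set (ℤ × ℤ)} {u v : ℤ × ℤ} (h : ReflTransGen (PStep F) u v) :
    ReflTransGen (PStep F) v u := QN.rtg_symm' h

theorem hull_sub_ball {x y : ℤ × ℤ} {h : ℤ} (hxy : nm (x - y) ≤ h) {v : ℤ × ℤ} (hv : v ∈ hull x y) :
    v ∈ FK.Bq x (h + 1) := by
  simp only [hull, Set.mem_ofPred_eq] at hv
  simp only [nm, Prod.fst_sub, Prod.snd_sub, max_le_iff, abs_le] at hxy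
  rw [mem_Bq]
  omega

theorem hull_sub_box {x y z : ℤ × ℤ} {R : ℤ} (hx : x ∈ FK.Bq z R) (hy : y ∈ FK.Bq z R) {v : ℤ × ℤ}
    (hv : v ∈ hull x y) : v ∈ FK.Bq z R := by
  simp only [hull, Set.mem_ofPred_eq] at hv
  rw [mem_Bq] at hx hy ⊢
  omega

theorem mem_hull_left (x y : ℤ × ℤ) : x ∈ hull x y := by
  simp only [hull, Set.mem_ofPred_eq]
  omega

theorem mem_hull_right (x y : ℤ × ℤ) : y ∈ hull x y := by
  simp only [hull, Set.mem_ofPred_eq]
  omega

/-- **The middle strand.** -/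
theorem mid {z : ℤ × ℤ} {R : ℤ} {ω : Cfg} {ea ec em : Ed} {σ Nc Nm j : ℕ}
    (hat : tlv ea ∉ FK.Bq z R) (hab : ∀ i ≤ σ, hdv ((nx ω)^[i] ea) ∈ FK.Bq z R)
    (hc : Str z R ω ec Nc) (hm : Str z R ω em Nm)
    (hac : ea ≠ ec) (ham : ea ≠ em) (hcm : ec ≠ em) {w : ℤ × ℤ → ℤ}
    (hw : PotX z R (Arc (FK.Bq z R) ω em) w) (hsep : w (ls ea) ≠ w (ls ec)) (hj : j < Nc) {h : ℤ}
    (hnear : nm (hdv ((nx ω)^[σ] ea) - hdv ((nx ω)^[j] ec)) ≤ h)
    (hfirst : ∀ i < σ, hdv ((nx ω)^[i] ea) ∉ hull (hdv ((nx ω)^[σ] ea)) (hdv ((nx ω)^[j] ec)))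
    {r1 R1 : ℤ} (hr1 : h + 1 ≤ r1) (hrR : r1 ≤ R1)
    (hB : FK.Bq (hdv ((nx ω)^[σ] ea)) R1 ⊆ FK.Bq z R) {D D' : Finset (ℤ × ℤ)}
    (hD : ∀ v ∈ Ann (hdv ((nx ω)^[σ] ea)) r1 R1, v ∉ D → ∀ s, Cor v s → w s = w (ls ec))
    (hD' : ∀ v ∈ D, (∀ i < σ, hdv ((nx ω)^[i] ea) ≠ v) → (∀ i < Nc, hdv ((nx ω)^[i] ec) ≠ v) →
      v ∈ D') :
    ∃ b, FreshB b (hdv ((nx ω)^[σ] ea)) r1 R1 D' ω := by
  classical
  set x1 := hdv ((nx ω)^[σ] ea) with hx1
  set y := hdv ((nx ω)^[j] ec) with hy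
  have hx1B : x1 ∈ FK.Bq z R := hab σ le_rfl
  have hyB : y ∈ FK.Bq z R := hc.b j hj
  have hh0 : 0 ≤ h := le_trans (by
    simp only [nm, Prod.fst_sub, Prod.snd_sub, le_max_iff]
    exact Or.inl (abs_nonneg _)) hnear
  have hhb : ∀ {v}, v ∈ hull x1 y → v ∈ FK.Bq x1 (h + 1) := fun hv => hull_sub_ball hnear hv
  have hball : FK.Bq x1 (h + 1) ⊆ FK.Bq x1 r1 := by
    intro v hv
    rw [mem_Bq] at hv ⊢
    omega
  have hbigr : FK.Bq x1 r1 ⊆ FK.Bq x1 R1 := by
    intro v hv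
    rw [mem_Bq] at hv ⊢
    omega
  have hballB : FK.Bq x1 (h + 1) ⊆ FK.Bq z R := (hball.trans hbigr).trans hB
  have hannB : ∀ {v}, v ∈ Ann x1 r1 R1 → v ∈ FK.Bq z R := fun hv => hB (mem_Ann.1 hv).1
  have hannh : ∀ {v}, v ∈ Ann x1 r1 R1 → v ∉ hull x1 y := fun hv hn =>
    (mem_Ann.1 hv).2 (hball (hhb hn))
  -- distinct strands
  have hab' : ∀ l < σ, hdv ((nx ω)^[l] ea) ∈ FK.Bq z R := fun l hl => hab l hl.le
  have hne_ac : ∀ i ≤ σ, ∀ l ≤ Nc, (nx ω)^[i] ea ≠ (nx ω)^[l] ec := fun i hi l hl he =>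
    hac (inj_in hat (fun m hm => hab m (by omega)) hc.t (fun m hm => hc.b m (by omega)) he).2
  have hne_am : ∀ i ≤ σ, ∀ l ≤ Nm, (nx ω)^[i] ea ≠ (nx ω)^[l] em := fun i hi l hl he =>
    ham (inj_in hat (fun m hm => hab m (by omega)) hm.t (fun m hm' => hm.b m (by omega)) he).2
  have hne_cm : ∀ i ≤ Nc, ∀ l ≤ Nm, (nx ω)^[i] ec ≠ (nx ω)^[l] em := fun i hi l hl he =>
    hcm (inj_in hc.t (fun m hm => hc.b m (by omega)) hm.t (fun m hm' => hm.b m (by omega)) he).2
  have hinj_a : ∀ i ≤ σ, ∀ l ≤ σ, (nx ω)^[i] ea = (nx ω)^[l] ea → i = l := fun i hi l hl he =>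
    (inj_in hat (fun m hm => hab m (by omega)) hat (fun m hm => hab m (by omega)) he).1
  have hinj_c : ∀ i ≤ Nc, ∀ l ≤ Nc, (nx ω)^[i] ec = (nx ω)^[l] ec → i = l := fun i hi l hl he =>
    (inj_in hc.t (fun m hm => hc.b m (by omega)) hc.t (fun m hm => hc.b m (by omega)) he).1
  -- the flow and its potential
  set U : Ed → ℤ := fun e => orb ω ea 0 (σ + 1) e + orb ω ec (j + 1) (Nc + 1) e + UL x1 y e with hU
  have hdvU : ∀ v ∈ FK.Bq z R, dv U v = 0 := by
    intro v hv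
    have e1 : dv U v = dv (orb ω ea 0 (σ + 1)) v + dv (orb ω ec (j + 1) (Nc + 1)) v +
        dv (UL x1 y) v := by
      simp only [dv, hU]
      ring
    have t1 : tlv ((nx ω)^[j + 1] ec) = y := tlv_it ω ec (Nat.succ_pos j)
    rw [e1, dv_orb ω ea (by omega), dv_orb ω ec (by omega), dv_UL, t1, Nat.add_sub_cancel,
      Nat.add_sub_cancel, ← hx1]
    have e2 : ¬ v = tlv ((nx ω)^[0] ea) := by rintro rfl; exact hat hv
    have e3 : ¬ v = hdv ((nx ω)^[Nc] ec) := by rintro rfl; exact hc.x hv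
    rw [if_neg e2, if_neg e3]
    ring
  obtain ⟨W, hW⟩ := exists_PotU hdvU
  have hWe : ∀ e : Ed, (hdv e ∈ FK.Bq z R ∨ tlv e ∈ FK.Bq z R) →
      (hdv e ∉ hull x1 y ∨ tlv e ∉ hull x1 y) →
      W (ls e) = W (rs e) + (cnt ω ea 0 (σ + 1) e + cnt ω ec (j + 1) (Nc + 1) e) := by
    intro e he hh
    have h0 : UL x1 y e = 0 := by
      by_contra hne
      obtain ⟨g1, g2⟩ := UL_hull hne
      exact hh.elim (fun h => h g1) fun h => h g2
    rw [hW e he, ← sg_mul_orb, ← sg_mul_orb]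
    simp only [hU, h0]
    ring
  -- conservation at the squares outside of the hull
  have hcons : ∀ v ∈ FK.Bq z R, v ∉ hull x1 y → ∀ e, hdv e = v →
      W (ls (nx ω e)) = W (ls e) ∧ W (rs (nx ω e)) = W (rs e) := by
    intro v hv hvh e he
    have h1 := hWe e (Or.inl (by rw [he]; exact hv)) (Or.inl (by rw [he]; exact hvh))
    have h2 := hWe (nx ω e) (Or.inr (by rw [tlv_nx, he]; exact hv))
      (Or.inr (by rw [tlv_nx, he]; exact hvh))
    have c1 : cnt ω ea 0 (σ + 1) (nx ω e) = cnt ω ea 0 (σ + 1) e := by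
      rw [cnt_bot ω ea (Nat.succ_pos σ), cnt_nx, cnt_top ω ea (Nat.zero_le σ)]
      have d1 : ¬ nx ω e = (nx ω)^[0] ea := by
        intro hn
        apply hat
        rw [show ea = nx ω e from hn.symm, tlv_nx, he]
        exact hv
      have d2 : ¬ e = (nx ω)^[σ] ea := by
        intro hn
        apply hvh
        rw [← he, hn]
        exact mem_hull_left _ _
      rw [if_neg d1, if_neg d2]
      ring
    have c2 : cnt ω ec (j + 1) (Nc + 1) (nx ω e) = cnt ω ec (j + 1) (Nc + 1) e := by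
      rw [cnt_nx, cnt_bot ω ec hj, cnt_top ω ec (by omega)]
      have d1 : ¬ e = (nx ω)^[j] ec := by
        intro hn
        apply hvh
        rw [← he, hn]
        exact mem_hull_right _ _
      have d2 : ¬ e = (nx ω)^[Nc] ec := by
        intro hn
        apply hc.x
        rw [← hn, he]
        exact hv
      rw [if_neg d1, if_neg d2]
      ring
    rw [c1, c2] at h2
    cases hb : ω (hdv e) with
    | true =>
      have h4 := rs_nx hb
      rw [h4] at h2 ⊢
      exact ⟨by linarith, rfl⟩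
    | false =>
      have h4 := ls_nx hb
      rw [h4] at h2 ⊢
      exact ⟨rfl, by linarith⟩
  -- constancy of `W` along interfaces
  have hWalong : ∀ (b : Bool) (e : Ed) (p q : ℕ), p ≤ q →
      (∀ l, p ≤ l → l < q → hdv ((nx ω)^[l] e) ∈ FK.Bq z R ∧ hdv ((nx ω)^[l] e) ∉ hull x1 y) →
      W (sd b ((nx ω)^[q] e)) = W (sd b ((nx ω)^[p] e)) := by
    intro b e p q hpq hl
    induction q, hpq using Nat.le_induction with
    | base => rfl
    | succ q hq ih =>
      rw [← ih fun l h1 h2 => hl l h1 (by omega), Function.iterate_succ_apply']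
      obtain ⟨g1, g2⟩ := hl q hq (by omega)
      obtain ⟨g3, g4⟩ := hcons _ g1 g2 _ rfl
      cases b
      · exact g4
      · exact g3
  have hwalong : ∀ (b : Bool) (e : Ed) (q : ℕ), (∀ l < q, hdv ((nx ω)^[l] e) ∈ FK.Bq z R) →
      w (sd b ((nx ω)^[q] e)) = w (sd b e) := by
    intro b e q hl
    have := hw.fw (Arc.inv _ _ _) (e := e) ⟨q, rfl, hl⟩
    cases b
    · exact this.2
    · exact this.1
  -- the boundary values
  have hbdW : Bdy z R W ea ((nx ω)^[Nc] ec) := by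
    refine ⟨⟨hab 0 (Nat.zero_le _), hat⟩, hc.bdy (exists_PotX (Arc.inv _ ω ec)).choose_spec |>.he',
      ?_, ?_, ?_⟩
    · rw [hWe ea (Or.inl (hab 0 (Nat.zero_le _))) (Or.inr fun hn => hat (hull_sub_box hx1B hyB hn)),
        cnt_one (ω := ω) (e0 := ea) (i := 0) (j := σ + 1) (l := 0) (e := ea) (Nat.zero_le _)
          (Nat.succ_pos _) rfl (fun m _ h2 h3 => (hinj_a 0 (Nat.zero_le _) m (by omega) h3).symm),
        cnt_zero (ω := ω) (e0 := ec) (i := j + 1) (j := Nc + 1) (e := ea)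
          (fun l _ h2 h3 => hne_ac 0 (Nat.zero_le _) l (by omega) h3)]
      ring
    · have h2 : tlv ((nx ω)^[Nc] ec) ∈ FK.Bq z R := by
        rw [tlv_it ω ec hc.pos]
        exact hc.b _ (by have := hc.pos; omega)
      rw [hWe _ (Or.inr h2) (Or.inl fun hn => hc.x (hull_sub_box hx1B hyB hn)),
        cnt_zero (fun l _ h2 h3 => hne_ac l (by omega) Nc le_rfl h3.symm),
        cnt_one (l := Nc) (by omega) (Nat.lt_succ_self _) rfl (fun m _ h2 h3 =>
          (hinj_c Nc le_rfl m (by omega) h3).symm)]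
      ring
    · intro a ha h1 h2
      have h3 : hdv a ∈ FK.Bq z R ∨ tlv a ∈ FK.Bq z R :=
        ha.elim (fun x => Or.inl x.1) fun x => Or.inr x.1
      have h4 : hdv a ∉ hull x1 y ∨ tlv a ∉ hull x1 y := by
        rcases ha with ha | ha
        · exact Or.inr fun hn => ha.2 (hull_sub_box hx1B hyB hn)
        · exact Or.inl fun hn => ha.2 (hull_sub_box hx1B hyB hn)
      have hin : ¬ (hdv a ∈ FK.Bq z R ∧ tlv a ∈ FK.Bq z R) := by
        rintro ⟨g1, g2⟩
        rcases ha with ha | ha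
        · exact ha.2 g2
        · exact ha.2 g1
      rw [hWe a h3 h4, cnt_zero, cnt_zero]
      · ring
      · intro l hl1 hl2 hl3
        have hlt : l < Nc := by
          rcases Nat.lt_or_ge l Nc with h | h
          · exact h
          · exact absurd (by rw [hl3, show l = Nc by omega]) h2
        refine hin ⟨by rw [hl3]; exact hc.b l hlt, ?_⟩
        rw [hl3, tlv_it ω ec (by omega)]
        exact hc.b _ (by omega)
      · intro l hl1 hl2 hl3
        rcases Nat.eq_zero_or_pos l with rfl | hl0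
        · exact h1 hl3
        · refine hin ⟨by rw [hl3]; exact hab l (by omega), ?_⟩
          rw [hl3, tlv_it ω ea hl0]
          exact hab _ (by omega)
  have hbdw := hm.bdy hw
  have hnotm : ∀ e, (∀ l ≤ Nm, e ≠ (nx ω)^[l] em) → e ∉ Arc (FK.Bq z R) ω em := by
    intro e he hn
    obtain ⟨l, h1, h2⟩ := hm.mem_arc.1 hn
    exact he l h1 h2.symm
  have hwc : w (ls ((nx ω)^[Nc] ec)) = w (ls ec) := hwalong true ec Nc hc.b
  obtain ⟨hI1, hI2⟩ := interlace hbdW hbdw (by exact ham) (hne_cm Nc le_rfl Nm le_rfl)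
    (by rw [hwc]; exact hsep)
  -- the middle strand visits the ball
  have hvis : ∃ i < Nm, hdv ((nx ω)^[i] em) ∈ FK.Bq x1 (h + 1) := by
    by_contra hno
    push Not at hno
    have hcst : ∀ e : Ed, (hdv e ∈ FK.Bq x1 (h + 1) ∨ tlv e ∈ FK.Bq x1 (h + 1)) →
        w (ls e) = w (rs e) := by
      intro e he
      refine (hw e (he.imp (fun h => hballB h) fun h => hballB h)).2 ?_
      refine hnotm e fun l hl hel => ?_
      rcases he with he | he
      · rcases Nat.lt_or_ge l Nm with h2 | h2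
        · exact hno l h2 (by rw [← hel]; exact he)
        · apply hm.x
          rw [show Nm = l by omega, ← hel]
          exact hballB he
      · rcases Nat.eq_zero_or_pos l with rfl | h2
        · apply hm.t
          rw [show em = e from hel.symm]
          exact hballB he
        · rw [hel, tlv_it ω em h2] at he
          exact hno (l - 1) (by omega) he
    have g1 : w (ls ((nx ω)^[σ] ea)) = w (ls ea) := hwalong true ea σ hab'
    have g2 : w (ls ((nx ω)^[j] ec)) = w (ls ec) := hwalong true ec j fun l hl => hc.b l (by omega)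
    apply hsep
    rw [← g1, ← g2]
    refine box_const hcst ?_ ?_
    · exact cor_in (hhb (mem_hull_left x1 y)) (sd_cor true ((nx ω)^[σ] ea))
    · exact cor_in (hhb (mem_hull_right x1 y)) (sd_cor true ((nx ω)^[j] ec))
  -- the colour of the bank
  obtain ⟨b, hb⟩ : ∃ b, w (ls ea) = w (sd b em) := by
    rcases hI2 with hI2 | hI2
    · exact ⟨true, hI2⟩
    · exact ⟨false, hI2⟩
  refine ⟨b, ?_⟩
  have hWm0 : W (ls em) = W (rs em) := by
    have := hWe em (Or.inl (hm.b 0 hm.pos)) (Or.inr fun hn => hm.t (hull_sub_box hx1B hyB hn))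
    rw [this, cnt_zero (ω := ω) (e0 := ea) (i := 0) (j := σ + 1) (e := em)
        (fun l _ h2 h3 => hne_am l (by omega) 0 (Nat.zero_le _) h3.symm),
      cnt_zero (ω := ω) (e0 := ec) (i := j + 1) (j := Nc + 1) (e := em)
        (fun l _ h2 h3 => hne_cm l (by omega) 0 (Nat.zero_le _) h3.symm)]
    ring
  have hWmN : W (ls ((nx ω)^[Nm] em)) = W (rs ((nx ω)^[Nm] em)) := by
    have h2 : tlv ((nx ω)^[Nm] em) ∈ FK.Bq z R := by
      rw [tlv_it ω em hm.pos]
      exact hm.b _ (by have := hm.pos; omega)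
    have := hWe _ (Or.inr h2) (Or.inl fun hn => hm.x (hull_sub_box hx1B hyB hn))
    rw [this, cnt_zero (fun l _ h2 h3 => hne_am l (by omega) Nm le_rfl h3.symm),
      cnt_zero (fun l _ h2 h3 => hne_cm l (by omega) Nm le_rfl h3.symm)]
    ring
  have hWa : W (ls ea) = W (rs ea) + 1 := hbdW.j
  have hsb : ∀ (b : Bool) (e : Ed), W (ls e) = W (rs e) → W (sd b e) = W (ls e) := by
    intro b e he
    cases b
    · exact he.symm
    · rfl
  have hother : W (sd b ea) ≠ W (sd (!b) ea) := by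
    cases b <;> simp only [sd, Bool.not_false, Bool.not_true, if_true, Bool.false_eq_true,
      if_false] <;> omega
  -- a crossing segment with the right value
  have hseg : ∃ p q, p ≤ q ∧ q ≤ Nm ∧ (∀ l, p ≤ l → l < q → hdv ((nx ω)^[l] em) ∈ Ann x1 r1 R1) ∧
      W (sd b ((nx ω)^[p] em)) = W (sd (!b) ea) ∧
      ((tlv ((nx ω)^[p] em) ∉ FK.Bq x1 R1 ∧ hdv ((nx ω)^[q] em) ∈ FK.Bq x1 r1) ∨
        (tlv ((nx ω)^[p] em) ∈ FK.Bq x1 r1 ∧ hdv ((nx ω)^[q] em) ∉ FK.Bq x1 R1)) := by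
    have hcase : W (sd b em) = W (sd (!b) ea) ∨ W (sd b ((nx ω)^[Nm] em)) = W (sd (!b) ea) := by
      rw [hsb b em hWm0, hsb b _ hWmN]
      cases b
      · rcases hI1 with ⟨g1, g2⟩ | ⟨g1, g2⟩
        · exact Or.inl g1
        · exact Or.inr g2
      · rcases hI1 with ⟨g1, g2⟩ | ⟨g1, g2⟩
        · exact Or.inr g2
        · exact Or.inl g1
    rcases hcase with hcase | hcase
    · -- the ingoing part
      have hi := Nat.find_spec hvis
      have hmin := fun {l} => Nat.find_min (m := l) hvis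
      set i := Nat.find hvis with hidef
      obtain ⟨p, q, g1, g2, g3, g4, g5, g6⟩ := exists_seg ω em (S := ((FK.Bq x1 R1 : Finset (ℤ × ℤ)) : Set (ℤ × ℤ))ᶜ)
        (T := (FK.Bq x1 r1 : Finset (ℤ × ℤ))) (Nat.zero_le i)
        (fun hn => hm.t (hB (Finset.mem_coe.1 hn))) (Finset.mem_coe.2 (hball hi.2))
      refine ⟨p, q, g2, by omega, fun l h1 h2 => ?_, ?_, Or.inl ⟨fun hn => g4 (Finset.mem_coe.2 hn),
        Finset.mem_coe.1 g5⟩⟩
      · obtain ⟨g7, g8⟩ := g6 l h1 h2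
        rw [mem_Ann]
        exact ⟨by
          by_contra hn
          exact g7 fun h => hn (Finset.mem_coe.1 h), fun hn => g8 (Finset.mem_coe.2 hn)⟩
      · rw [← hcase]
        refine hWalong b em 0 p (Nat.zero_le _) fun l _ h2 => ⟨hm.b l (by omega), fun hn => ?_⟩
        exact hmin (l := l) (by omega) ⟨by omega, hhb hn⟩
    · -- the outgoing part
      have hvis' : ∃ m, m < Nm ∧ hdv ((nx ω)^[Nm - 1 - m] em) ∈ FK.Bq x1 (h + 1) := by
        obtain ⟨i, h1, h2⟩ := hvis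
        exact ⟨Nm - 1 - i, by omega, by rw [show Nm - 1 - (Nm - 1 - i) = i by omega]; exact h2⟩
      have hi := Nat.find_spec hvis'
      have hmin := fun {l} => Nat.find_min (m := l) hvis'
      set m := Nat.find hvis' with hmdef
      obtain ⟨p, q, g1, g2, g3, g4, g5, g6⟩ := exists_seg ω em (S := (FK.Bq x1 r1 : Finset (ℤ × ℤ)))
        (T := ((FK.Bq x1 R1 : Finset (ℤ × ℤ)) : Set (ℤ × ℤ))ᶜ) (show Nm - 1 - m + 1 ≤ Nm by omega)
        (by
          rw [tlv_it ω em (Nat.succ_pos _)]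
          exact Finset.mem_coe.2 (hball hi.2))
        (fun hn => hm.x (hB (Finset.mem_coe.1 hn)))
      refine ⟨p, q, g2, g3, fun l h1 h2 => ?_, ?_, Or.inr ⟨Finset.mem_coe.1 g4,
        fun hn => g5 (Finset.mem_coe.2 hn)⟩⟩
      · obtain ⟨g7, g8⟩ := g6 l h1 h2
        rw [mem_Ann]
        exact ⟨by
          by_contra hn
          exact g8 fun h => hn (Finset.mem_coe.1 h), fun hn => g7 (Finset.mem_coe.2 hn)⟩
      · rw [← hcase]
        refine (hWalong b em p Nm (by omega) fun l h1 h2 => ⟨hm.b l h2, fun hn => ?_⟩).symm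
        refine hmin (l := Nm - 1 - l) (by omega) ⟨by omega, ?_⟩
        rw [show Nm - 1 - (Nm - 1 - l) = l by omega]
        exact hhb hn
  obtain ⟨p, q, hpq, hqN, hann, hWp, hends⟩ := hseg
  have hpath := bank_path b (ω := ω) (e := em) (F := (Ann x1 r1 R1 : Finset (ℤ × ℤ))) hpq
    fun l h1 h2 => Finset.mem_coe.2 (hann l h1 h2)
  have hset : {v | v ∈ ((Ann x1 r1 R1 : Finset (ℤ × ℤ)) : Set (ℤ × ℤ)) ∧ ω v = b} =
      {v | v ∈ Ann x1 r1 R1 ∧ ω v = b} := rfl
  rw [hset] at hpath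
  have hWq : W (sd b ((nx ω)^[q] em)) = W (sd (!b) ea) := by
    rw [hWalong b em p q hpq fun l h1 h2 => ⟨hannB (hann l h1 h2), hannh (hann l h1 h2)⟩, hWp]
  have hwl : ∀ l ≤ Nm, w (sd b ((nx ω)^[l] em)) = w (ls ea) := by
    intro l hl
    rw [hwalong b em l fun m hm' => hm.b m (by omega), hb]
  -- potentials are constant along the clusters of the annulus
  have hstep : ∀ s u : ℤ × ℤ, (s.1 + s.2) % 2 = par b →
      ReflTransGen (PStep {v | v ∈ Ann x1 r1 R1 ∧ ω v = b}) s u →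
      (u.1 + u.2) % 2 = par b ∧ W u = W s ∧ w u = w s := by
    intro s u hs hsu
    induction hsu with
    | refl => exact ⟨hs, rfl, rfl⟩
    | @tail a c _ hac' ih =>
      obtain ⟨i1, i2, i3⟩ := ih
      obtain ⟨c1, c2⟩ := FKA.cor_of_step hac'
      have hpar : (c.1 + c.2) % 2 = par b := by
        have := FKA.even_step hac'
        rw [Int.even_iff, Int.even_iff] at this
        have hb01 : par b = 0 ∨ par b = 1 := by cases b <;> simp [par]
        omega
      have hvA := hac'.2.2.1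
      have hvb := hac'.2.2.2
      refine ⟨hpar, ?_, ?_⟩
      · rw [← i2]
        exact sq_gen hvb (fun e he => hcons _ (hannB hvA) (hannh hvA) e he) c2 hpar c1 i1
      · rw [← i3]
        exact sq_gen hvb (fun e he => hw.nx (Arc.inv _ _ _) (by rw [he]; exact hannB hvA)) c2 hpar
          c1 i1
  -- freshness
  have hfresh : ∀ s : ℤ × ℤ, (s.1 + s.2) % 2 = par b → W s = W (sd (!b) ea) → w s = w (ls ea) →
      ∀ v ∈ Ann x1 r1 R1, ω v = b → ∀ u : ℤ × ℤ, (u.1 + u.2) % 2 = par b → Cor v u →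
      ReflTransGen (PStep {v | v ∈ Ann x1 r1 R1 ∧ ω v = b}) s u → v ∈ D' := by
    intro s hs hWs hws v hv hvb u hu hcu hsu
    obtain ⟨-, i2, i3⟩ := hstep s u hs hsu
    have hvB := hannB hv
    by_contra hvD'
    have hwv : w u ≠ w (ls ec) := by rw [i3, hws]; exact hsep
    have hvD : v ∈ D := by
      by_contra hvD
      exact hwv (hD v hv hvD u hcu)
    have hA : ∀ i < σ, hdv ((nx ω)^[i] ea) ≠ v := by
      intro i hi hiv
      have e1 : W (sd b ((nx ω)^[i] ea)) = W (sd b ea) :=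
        hWalong b ea 0 i (Nat.zero_le _) fun l _ h2 => ⟨hab l (by omega), hfirst l (by omega)⟩
      have e2 : W (sd b ((nx ω)^[i] ea)) = W u :=
        sq_gen hvb (fun e he => hcons _ hvB (hannh hv) e he) (by rw [← hiv]; exact sd_cor b _)
          (sd_par b _) hcu hu
      exact hother (by rw [← e1, e2, i2, hWs])
    have hC : ∀ i < Nc, hdv ((nx ω)^[i] ec) ≠ v := by
      intro i hi hiv
      have e1 : w (sd b ((nx ω)^[i] ec)) = w (sd b ec) :=
        hwalong b ec i fun l hl => hc.b l (by omega)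
      have e2 : w (sd b ((nx ω)^[i] ec)) = w u :=
        sq_gen hvb (fun e he => hw.nx (Arc.inv _ _ _) (by rw [he]; exact hvB))
          (by rw [← hiv]; exact sd_cor b _) (sd_par b _) hcu hu
      have e3 : w (ls ec) = w (rs ec) := (hw ec (Or.inl (hc.b 0 hc.pos))).2
        (hnotm ec fun l hl hel => hne_cm 0 (Nat.zero_le _) l hl hel)
      apply hwv
      rw [← e2, e1]
      cases b
      · exact e3.symm
      · rfl
    exact hvD' (hD' v hvD hA hC)
  rcases hends with ⟨g1, g2⟩ | ⟨g1, g2⟩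
  · refine ⟨sd b ((nx ω)^[q] em), sd b ((nx ω)^[p] em), sd_par b _, cor_in g2 (sd_cor b _),
      cor_out g1 (sd_cor_tl b _), rtg_symm hpath, hfresh _ (sd_par b _) hWq (hwl q hqN)⟩
  · refine ⟨sd b ((nx ω)^[p] em), sd b ((nx ω)^[q] em), sd_par b _, cor_in g1 (sd_cor_tl b _),
      cor_out g2 (sd_cor b _), hpath, hfresh _ (sd_par b _) hWp (hwl p (by omega))⟩

end Vale.Agent.P167.QC.Mid
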