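import Vale.Agent.P167.QC.Det

/-!
# P167, general `q`: a return from a boundary point gives a fresh crossing cluster
(deterministic part)
-/

namespace Vale.Agent.P167.QC

open Finset
open Vale.Agent.P145.FB (PStep)
open Vale.Agent.P167.H166 Vale.Agent.P167.H161
open Vale.Agent.P167.FKA (Cor rest mem_rest)
open Relation

/-- **Many labels give many fresh crossing clusters**, for segments of the interface in both
directions. -/
theorem labels_le2 (b : Bool) {x : ℤ × ℤ} {r R' R : ℤ} (hR : R' < R) {ω : Cfg}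
    {D : Finset (ℤ × ℤ)} {ι : Type*} [Fintype ι] (e : ι → Ed) (N : ι → ℕ)
    (h1 : ∀ i, (nm (sd b (e i) - x) ≤ r + 1 ∧ R' - 1 ≤ nm (sd b ((nx ω)^[N i] (e i)) - x)) ∨
      (R' - 1 ≤ nm (sd b (e i) - x) ∧ nm (sd b ((nx ω)^[N i] (e i)) - x) ≤ r + 1))
    (hN2 : ∀ i, ∀ m < N i, nm (hdv ((nx ω)^[m] (e i)) - x) < R') {κ : Type*} [DecidableEq κ]
    (lab : ℤ × ℤ → κ) (hconn : ∀ {s t : ℤ × ℤ}, Conn x R ω s t → lab s = lab t) (Bd : Finset κ)
    (H1 : ∀ i, ∀ m < N i, hdv ((nx ω)^[m] (e i)) ∉ D → ω (hdv ((nx ω)^[m] (e i))) = b →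
      lab (H161.cor b (hdv ((nx ω)^[m] (e i)))) ∈ Bd)
    (H2 : ∀ s v v' : ℤ × ℤ, v' ∉ D → nm (v' - x) ≤ R' → ω v' = b → Cor v' s →
      (s.1 + s.2) % 2 = par b → v ∈ D → Cor v s → lab s ∈ Bd) :
    ((univ.image (fun i => lab (sd b (e i)))) \ Bd).card ≤
      kf x r R' (D ∩ bxx x R') ω b (par b) := by
  classical
  set F : Set (ℤ × ℤ) := Opb (rest (D ∩ bxx x R') (KF (bxx x R') (D ∩ bxx x R') ω b (par b))) ω b
    with hF
  have hFB : ∀ v ∈ F, v ∈ FK.Bq x R ∧ ω v = b := by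
    rintro v ⟨hv1, hv2⟩
    have h2 := (mem_rest.1 hv1).1
    rw [Finset.mem_inter, mem_bxx] at h2
    exact ⟨mem_Bq_of_le hR h2.2, hv2⟩
  have hOB : ∀ v ∈ Opb (D ∩ bxx x R') ω b, v ∈ FK.Bq x R ∧ ω v = b := by
    rintro v ⟨hv1, hv2⟩
    rw [Finset.mem_inter, mem_bxx] at hv1
    exact ⟨mem_Bq_of_le hR hv1.2, hv2⟩
  -- the labels of the sides are constant
  have hlabs : ∀ i m, m ≤ N i → lab (sd b ((nx ω)^[m] (e i))) = lab (sd b (e i)) := by
    intro i m
    induction m with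
    | zero => intro _; rfl
    | succ m ih =>
      intro hm
      rw [← ih (by omega), Function.iterate_succ_apply']
      by_cases hb : ω (hdv ((nx ω)^[m] (e i))) = b
      · have h3 := (sd_step b ω ((nx ω)^[m] (e i))).1 hb
        refine (hconn (ReflTransGen.single (bstep_of (b := b) (PStep_mono ?_ h3) (sd_par _ _)))).symm
        rw [Set.singleton_subset_iff]
        exact ⟨mem_Bq_of_le hR (hN2 i m (by omega)).le, hb⟩
      · rw [(sd_step b ω ((nx ω)^[m] (e i))).2 hb]
  -- the visited squares are fresh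
  have hfresh : ∀ i m, m < N i → lab (sd b (e i)) ∉ Bd → ω (hdv ((nx ω)^[m] (e i))) = b →
      hdv ((nx ω)^[m] (e i)) ∈ F := by
    intro i m hm hg hb
    have hnm := hN2 i m hm
    have hlab : lab (H161.cor b (hdv ((nx ω)^[m] (e i)))) = lab (sd b (e i)) := by
      rw [← hlabs i m hm.le]
      exact (hconn (conn_cor (mem_Bq_of_le hR hnm.le) hb (sd_cor b _) (sd_par b _))).symm
    have hD : hdv ((nx ω)^[m] (e i)) ∈ D := by
      by_contra hD
      have := H1 i m hm hD hb
      rw [hlab] at this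
      exact hg this
    refine ⟨mem_rest.2 ⟨Finset.mem_inter.2 ⟨hD, mem_bxx.2 hnm.le⟩, ?_⟩, hb⟩
    rintro t ⟨s, v', g1, g2, g3, g4, g5, g6⟩ hct
    have g6' : ReflTransGen (PStep (Opb (D ∩ bxx x R') ω b)) s t := g6
    -- `s` is a corner of a square of `D`
    obtain ⟨v, hv, hcv⟩ : ∃ v ∈ D, Cor v s := by
      rcases ReflTransGen.cases_head g6' with h4 | ⟨u, h4, -⟩
      · exact ⟨_, hD, by rw [h4]; exact hct⟩
      · exact ⟨_, (Finset.mem_inter.1 h4.2.2.1).1, (FKA.cor_of_step h4).1⟩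
    have hv' : v' ∉ D := fun h => g2 (Finset.mem_inter.2 ⟨h, g1⟩)
    have h5 := H2 s v v' hv' (mem_bxx.1 g1) g3 g4 g5 hv hcv
    have h6 : lab s = lab t := hconn (conn_of (b := b) hOB g6' g5)
    have htp : (t.1 + t.2) % 2 = par b := by
      have := cl_parity g6
      omega
    have h7 : lab t = lab (H161.cor b (hdv ((nx ω)^[m] (e i)))) :=
      hconn (conn_cor (mem_Bq_of_le hR hnm.le) hb hct htp)
    rw [h6, h7, hlab] at h5
    exact hg h5
  have hpath : ∀ i, lab (sd b (e i)) ∉ Bd → ∀ m, m ≤ N i →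
      ReflTransGen (PStep F) (sd b (e i)) (sd b ((nx ω)^[m] (e i))) := by
    intro i hg m
    induction m with
    | zero => intro _; exact ReflTransGen.refl
    | succ m ih =>
      intro hm
      have h3 := ih (by omega)
      rw [Function.iterate_succ_apply']
      by_cases hb : ω (hdv ((nx ω)^[m] (e i))) = b
      · refine h3.tail (PStep_mono ?_ ((sd_step b ω _).1 hb))
        rw [Set.singleton_subset_iff]
        exact hfresh i m (by omega) hg hb
      · rw [(sd_step b ω _).2 hb]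
        exact h3
  -- the clusters
  have hmem : ∀ i, lab (sd b (e i)) ∉ Bd → cl F (sd b (e i)) ∈ CC x r R' (par b) F := by
    intro i hg
    have hp := hpath i hg _ le_rfl
    rcases h1 i with ⟨g1, g2⟩ | ⟨g1, g2⟩
    · exact ⟨sd b (e i), sd_par b _, g1, rfl, _, hp, g2⟩
    · refine ⟨sd b ((nx ω)^[N i] (e i)), sd_par b _, g2, (cl_eq hp).symm, sd b (e i), ?_, g1⟩
      exact ReflTransGen.refl
  set V : Finset κ := (univ.image (fun i => lab (sd b (e i)))) \ Bd with hV
  have hpre : ∀ l ∈ V, ∃ i, lab (sd b (e i)) = l := by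
    intro l hl
    rw [hV, mem_sdiff, mem_image] at hl
    obtain ⟨⟨i, -, hi⟩, -⟩ := hl
    exact ⟨i, hi⟩
  have hch : ∀ l, ∃ C : Set (ℤ × ℤ), l ∈ V → ∃ i, lab (sd b (e i)) = l ∧ C = cl F (sd b (e i)) := by
    intro l
    by_cases hl : l ∈ V
    · obtain ⟨i, hi⟩ := hpre l hl
      exact ⟨_, fun _ => ⟨i, hi, rfl⟩⟩
    · exact ⟨∅, fun h => absurd h hl⟩
  choose f hf using hch
  have hkey : (V : Set κ).ncard ≤ (CC x r R' (par b) F).ncard := by
    refine Set.ncard_le_ncard_of_injOn f ?_ ?_ (CC_finite _ _ _ _ _)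
    · intro l hl
      obtain ⟨i, hi, hfi⟩ := hf l (Finset.mem_coe.1 hl)
      rw [hfi]
      refine hmem i ?_
      rw [hi]
      have h3 := Finset.mem_coe.1 hl
      rw [hV, mem_sdiff] at h3
      exact h3.2
    · intro l hl l' hl' hll
      obtain ⟨i, hi, hfi⟩ := hf l (Finset.mem_coe.1 hl)
      obtain ⟨i', hi', hfi'⟩ := hf l' (Finset.mem_coe.1 hl')
      have h3 : sd b (e i') ∈ cl F (sd b (e i)) := by
        rw [← hfi, hll, hfi']
        exact ReflTransGen.refl
      have h4 := hconn (conn_of (b := b) hFB h3 (sd_par b _))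
      rw [← hi, ← hi', h4]
  rw [Set.ncard_coe_finset] at hkey
  exact hkey

/-- Two different arcs have at least three labels. -/
theorem three_labels {A B C D : ℤ × ℤ} (h1 : A.1 - B.1 = 1) (h2 : A.2 - B.2 = 0)
    (h3 : C.1 - D.1 = 0) (h4 : C.2 - D.2 = 1) :
    2 < (({A, C} : Finset (ℤ × ℤ)) ∪ {B, D}).card := by
  rw [Finset.two_lt_card]
  have hAB : A ≠ B := by
    rintro rfl
    omega
  by_cases hC : C = A ∨ C = B
  · refine ⟨A, by simp, B, by simp, D, by simp, hAB, ?_, ?_⟩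
    · rintro rfl
      rcases hC with rfl | rfl <;> omega
    · rintro rfl
      rcases hC with rfl | rfl <;> omega
  · push Not at hC
    exact ⟨A, by simp, B, by simp, C, by simp, hAB, hC.1.symm, hC.2.symm⟩

/-- A corner of a near (far) square is near (far). -/
theorem cor_far {x s v : ℤ × ℤ} {r R' : ℤ} (hs : Cor v s) :
    (nm (v - x) ≤ r → nm (s - x) ≤ r + 1) ∧ (R' ≤ nm (v - x) → R' - 1 ≤ nm (s - x)) := by
  simp only [Cor] at hs
  constructor
  · intro hv
    simp only [nm, Prod.fst_sub, Prod.snd_sub, max_le_iff, abs_le] at hv ⊢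
    omega
  · intro hv
    simp only [nm, Prod.fst_sub, Prod.snd_sub, le_max_iff, le_abs] at hv ⊢
    omega

/-- The sides of the next edge are corners of the square in front of the edge. -/
theorem sd_cor' (b : Bool) (ω : Cfg) (e : Ed) : Cor (hdv e) (sd b (nx ω e)) := by
  by_cases hb : ω (hdv e) = b
  · have h3 := (sd_step b ω e).1 hb
    have h4 := (FKA.cor_of_step h3).2
    have h5 : (min (sd b e).1 (sd b (nx ω e)).1, min (sd b e).2 (sd b (nx ω e)).2) = hdv e :=
      h3.2.2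
    rw [h5] at h4
    exact h4
  · rw [(sd_step b ω e).2 hb]
    exact sd_cor b e

/-- **A return gives a fresh crossing cluster.** -/
theorem ret_kf {x : ℤ × ℤ} {r R' R : ℤ} (hR : R' < R) (hr : r < R') {ω : Cfg}
    {D : Finset (ℤ × ℤ)} (P : Finset (ℤ × ℤ)) (hP : P.card ≤ 2)
    (H2 : ∀ (b : Bool) (s v v' : ℤ × ℤ), v' ∉ D → nm (v' - x) ≤ R' → ω v' = b → Cor v' s →
      (s.1 + s.2) % 2 = par b → v ∈ D → Cor v s → ∃ q ∈ P, Conn x R ω s q)
    {e0 : Ed} {T t0 t1 : ℕ}
    (hinj : Set.InjOn (fun i : ℕ => (nx ω)^[i] e0) (Set.Iic T))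
    (h0 : R < nm (hdv e0 - x)) (ht : t0 ≤ t1) (hT : t1 ≤ T)
    (ha : nm (hdv ((nx ω)^[t0] e0) - x) ≤ r) (hb : R < nm (hdv ((nx ω)^[t1] e0) - x))
    (hc : nm (hdv ((nx ω)^[T] e0) - x) ≤ r)
    (H1 : ∀ i ≤ T, hdv ((nx ω)^[i] e0) ∉ D → nm (hdv ((nx ω)^[i] e0) - x) ≤ R' →
      ∃ q ∈ P, Conn x R ω (H161.cor (ω (hdv ((nx ω)^[i] e0))) (hdv ((nx ω)^[i] e0))) q) :
    1 ≤ kf x r R' (D ∩ bxx x R') ω true 0 + kf x r R' (D ∩ bxx x R') ω false 1 := by
  classical
  have hB : ∀ {v : ℤ × ℤ}, nm (v - x) < R' → v ∈ FK.Bq x R := fun h => mem_Bq_of_nm hR.le h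
  have hout : ∀ {v : ℤ × ℤ}, R < nm (v - x) → v ∉ FK.Bq x R := by
    intro v hv hm
    rw [mem_Bq] at hm
    simp only [nm, Prod.fst_sub, Prod.snd_sub, lt_max_iff, lt_abs] at hv
    omega
  have ht0 : t0 < t1 := by
    rcases ht.lt_or_eq with h | h
    · exact h
    · rw [h] at ha; omega
  have ht0' : 0 < t0 := by
    rcases Nat.eq_zero_or_pos t0 with h | h
    · rw [h] at ha
      change nm (hdv e0 - x) ≤ r at ha
      omega
    · exact h
  -- the last time `u` far away
  obtain ⟨u, hu1, hu2, hu3, hu4⟩ : ∃ u, t1 ≤ u ∧ u < T ∧ R' ≤ nm (hdv ((nx ω)^[u] e0) - x) ∧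
      ∀ m, u < m → m ≤ T → nm (hdv ((nx ω)^[m] e0) - x) < R' := by
    have hex : ∃ d, R' ≤ nm (hdv ((nx ω)^[T - d] e0) - x) := ⟨T - t1, by
      have : T - (T - t1) = t1 := by omega
      rw [this]; omega⟩
    have h3 := Nat.find_spec hex
    have h4 := Nat.find_min' hex (show R' ≤ nm (hdv ((nx ω)^[T - (T - t1)] e0) - x) by
      have : T - (T - t1) = t1 := by omega
      rw [this]; omega)
    have h5 : Nat.find hex ≠ 0 := by
      intro h5
      rw [h5, Nat.sub_zero] at h3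
      omega
    refine ⟨T - Nat.find hex, by omega, by omega, h3, ?_⟩
    intro m hm1 hm2
    have := Nat.find_min hex (m := T - m) (by omega)
    have e1 : T - (T - m) = m := by omega
    rw [e1] at this
    omega
  set e1 : Ed := (nx ω)^[t0] e0 with he1
  set e2 : Ed := (nx ω)^[u + 1] e0 with he2
  -- different arcs
  have hdif : e2 ∉ Arc (FK.Bq x R) ω e1 := by
    rintro (⟨m, g1, g2⟩ | ⟨m, g1, g2⟩)
    · have hm : m ≤ t1 - t0 := by
        by_contra hm
        have := g2 (t1 - t0) (by omega)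
        rw [he1, ← Function.iterate_add_apply, Nat.sub_add_cancel ht] at this
        exact hout hb this
      rw [he1, he2, ← Function.iterate_add_apply] at g1
      have h3 : m + t0 = u + 1 :=
        hinj (by rw [Set.mem_Iic]; omega) (by rw [Set.mem_Iic]; omega) g1
      omega
    · rw [he1, he2, ← Function.iterate_add_apply] at g1
      have hnxi : Function.Injective (nx ω) := (s_nx ω).1
      have e3 : m + (u + 1) = t0 + (m + (u + 1) - t0) := by omega
      rw [e3, Function.iterate_add_apply] at g1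
      have h3 : (nx ω)^[m + (u + 1) - t0] e0 = e0 := (hnxi.iterate t0) g1
      by_cases hm : t0 ≤ m
      · have h4 := g2 (m - t0) (by omega)
        rw [he2, ← Function.iterate_add_apply] at h4
        have e4 : m - t0 + (u + 1) = m + (u + 1) - t0 := by omega
        rw [e4, h3] at h4
        exact hout h0 h4
      · have h4 : m + (u + 1) - t0 = 0 :=
          hinj (by rw [Set.mem_Iic]; omega) (by rw [Set.mem_Iic]; omega) h3
        omega
  have hdif' : e1 ∉ Arc (FK.Bq x R) ω e2 := fun h => hdif (Arc.symm h)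
  have hB1 : hdv e1 ∈ FK.Bq x R := hB (lt_of_le_of_lt ha hr)
  have hB2 : hdv e2 ∈ FK.Bq x R := hB (hu4 _ (by omega) (by omega))
  have hinv : ∀ e : Ed, Inv (FK.Bq x R : Set (ℤ × ℤ)) ω (Arc (FK.Bq x R) ω e) :=
    fun e => Arc.inv _ _ _
  obtain ⟨w1, hw1⟩ := exists_PotX (hinv e1)
  obtain ⟨w2, hw2⟩ := exists_PotX (hinv e2)
  let lab : ℤ × ℤ → ℤ × ℤ := fun s => (w1 s, w2 s)
  have hconn : ∀ {s t : ℤ × ℤ}, Conn x R ω s t → lab s = lab t := by
    intro s t h
    simp only [lab, Prod.mk.injEq]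
    exact ⟨hw1.conn (hinv e1) h, hw2.conn (hinv e2) h⟩
  have d11 : w1 (ls e1) - w1 (rs e1) = 1 := by
    have := (hw1 e1 (Or.inl hB1)).1 (self_mem_Arc _ _ _)
    omega
  have d12 : w2 (ls e1) - w2 (rs e1) = 0 := by
    have := (hw2 e1 (Or.inl hB1)).2 hdif'
    omega
  have d21 : w1 (ls e2) - w1 (rs e2) = 0 := by
    have := (hw1 e2 (Or.inl hB2)).2 hdif
    omega
  have d22 : w2 (ls e2) - w2 (rs e2) = 1 := by
    have := (hw2 e2 (Or.inl hB2)).1 (self_mem_Arc _ _ _)
    omega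
  set Bd : Finset (ℤ × ℤ) := P.image lab with hBd
  have hbad : ∀ {s : ℤ × ℤ}, (∃ q ∈ P, Conn x R ω s q) → lab s ∈ Bd := by
    rintro s ⟨q, hq, hc⟩
    rw [hBd, mem_image]
    exact ⟨q, hq, (hconn hc).symm⟩
  -- the first exit of the first segment
  obtain ⟨N1, hN1, hN1T, hN1'⟩ : ∃ N1, R' ≤ nm (hdv ((nx ω)^[N1] e1) - x) ∧ N1 + t0 ≤ T ∧
      ∀ m < N1, nm (hdv ((nx ω)^[m] e1) - x) < R' := by
    have h2 : R' ≤ nm (hdv ((nx ω)^[t1 - t0] e1) - x) := by
      rw [he1, ← Function.iterate_add_apply, Nat.sub_add_cancel ht]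
      omega
    have h3 : ∃ N1, R' ≤ nm (hdv ((nx ω)^[N1] e1) - x) := ⟨_, h2⟩
    refine ⟨Nat.find h3, Nat.find_spec h3, ?_, fun m hm => by
      have := Nat.find_min h3 hm
      omega⟩
    have h4 := Nat.find_min' h3 h2
    omega
  let e : Bool → Ed := fun i => if i then e1 else e2
  let N : Bool → ℕ := fun i => if i then N1 else T - (u + 1)
  let τ : Bool → ℕ := fun i => if i then t0 else u + 1
  have hit : ∀ i m, (nx ω)^[m] (e i) = (nx ω)^[m + τ i] e0 := by
    intro i m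
    cases i
    · simp only [e, τ, he2, Bool.false_eq_true, if_false]
      rw [← Function.iterate_add_apply]
    · simp only [e, τ, he1, if_true]
      rw [← Function.iterate_add_apply]
  have hNT : ∀ i, N i + τ i ≤ T := by
    intro i
    cases i
    · simp only [N, τ, Bool.false_eq_true, if_false]
      omega
    · simp only [N, τ, if_true]
      omega
  have hN2 : ∀ i, ∀ m < N i, nm (hdv ((nx ω)^[m] (e i)) - x) < R' := by
    intro i m hm
    rw [hit]
    cases i
    · simp only [N, τ, Bool.false_eq_true, if_false] at hm ⊢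
      exact hu4 _ (by omega) (by omega)
    · simp only [N, τ, if_true] at hm ⊢
      have := hN1' m hm
      rwa [he1, ← Function.iterate_add_apply] at this
  have hends : ∀ (b : Bool) (i : Bool),
      (nm (sd b (e i) - x) ≤ r + 1 ∧ R' - 1 ≤ nm (sd b ((nx ω)^[N i] (e i)) - x)) ∨
      (R' - 1 ≤ nm (sd b (e i) - x) ∧ nm (sd b ((nx ω)^[N i] (e i)) - x) ≤ r + 1) := by
    intro b i
    cases i
    · right
      constructor
      · simp only [e, Bool.false_eq_true, if_false]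
        rw [he2, Function.iterate_succ_apply']
        exact (cor_far (r := r) (sd_cor' b ω _)).2 hu3
      · rw [hit]
        simp only [N, τ, Bool.false_eq_true, if_false]
        have e5 : T - (u + 1) + (u + 1) = T := by omega
        rw [e5]
        exact (cor_far (R' := R') (sd_cor b _)).1 hc
    · left
      constructor
      · simp only [e, if_true]
        exact (cor_far (R' := R') (sd_cor b _)).1 ha
      · simp only [e, N, if_true]
        exact (cor_far (r := r) (sd_cor b _)).2 hN1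
  have hH1 : ∀ b : Bool, ∀ i, ∀ m < N i, hdv ((nx ω)^[m] (e i)) ∉ D →
      ω (hdv ((nx ω)^[m] (e i))) = b → lab (H161.cor b (hdv ((nx ω)^[m] (e i)))) ∈ Bd := by
    intro b i m hm hnD hb
    have h3 := hNT i
    have h4 := hN2 i m hm
    rw [hit] at hnD hb h4 ⊢
    have h5 := hbad (H1 (m + τ i) (by omega) hnD h4.le)
    rw [hb] at h5
    exact h5
  have k1 := labels_le2 true hR e N (hends true) hN2 lab hconn Bd (hH1 true)
    (fun s v v' a1 a2 a3 a4 a5 a6 a7 => hbad (H2 true s v v' a1 a2 a3 a4 a5 a6 a7))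
  have k2 := labels_le2 false hR e N (hends false) hN2 lab hconn Bd (hH1 false)
    (fun s v v' a1 a2 a3 a4 a5 a6 a7 => hbad (H2 false s v v' a1 a2 a3 a4 a5 a6 a7))
  rw [par_true] at k1
  rw [par_false] at k2
  have c1 : (univ.image (fun i => lab (sd true (e i)))) = {lab (ls e1), lab (ls e2)} := by
    ext l
    simp [e, sd]
  have c2 : (univ.image (fun i => lab (sd false (e i)))) = {lab (rs e1), lab (rs e2)} := by
    ext l
    simp [e, sd]
  rw [c1] at k1
  rw [c2] at k2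
  have h3 := three_labels (A := lab (ls e1)) (B := lab (rs e1)) (C := lab (ls e2))
    (D := lab (rs e2)) d11 d12 d21 d22
  set V1 : Finset (ℤ × ℤ) := {lab (ls e1), lab (ls e2)} with hV1
  set V2 : Finset (ℤ × ℤ) := {lab (rs e1), lab (rs e2)} with hV2
  have h4 : V1 ∪ V2 ⊆ (V1 \ Bd) ∪ (V2 \ Bd) ∪ Bd := by
    intro l hl
    rw [mem_union] at hl
    rw [mem_union, mem_union, mem_sdiff, mem_sdiff]
    tauto
  have h5 : (V1 ∪ V2).card ≤ (V1 \ Bd).card + (V2 \ Bd).card + 2 :=
    calc (V1 ∪ V2).card ≤ ((V1 \ Bd) ∪ (V2 \ Bd) ∪ Bd).card := card_le_card h4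
      _ ≤ ((V1 \ Bd) ∪ (V2 \ Bd)).card + Bd.card := card_union_le _ _
      _ ≤ (V1 \ Bd).card + (V2 \ Bd).card + 2 :=
          add_le_add (card_union_le _ _) (card_image_le.trans hP)
  omega

end Vale.Agent.P167.QC
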