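import Vale.Agent.P167.QC.Ret
import Vale.Agent.P167.QC.Lat

/-!
# P167, general `q`: a return from `b` gives a fresh crossing cluster (lattice domains)
-/

namespace Vale.Agent.P167.QC

open Vale.Agent.P145.FB (PStep)
open Vale.Agent.P167.E6 Vale.Agent.P167.E2
open Vale.Agent.P167.H166 Vale.Agent.P167.H161
open Vale.Agent.P167.FKA (Cor rest mem_rest Pr_mono Ex_mono Ex_congr Ex_const ind_nonneg)
open Vale.Agent.P167.FK (Good RSW Pr Ex)
open Vale.Agent.P167.H718 (Dq wE etaQ mem_Dq' mem_wE mem_wiredOpen good_etaQ)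

variable {n : ℕ} {p : ZMod n → ℤ × ℤ} {S : Finset (ℤ × ℤ)} {k : ℕ}

/-- **The frozen squares near `b` form two connected pieces.** -/
theorem frz3 (hp : IsPolygon p) (hS : Encloses p S) (h0 : 0 < k) (hk : k < n) {x : ℤ × ℤ}
    {r R : ℤ} (hR : r + 4 ≤ R)
    (hw : ∀ i, k ≤ i → i < n → nm (H192.ro (p i) - x) ≤ r + 2 → ∀ l, k ≤ l → l ≤ i →
      nm (H192.ro (p l) - x) < R)
    (hf : ∀ i < k, nm (H192.ro (p i) - x) ≤ r + 2 → ∀ l, i ≤ l → l < k →
      nm (H192.ro (p l) - x) < R) :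
    ∃ P : Finset (ℤ × ℤ), P.card ≤ 2 ∧
      ∀ w : Cfg, (∀ v ∈ Fq p k S, nm (v - x) < r →
        ∃ q ∈ P, Conn x R (ovq p k S w) (H161.cor (ovq p k S w v) v) q) ∧
      ∀ i < k, nm (H192.ro (p i) - x) ≤ r + 2 → ∀ d, face (p i) d ∉ S →
        ∃ q ∈ P, Conn x R (ovq p k S w) (H192.rf (face (p i) d)) q := by
  classical
  refine ⟨{H192.ro (p (k : ZMod n)),
    H192.rf (face (p ((k - 1 : ℕ) : ZMod n)) (ri p ((k - 1 : ℕ) : ZMod n)))},
    Finset.card_le_two, fun w => ⟨?_, ?_⟩⟩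
  · intro v hv hnm
    rw [nm_sub_lt] at hnm
    rcases hv with hv | hv
    · -- wired
      obtain ⟨i, hi1, hi2, hi3⟩ := hv
      rw [show ovq p k S w v = true from ovq_FW ⟨i, hi1, hi2, hi3⟩]
      obtain ⟨d, hd⟩ := hp.2.2 (i : ZMod n)
      have hv1 : v = H192.sq s(p i, p i + dir d) := by
        rw [← hd, ← hi3, H192.sq_ed]
      obtain ⟨h3, h4⟩ := sq_near (p i) d
      rw [← hv1] at h3 h4
      have hnear := hw i hi1 (by omega) (by rw [nm_sub_le]; omega)
      refine ⟨H192.ro (p (k : ZMod n)), by simp, ?_⟩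
      have hch : Conn x R (ovq p k S w) (H192.ro (p i)) (H192.ro (p (k : ZMod n))) :=
        (wchain hp le_rfl hi1 (by omega) hnear).symm
      obtain ⟨h5, h6⟩ := H192.ro_dir (p i) d
      have h7 := pa_mem h5 h6 (H192.even_ro _)
      rw [← H192.sq_dir, ← hv1] at h7
      simp only [H161.cor, if_true]
      rcases h7 with h7 | h7
      · rw [h7]
        exact hch
      · rw [h7]
        have h8 := wstep (S := S) (w := w) hp hi1 hi2 (hnear i hi1 le_rfl)
        have e1 : p ((i + 1 : ℕ) : ZMod n) = p i + dir d := by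
          rw [← hd]
          push_cast
          rfl
        rw [e1] at h8
        exact Relation.ReflTransGen.head h8.symm hch
    · -- free
      rw [ovq_FO hp hS hv]
      obtain ⟨i, d, hi1, hi2, hi3, hv1⟩ := hv
      obtain ⟨h3, h4⟩ := sq_near (p i) (d + 1)
      rw [← hv1] at h3 h4
      have hnear := hf i hi1 (by rw [nm_sub_le]; omega)
      refine ⟨H192.rf (face (p ((k - 1 : ℕ) : ZMod n)) (ri p ((k - 1 : ℕ) : ZMod n))),
        by simp, ?_⟩
      have hch : Conn x R (ovq p k S w) (H192.rf (face (p i) (ri p i)))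
          (H192.rf (face (p ((k - 1 : ℕ) : ZMod n)) (ri p ((k - 1 : ℕ) : ZMod n)))) :=
        fchain hp hS (by omega) (by omega) fun l h1 h2 => hnear l h1 (by omega)
      obtain ⟨⟨h5, h6⟩, h8⟩ := face_key (p i) d
      have h7 := da_mem h5 h6 (H192.odd_rf _)
      rw [h8, ← hv1] at h7
      simp only [H161.cor, Bool.false_eq_true, if_false]
      rcases h7 with h7 | h7
      · rw [h7]
        exact (floc hp hS hi1 (hnear i le_rfl hi1) hi2).symm.trans hch
      · rw [h7]
        exact (floc hp hS hi1 (hnear i le_rfl hi1) hi3).symm.trans hch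
  · intro i hi1 hnm d hi2
    have hnear := hf i hi1 hnm
    refine ⟨H192.rf (face (p ((k - 1 : ℕ) : ZMod n)) (ri p ((k - 1 : ℕ) : ZMod n))),
      by simp, ?_⟩
    have hch : Conn x R (ovq p k S w) (H192.rf (face (p i) (ri p i)))
        (H192.rf (face (p ((k - 1 : ℕ) : ZMod n)) (ri p ((k - 1 : ℕ) : ZMod n)))) :=
      fchain hp hS (by omega) (by omega) fun l h1 h2 => hnear l h1 (by omega)
    exact (floc hp hS hi1 (hnear i le_rfl hi1) hi2).symm.trans hch

/-- The last square of the interface is near `b`. -/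
theorem last_near (hp : IsPolygon p) (hS : Encloses p S) (hk : k < n)
    {A : Finset (Sym2 (ℤ × ℤ))} (hA : A ⊆ edges S) :
    nm (hdv (H192.me (run p k A (len p k A - 1))) - H192.ro (p (k : ZMod n))) ≤ 1 := by
  have hpos := len_pos hp hS hk hA
  have h1 := run_len hp hS hk hA
  have e1 : len p k A = len p k A - 1 + 1 := by omega
  rw [e1, run_succ] at h1
  rw [H192.hdv_me]
  generalize run p k A (len p k A - 1) = c at h1
  obtain ⟨h5, h6⟩ := H192.ro_dir c.1 (c.2 + 1)
  have h7 : H192.sq (ahead c) = (min (H192.ro c.1).1 (H192.ro (c.1 + dir (c.2 + 1))).1,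
      min (H192.ro c.1).2 (H192.ro (c.1 + dir (c.2 + 1))).2) := H192.sq_dir _ _
  rw [h7, nm_sub_le]
  by_cases h : ahead c ∈ wiredOpen p k A
  · rw [next_open h] at h1
    have h8 : c.1 + dir (c.2 + 1) = p (k : ZMod n) := congrArg Prod.fst h1
    rw [← h8]
    simp only
    omega
  · rw [next_closed h] at h1
    have h8 : c.1 = p (k : ZMod n) := congrArg Prod.fst h1
    rw [← h8]
    simp only
    omega

/-- The first square of the interface is near `a`. -/
theorem first_near (hp : IsPolygon p) :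
    nm (hdv (H192.me (cs p)) - H192.ro (p 0)) ≤ 1 := by
  rw [H192.hdv_me]
  have h7 : H192.sq (ahead (cs p)) = (min (H192.ro (cs p).1).1 (H192.ro ((cs p).1 +
      dir ((cs p).2 + 1))).1, min (H192.ro (cs p).1).2 (H192.ro ((cs p).1 +
      dir ((cs p).2 + 1))).2) := H192.sq_dir _ _
  obtain ⟨h5, h6⟩ := H192.ro_dir (cs p).1 ((cs p).2 + 1)
  have h8 : (cs p).1 + dir ((cs p).2 + 1) = p 0 := by
    simp only [cs, sub_add_cancel]
    have := ro_spec hp (-1 : ZMod n)
    rw [neg_add_cancel] at this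
    exact this.symm
  rw [h7, nm_sub_le]
  rw [h8] at h5 h6 ⊢
  simp only
  omega

/-- **A return from `b` gives a fresh crossing cluster.** -/
theorem ret_lat (hp : IsPolygon p) (hS : Encloses p S) (h0 : 0 < k) (hk : k < n)
    {x : ℤ × ℤ} {r R' R : ℤ} (hr : r < R') (hR : R' + 5 ≤ R)
    (hw : ∀ i, k ≤ i → i < n → nm (H192.ro (p i) - x) ≤ R' + 3 → ∀ l, k ≤ l → l ≤ i →
      nm (H192.ro (p l) - x) < R)
    (hf : ∀ i < k, nm (H192.ro (p i) - x) ≤ R' + 3 → ∀ l, i ≤ l → l < k →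
      nm (H192.ro (p l) - x) < R)
    (ha : R + 1 < nm (H192.ro (p 0) - x)) (hb : nm (H192.ro (p (k : ZMod n)) - x) + 1 ≤ r)
    {A : Finset (Sym2 (ℤ × ℤ))} (hA : A ⊆ edges S) {t0 t1 : ℕ} (ht : t0 ≤ t1)
    (ht1 : t1 < len p k A) (h1 : nm (hdv (H192.me (run p k A t0)) - x) ≤ r)
    (h2 : R < nm (hdv (H192.me (run p k A t1)) - x)) :
    1 ≤ kf x r R' (Dq S p k ∩ bxx x R') (om p k A) true 0 +
      kf x r R' (Dq S p k ∩ bxx x R') (om p k A) false 1 := by
  obtain ⟨P, hP, hPP⟩ := frz3 hp hS h0 hk (x := x) (r := R' + 1) (R := R) (by omega)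
    (fun i a b c => hw i a b (by omega)) (fun i a b => hf i a (by omega))
  obtain ⟨g1, g2⟩ := hPP (om p k A)
  rw [ovq_om hp hS hA] at g1 g2
  have hpos := len_pos hp hS hk hA
  have hinj : Set.InjOn (fun i : ℕ => (nx (om p k A))^[i] (H192.me (cs p)))
      (Set.Iic (len p k A - 1)) := by
    intro i hi j hj hij
    rw [Set.mem_Iic] at hi hj
    simp only at hij
    rw [run_om, run_om] at hij
    exact run_inj hp hS hk hA (by omega) (by omega) (H192.me_inj hij)
  -- frozen open squares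
  have hW : ∀ v : ℤ × ℤ, v ∉ Dq S p k → om p k A v = true → v ∈ FW p k := by
    intro v hv h1
    rw [mem_Dq'] at hv
    rcases om_true.1 h1 with h2 | h2
    · by_contra h3
      exact hv ⟨hA h2, fun h4 => h3 (mem_FW.2 h4)⟩
    · exact mem_FW.2 h2
  refine ret_kf (x := x) (r := r) (R' := R') (R := R) (by omega) hr (ω := om p k A)
    (D := Dq S p k) P hP ?_ (e0 := H192.me (cs p)) (T := len p k A - 1) (t0 := t0) (t1 := t1)
    hinj ?_ ht (by omega) ?_ ?_ ?_ ?_
  · -- corners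
    intro b s v v' a1 a2 a3 a4 a5 a6 a7
    cases b
    · have h1 : H192.ed v' ∉ edges S := by
        intro h1
        have h2 : H192.ed v' ∈ wE p k := by
          by_contra h2
          exact a1 (mem_Dq'.2 ⟨h1, h2⟩)
        have h3 : om p k A v' = true := om_true.2 (Or.inr h2)
        rw [a3] at h3
        exact absurd h3 (by simp)
      obtain ⟨u, d, hud⟩ := exists_form v'
      have hvs : v' = H192.sq s(u, u + dir (d + 1)) := by rw [← hud, H192.sq_ed]
      rw [hud, mem_edges, fin4_back, not_or] at h1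
      have a4' := a4
      rw [hvs] at a4'
      obtain ⟨f, hf, hfS⟩ : ∃ f, s = H192.rf f ∧ f ∉ S := by
        rcases odd_corner a4' a5 with h2 | h2
        · exact ⟨_, h2, h1.2⟩
        · exact ⟨_, h2, h1.1⟩
      obtain ⟨i, hi, d', hd'⟩ := ext_face hp hS h0 hk a6 a7 a5 hf hfS
      have h2 := g2 i hi ?_ d' (by rw [hd']; exact hfS)
      · rw [hd', ← hf] at h2
        exact h2
      · rw [nm_sub_le] at a2 ⊢
        simp only [Cor] at a4
        rw [hf, ← hd'] at a4
        obtain ⟨y1, y2⟩ := v'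
        have h3 : ((H192.rf (face (p i) d')).1 = (H192.ro (p i)).1 ∨
            (H192.rf (face (p i) d')).1 = (H192.ro (p i)).1 + 1 ∨
            (H192.rf (face (p i) d')).1 = (H192.ro (p i)).1 - 1) ∧
            ((H192.rf (face (p i) d')).2 = (H192.ro (p i)).2 ∨
            (H192.rf (face (p i) d')).2 = (H192.ro (p i)).2 + 1 ∨
            (H192.rf (face (p i) d')).2 = (H192.ro (p i)).2 - 1) := by
          clear * -
          obtain ⟨a, b⟩ := p (i : ZMod n)
          rcases H192.fin4_cases d' with rfl | rfl | rfl | rfl <;>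
            simp only [face, H192.rf, H192.ro] <;> refine ⟨?_, ?_⟩ <;> simp <;> omega
        simp only at a2 a4
        omega
    · have h1 := g1 v' (Or.inl (hW v' a1 a3)) (by omega)
      obtain ⟨q, hq, h2⟩ := h1
      rw [a3] at h2
      exact ⟨q, hq, (conn_cor (b := true) (mem_Bq_of_le (by omega) a2) a3 a4 a5).trans h2⟩
  · have h3 := first_near hp
    by_contra hcon
    rw [not_lt, nm_sub_le] at hcon
    rw [nm_sub_le] at h3
    have h4 : nm (H192.ro (p 0) - x) ≤ R + 1 := by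
      rw [nm_sub_le]
      omega
    omega
  · rw [run_om]
    exact h1
  · rw [run_om]
    exact h2
  · rw [run_om]
    have h3 := last_near hp hS hk hA
    have h4 : nm (H192.ro (p (k : ZMod n)) - x) ≤ r - 1 := by omega
    rw [nm_sub_le] at h3 h4 ⊢
    omega
  · intro i hi hnD hnm
    rw [run_om] at hnD hnm ⊢
    refine g1 _ ?_ (by omega)
    by_cases hb : om p k A (hdv (H192.me (run p k A i))) = true
    · exact Or.inl (hW _ hnD hb)
    · right
      rcases ahead_cases hp hS h0 hk hA (j := i) (by omega) with h3 | ⟨i', hi', h4, h5, h6⟩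
      · exfalso
        apply hnD
        rw [mem_Dq', H192.ed_hdv_me]
        refine ⟨h3, fun h4 => hb ?_⟩
        rw [om_true, H192.ed_hdv_me]
        exact Or.inr h4
      · refine ⟨i', (run p k A i).2, hi', h5, h6, ?_⟩
        rw [H192.hdv_me]
        unfold ahead
        rw [← h4]

open Classical in
/-- **The probability of a return from `b`**, `1 ≤ q ≤ 4`. -/
theorem ret_tail {q : ℝ} (h1 : 1 ≤ q) (h4 : q ≤ 4) : ∃ α C : ℝ, 0 < α ∧ 0 < C ∧
    ∀ (n : ℕ) (p : ZMod n → ℤ × ℤ) (S : Finset (ℤ × ℤ)) (k : ℕ),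
    IsPolygon p → Encloses p S → 0 < k → k < n →
    ∀ (x : ℤ × ℤ) (r R' R : ℤ), 1 ≤ r → r + 2 < R' → R' + 5 ≤ R →
      (∀ i, k ≤ i → i < n → nm (H192.ro (p i) - x) ≤ R' + 3 → ∀ l, k ≤ l → l ≤ i →
        nm (H192.ro (p l) - x) < R) →
      (∀ i < k, nm (H192.ro (p i) - x) ≤ R' + 3 → ∀ l, i ≤ l → l < k →
        nm (H192.ro (p l) - x) < R) →
      R + 1 < nm (H192.ro (p 0) - x) → nm (H192.ro (p (k : ZMod n)) - x) + 1 ≤ r →
      Final.mean q p k S (fun A => if ∃ t0 t1 : ℕ, t0 ≤ t1 ∧ t1 < len p k A ∧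
        nm (hdv (H192.me (run p k A t0)) - x) ≤ r ∧
        R < nm (hdv (H192.me (run p k A t1)) - x) then 1 else 0) ≤
        C * ((r : ℝ) / R') ^ α := by
  obtain ⟨hs1, hrsw⟩ := rsw_sqrt h1 h4
  have hQ0 : (0 : ℝ) < √q := by linarith
  have hq0 : 0 < q := by linarith
  obtain ⟨α, C, hα, hC, h⟩ := fresh_tail hs1 hrsw
  refine ⟨α, 4 * C, hα, by positivity, fun n p S k hp hS h0 hk x r R' R hr hrR hR hw hf ha hb => ?_⟩
  have hr' : (1 : ℝ) ≤ r := by exact_mod_cast hr
  have hR0 : (0 : ℝ) < R' := by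
    have : (1 : ℤ) ≤ R' := by omega
    have : (1 : ℝ) ≤ R' := by exact_mod_cast this
    linarith
  have hx0 : 0 ≤ C * ((r : ℝ) / R') ^ α := by
    have : 0 ≤ (r : ℝ) / R' := div_nonneg (by linarith) hR0.le
    positivity
  rcases le_total (C * ((r : ℝ) / R') ^ α) 1 with hsm | hsm
  · obtain ⟨t1, t2⟩ := h x r R' hr hrR hsm (Dq S p k) (etaQ p k) good_etaQ 1
    rw [pow_one] at t1 t2
    have hle := mean_le_Pr (k := k) hq0 hp hS (fun A => ∃ t0 t1 : ℕ, t0 ≤ t1 ∧ t1 < len p k A ∧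
        nm (hdv (H192.me (run p k A t0)) - x) ≤ r ∧
        R < nm (hdv (H192.me (run p k A t1)) - x))
      ({ω | 1 ≤ kf x r R' (Dq S p k ∩ bxx x R') ω true 0} ∪
        {ω | 1 ≤ kf x r R' (Dq S p k ∩ bxx x R') ω false 1}) fun A hA hE => ?_
    · refine hle.trans ((FKA.Pr_union_le hQ0 _ _).trans ?_)
      linarith
    · obtain ⟨s0, s1, g1, g2, g3, g4⟩ := hE
      have h5 := ret_lat hp hS h0 hk (by omega) hR hw hf ha hb hA g1 g2 g3 g4
      by_cases h7 : 1 ≤ kf x r R' (Dq S p k ∩ bxx x R') (om p k A) true 0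
      · exact Or.inl h7
      · refine Or.inr ?_
        show 1 ≤ kf x r R' (Dq S p k ∩ bxx x R') (om p k A) false 1
        omega
  · refine (mean_le_Pr (k := k) hq0 hp hS _ Set.univ fun _ _ _ => Set.mem_univ _).trans ?_
    refine (FKA.Pr_le_one hQ0 _).trans ?_
    linarith

end Vale.Agent.P167.QC
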