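import Vale.Agent.P167.Top.PlaneW
import Mathlib.Analysis.SpecialFunctions.Complex.Log

/-!
# P167, general `q`, Stage II, (1b): the sum of the logarithms along a loop is its winding number
-/

set_option autoImplicit false

namespace Vale.Agent.P167.QC.S2

open Vale.Agent.P167

/-- The position of the centre of the square `v` relative to the site `s`. -/
noncomputable def P (s v : ℤ × ℤ) : ℂ := ⟨(v.1 : ℝ) - s.1 + 1 / 2, (v.2 : ℝ) - s.2 + 1 / 2⟩

theorem half_ne (a b : ℤ) : (a : ℝ) - b + 1 / 2 ≠ 0 := by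
  intro h
  have h1 : (2 * a - 2 * b + 1 : ℝ) = 0 := by linarith
  have h2 : (2 * a - 2 * b + 1 : ℤ) = 0 := by exact_mod_cast h1
  omega

theorem P_re_ne (s v : ℤ × ℤ) : (P s v).re ≠ 0 := half_ne _ _
theorem P_im_ne (s v : ℤ × ℤ) : (P s v).im ≠ 0 := half_ne _ _

theorem P_ne (s v : ℤ × ℤ) : P s v ≠ 0 := fun h => P_re_ne s v (by rw [h]; rfl)

theorem P_right (s v : ℤ × ℤ) : P s (v.1 + 1, v.2) = P s v + 1 := by
  apply Complex.ext <;> simp [P]
  ring

theorem P_up (s v : ℤ × ℤ) : P s (v.1, v.2 + 1) = P s v + Complex.I := by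
  apply Complex.ext <;> simp [P]
  ring

/-- The quotient of two points of a segment which does not contain `0` is in the slit plane. -/
theorem slit_right {w : ℂ} (h : w.im ≠ 0) : (w + 1) / w ∈ Complex.slitPlane := by
  have hw : w ≠ 0 := fun h0 => h (by rw [h0]; rfl)
  have hn : 0 < Complex.normSq w := Complex.normSq_pos.2 hw
  rw [Complex.mem_slitPlane_iff]
  right
  have : (w + 1) / w = 1 + 1 / w := by field_simp
  rw [this, Complex.add_im, Complex.one_im, zero_add, one_div, Complex.inv_im]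
  have h2 : -w.im / Complex.normSq w ≠ 0 := div_ne_zero (neg_ne_zero.2 h) hn.ne'
  exact h2

theorem slit_up {w : ℂ} (h : w.re ≠ 0) : (w + Complex.I) / w ∈ Complex.slitPlane := by
  have hw : w ≠ 0 := fun h0 => h (by rw [h0]; rfl)
  have hn : 0 < Complex.normSq w := Complex.normSq_pos.2 hw
  rw [Complex.mem_slitPlane_iff]
  right
  have : (w + Complex.I) / w = 1 + Complex.I * w⁻¹ := by field_simp
  rw [this, Complex.add_im, Complex.one_im, zero_add, Complex.I_mul_im, Complex.inv_re]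
  exact div_ne_zero h hn.ne'

/-- The increments of the logarithm along the horizontal and vertical segments. -/
noncomputable def fx (s v : ℤ × ℤ) : ℂ := Complex.log ((P s v + 1) / P s v)
noncomputable def fy (s v : ℤ × ℤ) : ℂ := Complex.log ((P s v + Complex.I) / P s v)

/-- The increment of the logarithm along a medial edge. -/
noncomputable def F (s : ℤ × ℤ) (e : Ed) : ℂ := Complex.log (P s (hdv e) / P s (tlv e))

theorem log_inv_slit {w : ℂ} (h : w ∈ Complex.slitPlane) : Complex.log w⁻¹ = -Complex.log w := by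
  refine Complex.log_inv _ fun h0 => ?_
  exact (Complex.mem_slitPlane_iff_arg.1 h).1 h0

theorem F_inl (s v : ℤ × ℤ) : F s (Sum.inl v) = ((sg (Sum.inl v) : ℤ) : ℂ) * fx s v := by
  unfold F fx
  simp only [hdv, tlv, sg]
  split_ifs with h
  · rw [P_right]; simp
  · have h1 := log_inv_slit (slit_right (P_im_ne s v))
    rw [inv_div] at h1
    rw [P_right, h1]
    simp

theorem F_inr (s v : ℤ × ℤ) : F s (Sum.inr v) = ((sg (Sum.inr v) : ℤ) : ℂ) * fy s v := by
  unfold F fy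
  simp only [hdv, tlv, sg]
  split_ifs with h
  · have h1 := log_inv_slit (slit_up (P_re_ne s v))
    rw [inv_div] at h1
    rw [P_up, h1]
    simp
  · rw [P_up]; simp

theorem log_quot {x y : ℂ} (hx : 0 < x.re) (hy : 0 < y.re) :
    Complex.log (y / x) = Complex.log y - Complex.log x := by
  have hx0 : x ≠ 0 := fun h => by rw [h] at hx; exact lt_irrefl _ hx
  have hy0 : y ≠ 0 := fun h => by rw [h] at hy; exact lt_irrefl _ hy
  have h1 : Complex.exp (Complex.log y - Complex.log x) = y / x := by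
    rw [Complex.exp_sub, Complex.exp_log hx0, Complex.exp_log hy0]
  have a1 := abs_lt.1 (Complex.abs_arg_lt_pi_div_two_iff.2 (Or.inl hx))
  have a2 := abs_lt.1 (Complex.abs_arg_lt_pi_div_two_iff.2 (Or.inl hy))
  rw [← h1, Complex.log_exp]
  · rw [Complex.sub_im, Complex.log_im, Complex.log_im]
    linarith [a1.1, a1.2, a2.1, a2.2]
  · rw [Complex.sub_im, Complex.log_im, Complex.log_im]
    linarith [a1.1, a1.2, a2.1, a2.2]

theorem int_half {a : ℤ} {e : ℝ} (he : e = 1 / 2 ∨ e = -1 / 2) :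
    0 ≤ (a : ℝ) * (a + e) ∧ (a ≠ 0 → 0 < (a : ℝ) * (a + e)) := by
  have key : ∀ b : ℤ, (b = 1 ∨ b = -1) → 0 ≤ a * (2 * a + b) ∧ (a ≠ 0 → 0 < a * (2 * a + b)) := by
    intro b hb
    rcases lt_trichotomy a 0 with h | h | h
    · have h2 : 2 * a + b < 0 := by omega
      exact ⟨(mul_pos_of_neg_of_neg h h2).le, fun _ => mul_pos_of_neg_of_neg h h2⟩
    · subst h
      simp
    · have h2 : 0 < 2 * a + b := by omega
      exact ⟨(mul_pos h h2).le, fun _ => mul_pos h h2⟩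
  rcases he with rfl | rfl
  · obtain ⟨h1, h2⟩ := key 1 (Or.inl rfl)
    have e1 : (a : ℝ) * (a + 1 / 2) = ((a * (2 * a + 1) : ℤ) : ℝ) / 2 := by push_cast; ring
    rw [e1]
    refine ⟨div_nonneg (by exact_mod_cast h1) (by norm_num), fun h => ?_⟩
    exact div_pos (by exact_mod_cast h2 h) (by norm_num)
  · obtain ⟨h1, h2⟩ := key (-1) (Or.inr rfl)
    have e1 : (a : ℝ) * (a + -1 / 2) = ((a * (2 * a + -1) : ℤ) : ℝ) / 2 := by push_cast; ring
    rw [e1]
    refine ⟨div_nonneg (by exact_mod_cast h1) (by norm_num), fun h => ?_⟩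
    exact div_pos (by exact_mod_cast h2 h) (by norm_num)

theorem re_pos {s t v : ℤ × ℤ} (h : t ≠ s) (h1 : v.1 = t.1 ∨ v.1 = t.1 - 1)
    (h2 : v.2 = t.2 ∨ v.2 = t.2 - 1) :
    0 < ((⟨(t.1 : ℝ) - s.1, -((t.2 : ℝ) - s.2)⟩ : ℂ) * P s v).re := by
  have e1 : ∃ e : ℝ, (e = 1 / 2 ∨ e = -1 / 2) ∧ (v.1 : ℝ) + 1 / 2 = t.1 + e := by
    rcases h1 with h1 | h1
    · exact ⟨1 / 2, Or.inl rfl, by rw [h1]⟩
    · exact ⟨-1 / 2, Or.inr rfl, by rw [h1]; push_cast; ring⟩
  have e2 : ∃ e : ℝ, (e = 1 / 2 ∨ e = -1 / 2) ∧ (v.2 : ℝ) + 1 / 2 = t.2 + e := by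
    rcases h2 with h2 | h2
    · exact ⟨1 / 2, Or.inl rfl, by rw [h2]⟩
    · exact ⟨-1 / 2, Or.inr rfl, by rw [h2]; push_cast; ring⟩
  obtain ⟨a, ha, ha'⟩ := e1
  obtain ⟨b, hb, hb'⟩ := e2
  obtain ⟨p1, p2⟩ := int_half (a := t.1 - s.1) ha
  obtain ⟨q1, q2⟩ := int_half (a := t.2 - s.2) hb
  have h3 : ((⟨(t.1 : ℝ) - s.1, -((t.2 : ℝ) - s.2)⟩ : ℂ) * P s v).re =
      ((t.1 - s.1 : ℤ) : ℝ) * (((t.1 - s.1 : ℤ) : ℝ) + a) +
      ((t.2 - s.2 : ℤ) : ℝ) * (((t.2 - s.2 : ℤ) : ℝ) + b) := by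
    simp only [P, Complex.mul_re]
    push_cast
    have g1 : (v.1 : ℝ) - s.1 + 1 / 2 = t.1 - s.1 + a := by linarith
    have g2 : (v.2 : ℝ) - s.2 + 1 / 2 = t.2 - s.2 + b := by linarith
    rw [g1, g2]
    ring
  rw [h3]
  by_cases h4 : t.1 = s.1
  · have h5 : t.2 - s.2 ≠ 0 := fun h6 => h (by ext <;> omega)
    linarith [q2 h5]
  · have h5 : t.1 - s.1 ≠ 0 := by omega
    linarith [p2 h5]

/-- **The sum of the logarithms around a cell.** -/
theorem cell (s t : ℤ × ℤ) : fx s (t.1 - 1, t.2 - 1) - fx s (t.1 - 1, t.2) + fy s (t.1, t.2 - 1) -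
    fy s (t.1 - 1, t.2 - 1) = if t = s then 2 * Real.pi * Complex.I else 0 := by
  have r1 : P s (t.1 - 1, t.2 - 1) + 1 = P s (t.1, t.2 - 1) := by
    rw [← P_right]; congr 1; ext <;> simp
  have r2 : P s (t.1 - 1, t.2) + 1 = P s t := by
    rw [← P_right]; congr 1; ext <;> simp
  have r3 : P s (t.1, t.2 - 1) + Complex.I = P s t := by
    rw [← P_up]; congr 1; ext <;> simp
  have r4 : P s (t.1 - 1, t.2 - 1) + Complex.I = P s (t.1 - 1, t.2) := by
    rw [← P_up]; congr 1; ext <;> simp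
  unfold fx fy
  rw [r1, r2, r3, r4]
  split_ifs with h
  · subst h
    have c1 : P t (t.1 - 1, t.2 - 1) = ⟨-1 / 2, -1 / 2⟩ := by
      apply Complex.ext <;> simp [P] <;> ring
    have c2 : P t (t.1, t.2 - 1) = ⟨1 / 2, -1 / 2⟩ := by
      apply Complex.ext <;> simp [P]
      ring
    have c3 : P t (t.1 - 1, t.2) = ⟨-1 / 2, 1 / 2⟩ := by
      apply Complex.ext <;> simp [P]
      ring
    have c4 : P t t = ⟨1 / 2, 1 / 2⟩ := by
      apply Complex.ext <;> simp [P]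
    have g : ∀ x y w : ℂ, y ≠ 0 → x = w * y → x / y = w := by
      intro x y w hy hx
      rw [hx, mul_div_assoc, div_self hy, mul_one]
    have d1 : P t (t.1, t.2 - 1) / P t (t.1 - 1, t.2 - 1) = Complex.I := by
      refine g _ _ _ (P_ne _ _) ?_
      rw [c1, c2]
      apply Complex.ext <;> simp <;> norm_num
    have d2 : P t t / P t (t.1 - 1, t.2) = -Complex.I := by
      refine g _ _ _ (P_ne _ _) ?_
      rw [c3, c4]
      apply Complex.ext <;> simp <;> norm_num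
    have d3 : P t t / P t (t.1, t.2 - 1) = Complex.I := by
      refine g _ _ _ (P_ne _ _) ?_
      rw [c2, c4]
      apply Complex.ext <;> simp <;> norm_num
    have d4 : P t (t.1 - 1, t.2) / P t (t.1 - 1, t.2 - 1) = -Complex.I := by
      refine g _ _ _ (P_ne _ _) ?_
      rw [c1, c3]
      apply Complex.ext <;> simp <;> norm_num
    rw [d1, d2, d3, d4, Complex.log_I, Complex.log_neg_I]
    ring
  · set d : ℂ := ⟨(t.1 : ℝ) - s.1, -((t.2 : ℝ) - s.2)⟩ with hd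
    have p1 := re_pos (v := (t.1 - 1, t.2 - 1)) h (Or.inr rfl) (Or.inr rfl)
    have p2 := re_pos (v := (t.1, t.2 - 1)) h (Or.inl rfl) (Or.inr rfl)
    have p3 := re_pos (v := (t.1 - 1, t.2)) h (Or.inr rfl) (Or.inl rfl)
    have p4 := re_pos (v := t) h (Or.inl rfl) (Or.inl rfl)
    rw [← hd] at p1 p2 p3 p4
    have hd0 : d ≠ 0 := fun h0 => by rw [h0, zero_mul] at p1; exact lt_irrefl _ p1
    have e : ∀ x y : ℂ, y / x = (d * y) / (d * x) := fun x y => (mul_div_mul_left y x hd0).symm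
    rw [e (P s (t.1 - 1, t.2 - 1)) (P s (t.1, t.2 - 1)), e (P s (t.1 - 1, t.2)) (P s t),
      e (P s (t.1, t.2 - 1)) (P s t), e (P s (t.1 - 1, t.2 - 1)) (P s (t.1 - 1, t.2)),
      log_quot p1 p2, log_quot p3 p4, log_quot p2 p4, log_quot p1 p3]
    ring

/-- **The sum of the logarithms along a loop is `2 π i` times its winding number.** -/
theorem loop_log {ω : Cfg} {ℓ : Finset Ed} (hl : IsLoop ω ℓ) (s : ℤ × ℤ) :
    ∑ e ∈ ℓ, F s e = 2 * Real.pi * Complex.I * (W ℓ s : ℂ) := by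
  classical
  -- a large box
  obtain ⟨M, hM⟩ : ∃ M : ℤ, ∀ v ∈ vs ℓ, -M ≤ v.1 ∧ v.1 ≤ M ∧ -M ≤ v.2 ∧ v.2 ≤ M := by
    refine ⟨∑ v ∈ vs ℓ, (|v.1| + |v.2|), fun v hv => ?_⟩
    have h1 := Finset.single_le_sum (f := fun v : ℤ × ℤ => |v.1| + |v.2|)
      (fun v _ => by positivity) hv
    have h2 := abs_nonneg v.1
    have h3 := abs_nonneg v.2
    have h4 := abs_le.1 (le_refl |v.1|)
    have h5 := abs_le.1 (le_refl |v.2|)
    omega
  have hout := s_out ω ℓ hl (-M) M (-M) M hM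
  set B : Finset (ℤ × ℤ) := Finset.Icc (-M - 2) (M + 2) ×ˢ Finset.Icc (-M - 2) (M + 2) with hB
  have hmB : ∀ v : ℤ × ℤ, v ∈ B ↔ (-M - 2 ≤ v.1 ∧ v.1 ≤ M + 2) ∧ -M - 2 ≤ v.2 ∧ v.2 ≤ M + 2 := by
    intro v
    rw [hB, Finset.mem_product, Finset.mem_Icc, Finset.mem_Icc]
  have hW : ∀ t : ℤ × ℤ, W ℓ t ≠ 0 → -M < t.1 ∧ t.1 ≤ M ∧ -M < t.2 ∧ t.2 ≤ M := fun t ht =>
    hout t ht
  -- the jump
  have hj : ∀ e : Ed, (if e ∈ ℓ then (1 : ℤ) else 0) = W ℓ (ls e) - W ℓ (rs e) := by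
    intro e
    have := s_jump ω ℓ hl e
    omega
  have hsub : ∀ e ∈ ℓ, e ∈ B.disjSum B := by
    intro e he
    have h1 := hM (hdv e) (Finset.mem_image_of_mem _ he)
    rcases e with v | v
    · rw [Finset.inl_mem_disjSum, hmB]
      simp only [hdv] at h1
      split_ifs at h1 <;> omega
    · rw [Finset.inr_mem_disjSum, hmB]
      simp only [hdv] at h1
      split_ifs at h1 <;> omega
  have e1 : ∑ e ∈ ℓ, F s e = ∑ e ∈ B.disjSum B, ((if e ∈ ℓ then (1 : ℤ) else 0 : ℤ) : ℂ) * F s e := by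
    rw [← Finset.sum_subset hsub (fun e _ he => by rw [if_neg he]; simp)]
    exact Finset.sum_congr rfl fun e he => by rw [if_pos he]; simp
  have e2 : ∀ v, ((if Sum.inl v ∈ ℓ then (1 : ℤ) else 0 : ℤ) : ℂ) * F s (Sum.inl v) =
      fx s v * (W ℓ (v.1 + 1, v.2 + 1) : ℂ) - fx s v * (W ℓ (v.1 + 1, v.2) : ℂ) := by
    intro v
    rw [F_inl, hj]
    simp only [ls, rs, sg]
    split_ifs <;> push_cast <;> ring
  have e3 : ∀ v, ((if Sum.inr v ∈ ℓ then (1 : ℤ) else 0 : ℤ) : ℂ) * F s (Sum.inr v) =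
      fy s v * (W ℓ (v.1, v.2 + 1) : ℂ) - fy s v * (W ℓ (v.1 + 1, v.2 + 1) : ℂ) := by
    intro v
    rw [F_inr, hj]
    simp only [ls, rs, sg]
    split_ifs <;> push_cast <;> ring
  -- shifts
  have shift : ∀ (f : ℤ × ℤ → ℂ) (a b : ℤ), 0 ≤ a → a ≤ 1 → 0 ≤ b → b ≤ 1 →
      ∑ v ∈ B, f v * (W ℓ (v.1 + a, v.2 + b) : ℂ) =
        ∑ᶠ t : ℤ × ℤ, f (t.1 - a, t.2 - b) * (W ℓ t : ℂ) := by
    intro f a b ha ha' hb hb'
    have h1 : ∑ v ∈ B, f v * (W ℓ (v.1 + a, v.2 + b) : ℂ) =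
        ∑ᶠ v : ℤ × ℤ, f v * (W ℓ (v.1 + a, v.2 + b) : ℂ) := by
      refine (finsum_eq_sum_of_support_subset _ ?_).symm
      intro v hv
      rw [Function.mem_support] at hv
      have h2 : W ℓ (v.1 + a, v.2 + b) ≠ 0 := fun h0 => hv (by rw [h0]; simp)
      have h3 := hW _ h2
      rw [Finset.mem_coe, hmB]
      simp only at h3
      omega
    rw [h1]
    have h2 := finsum_comp_equiv (Equiv.addRight ((a, b) : ℤ × ℤ))
      (f := fun t : ℤ × ℤ => f (t.1 - a, t.2 - b) * (W ℓ t : ℂ))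
    rw [← h2]
    refine finsum_congr fun v => ?_
    simp only [Equiv.coe_addRight, Prod.fst_add, Prod.snd_add, add_sub_cancel_right]
    rfl
  have hfin : ∀ g : ℤ × ℤ → ℂ, (Function.support fun t => g t * (W ℓ t : ℂ)).Finite := by
    intro g
    refine (Finset.finite_toSet B).subset fun t ht => ?_
    rw [Function.mem_support] at ht
    have h2 : W ℓ t ≠ 0 := fun h0 => ht (by rw [h0]; simp)
    have h3 := hW _ h2
    rw [Finset.mem_coe, hmB]
    omega
  rw [e1, Finset.sum_disjSum, Finset.sum_congr rfl fun v _ => e2 v,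
    Finset.sum_congr rfl fun v _ => e3 v, Finset.sum_sub_distrib, Finset.sum_sub_distrib]
  have s1 := shift (fx s) 1 1 (by norm_num) le_rfl (by norm_num) le_rfl
  have s2 := shift (fx s) 1 0 (by norm_num) le_rfl le_rfl (by norm_num)
  have s3 := shift (fy s) 0 1 le_rfl (by norm_num) (by norm_num) le_rfl
  have s4 := shift (fy s) 1 1 (by norm_num) le_rfl (by norm_num) le_rfl
  simp only [add_zero, sub_zero] at s2 s3
  rw [s1, s2, s3, s4, ← finsum_sub_distrib (hfin _) (hfin _),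
    ← finsum_sub_distrib (hfin _) (hfin _)]
  have g1 : (Function.support fun t : ℤ × ℤ => fx s (t.1 - 1, t.2 - 1) * (W ℓ t : ℂ) -
      fx s (t.1 - 1, t.2) * (W ℓ t : ℂ)).Finite := by
    refine (hfin fun t => fx s (t.1 - 1, t.2 - 1) - fx s (t.1 - 1, t.2)).subset fun t ht => ?_
    rw [Function.mem_support] at ht ⊢
    rwa [← sub_mul] at ht
  have g2 : (Function.support fun t : ℤ × ℤ => fy s (t.1, t.2 - 1) * (W ℓ t : ℂ) -
      fy s (t.1 - 1, t.2 - 1) * (W ℓ t : ℂ)).Finite := by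
    refine (hfin fun t => fy s (t.1, t.2 - 1) - fy s (t.1 - 1, t.2 - 1)).subset fun t ht => ?_
    rw [Function.mem_support] at ht ⊢
    rwa [← sub_mul] at ht
  rw [← finsum_add_distrib g1 g2]
  rw [finsum_eq_single _ s]
  · have := cell s s
    rw [if_pos rfl] at this
    linear_combination (W ℓ s : ℂ) * this
  · intro t ht
    have := cell s t
    rw [if_neg ht] at this
    linear_combination (W ℓ t : ℂ) * this

end Vale.Agent.P167.QC.S2
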