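import Vale.Agent.P167.QC.Ent

/-!
# P167, general `q`: an even and an odd corner of the boundary of a box are separated by a strand;
the third strand next to an arm
-/

set_option linter.unusedSimpArgs false

namespace Vale.Agent.P167.QC.Mid

open Finset
open Vale.Agent.P145.FB (PStep)
open Vale.Agent.P167.H166
open Vale.Agent.P167.H161
open Vale.Agent.P167.FKA (Cor)
open Relation

/-- The strand through an edge which leaves the box. -/
theorem exists_in {B : Finset (ℤ × ℤ)} {ω : Cfg} {e : Ed} (h1 : tlv e ∈ B) (h2 : hdv e ∉ B) :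
    ∃ (a : Ed) (n : ℕ), tlv a ∉ B ∧ (nx ω)^[n] a = e ∧ ∀ i < n, hdv ((nx ω)^[i] a) ∈ B := by
  classical
  choose g hg using (s_nx ω).2
  let f : ℕ → Ed := fun n => g^[n] e
  have hf : ∀ n, nx ω (f (n + 1)) = f n := by
    intro n
    show nx ω (g^[n + 1] e) = g^[n] e
    rw [Function.iterate_succ_apply']
    exact hg _
  have hfn : ∀ n m, (nx ω)^[n] (f (n + m)) = f m := by
    intro n
    induction n with
    | zero => intro m; rw [Nat.zero_add]; rfl
    | succ n ih =>
      intro m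
      rw [Function.iterate_succ_apply, show n + 1 + m = (n + m) + 1 by ring, hf, ih]
  have hhd : ∀ n, hdv (f (n + 1)) = tlv (f n) := by
    intro n
    rw [← hf n, tlv_nx]
  have hex : ∃ n, tlv (f n) ∉ B := by
    by_contra hno
    push Not at hno
    have hfin := touch_finite B
    obtain ⟨i, j, hij, hfij⟩ : ∃ i j : ℕ, i < j ∧ f i = f j := by
      have hni : ¬ Function.Injective f := by
        intro hinj
        exact (Set.infinite_range_of_injective hinj) (hfin.subset (by
          rintro _ ⟨n, rfl⟩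
          exact Or.inr (hno n)))
      unfold Function.Injective at hni
      push Not at hni
      obtain ⟨i, j, h3, h4⟩ := hni
      rcases lt_or_gt_of_ne h4 with h5 | h5
      · exact ⟨i, j, h5, h3⟩
      · exact ⟨j, i, h5, h3.symm⟩
    have h3 := hfn i 0
    have h4 := hfn i (j - i)
    rw [Nat.add_zero] at h3
    rw [show i + (j - i) = j by omega, ← hfij, h3] at h4
    apply h2
    have h5 : e = f (j - i - 1 + 1) := by
      rw [show j - i - 1 + 1 = j - i by omega]
      exact h4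
    rw [h5, hhd]
    exact hno _
  have hsp := Nat.find_spec hex
  have hmin := fun {m} => Nat.find_min (m := m) hex
  set n := Nat.find hex
  refine ⟨f n, n, hsp, hfn n 0, fun i hi => ?_⟩
  have h3 : (nx ω)^[i] (f n) = f (n - i) := by
    have := hfn i (n - i)
    rwa [show i + (n - i) = n by omega] at this
  rw [h3, show n - i = (n - i - 1) + 1 by omega, hhd]
  have := hmin (m := n - i - 1) (by omega)
  exact not_not.1 this

/-- The strand of an entrance edge. -/
theorem exists_Str {z : ℤ × ℤ} {R : ℤ} {ω : Cfg} {e : Ed} (h1 : tlv e ∉ FK.Bq z R)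
    (h2 : hdv e ∈ FK.Bq z R) : ∃ N, Str z R ω e N := by
  classical
  have hex := ent_exit (ω := ω) h1
  refine ⟨Nat.find hex, h1, fun i hi => not_not.1 (Nat.find_min hex hi), Nat.find_spec hex, ?_⟩
  by_contra h0
  have h3 : Nat.find hex = 0 := by omega
  have h4 := Nat.find_spec hex
  rw [h3] at h4
  exact h4 h2

/-- **An even and an odd corner of the boundary of a box are separated by a strand.** -/
theorem bd_sep {z : ℤ × ℤ} {R : ℤ} (ω : Cfg) {k k' : ℤ} (h0 : 0 ≤ k) (h1 : k ≤ 8 * R)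
    (h0' : 0 ≤ k') (h1' : k' ≤ 8 * R) (hk : ((bc z R k).1 + (bc z R k).2) % 2 = 0)
    (hk' : ((bc z R k').1 + (bc z R k').2) % 2 = 1) :
    ∃ (e : Ed) (N : ℕ) (w : ℤ × ℤ → ℤ), Str z R ω e N ∧ PotX z R (Arc (FK.Bq z R) ω e) w ∧
      w (bc z R k) ≠ w (bc z R k') := by
  classical
  set E : Finset Ed := (touch_finite (FK.Bq z R)).toFinset.filter
    (fun e => hdv e ∈ FK.Bq z R ∧ tlv e ∉ FK.Bq z R) with hE
  have hmE : ∀ e, e ∈ E ↔ hdv e ∈ FK.Bq z R ∧ tlv e ∉ FK.Bq z R := by
    intro e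
    rw [hE, Finset.mem_filter, Set.Finite.mem_toFinset]
    exact ⟨fun h => h.2, fun h => ⟨Or.inl h.1, h⟩⟩
  choose w hw using fun e : Ed => exists_PotX (Arc.inv (FK.Bq z R) ω e)
  by_contra hcon
  push Not at hcon
  have hall : ∀ e ∈ E, w e (bc z R k) = w e (bc z R k') := by
    intro e he
    obtain ⟨g1, g2⟩ := (hmE e).1 he
    obtain ⟨N, hN⟩ := exists_Str (ω := ω) g2 g1
    exact hcon e N (w e) hN (hw e)
  set Φ : ℤ × ℤ → ℤ := fun s => ∑ e ∈ E, w e s with hΦ
  -- the jump of the sum at the boundary edges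
  have hjump : ∀ a : Ed, ((hdv a ∈ FK.Bq z R ∧ tlv a ∉ FK.Bq z R) ∨
      (tlv a ∈ FK.Bq z R ∧ hdv a ∉ FK.Bq z R)) → Φ (ls a) = Φ (rs a) + 1 := by
    intro a ha
    obtain ⟨b, hb, hba, huniq⟩ : ∃ b ∈ E, a ∈ Arc (FK.Bq z R) ω b ∧
        ∀ b' ∈ E, a ∈ Arc (FK.Bq z R) ω b' → b' = b := by
      have hun : ∀ b ∈ E, ∀ b' ∈ E, a ∈ Arc (FK.Bq z R) ω b → a ∈ Arc (FK.Bq z R) ω b' →
          b' = b := fun b hb b' hb' h3 h4 =>
        arc_ent ((hmE b).1 hb).2 ((hmE b').1 hb').2 (Arc.trans h3 (Arc.symm h4))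
      rcases ha with ha | ha
      · exact ⟨a, (hmE a).2 ha, self_mem_Arc _ _ _, fun b' hb' h3 =>
          hun a ((hmE a).2 ha) b' hb' (self_mem_Arc _ _ _) h3⟩
      · obtain ⟨b, n, g1, g2, g3⟩ := exists_in (ω := ω) ha.1 ha.2
        have hn : 0 < n := by
          rcases Nat.eq_zero_or_pos n with rfl | hn
          · exfalso
            apply g1
            rw [show b = a from g2]
            exact ha.1
          · exact hn
        have hbE : b ∈ E := (hmE b).2 ⟨g3 0 hn, g1⟩
        have hba : a ∈ Arc (FK.Bq z R) ω b := Or.inl ⟨n, g2, g3⟩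
        exact ⟨b, hbE, hba, fun b' hb' h3 => hun b hbE b' hb' hba h3⟩
    have hta : hdv a ∈ FK.Bq z R ∨ tlv a ∈ FK.Bq z R :=
      ha.elim (fun h => Or.inl h.1) fun h => Or.inr h.1
    have h3 : Φ (ls a) - Φ (rs a) = ∑ e ∈ E, (if e = b then 1 else 0) := by
      simp only [hΦ]
      rw [← Finset.sum_sub_distrib]
      refine Finset.sum_congr rfl fun e he => ?_
      by_cases heb : e = b
      · rw [if_pos heb, heb, ((hw b) a hta).1 hba]
        ring
      · rw [if_neg heb, ((hw e) a hta).2 fun h => heb (huniq e he h)]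
        ring
    rw [Finset.sum_ite_eq', if_pos hb] at h3
    linarith
  have hform : ∀ j : ℤ, 0 ≤ j → j ≤ 8 * R →
      Φ (bc z R j) - (1 - ((bc z R j).1 + (bc z R j).2) % 2) =
        Φ (bc z R 0) - (1 - ((bc z R 0).1 + (bc z R 0).2) % 2) := by
    intro j hj
    induction j, hj using Int.leInduction with
    | base => intro _; rfl
    | succ j hj ih =>
      intro hj1
      rw [← ih (by omega)]
      have hb := be_cases (z := z) hj (show j < 8 * R by omega)
      obtain ⟨-, -, -, -, c5, c6⟩ := corner (be z R j)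
      have hJ := hjump (be z R j) (hb.imp (fun x => ⟨x.1, x.2.1⟩) fun x => ⟨x.1, x.2.1⟩)
      rcases hb with ⟨-, -, g3, g4⟩ | ⟨-, -, g3, g4⟩ <;>
      · rw [g3, g4] at hJ
        rw [g3] at c5
        rw [g4] at c6
        omega
  have e1 := hform k h0 h1
  have e2 := hform k' h0' h1'
  have e3 : Φ (bc z R k) = Φ (bc z R k') := Finset.sum_congr rfl hall
  omega

/-- Along a strand a potential of another strand is constant. -/
theorem potx_it {z : ℤ × ℤ} {R : ℤ} {ω : Cfg} {A : Set Ed} {w : ℤ × ℤ → ℤ} (hw : PotX z R A w)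
    (hi : H166.Inv (FK.Bq z R : Set (ℤ × ℤ)) ω A) (b : Bool) {e : Ed} {q : ℕ}
    (h : ∀ l < q, hdv ((nx ω)^[l] e) ∈ FK.Bq z R) :
    w (sd b ((nx ω)^[q] e)) = w (sd b e) := by
  have := hw.fw hi (e := e) ⟨q, rfl, h⟩
  cases b
  · exact this.2
  · exact this.1

/-- **The third strand.** An arm of the colour `!c` which starts near the bank of the colour `c` of
the strand `em` and reaches the boundary of the box on that side: another strand on that side of
`em` visits the small box. -/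
theorem third {z : ℤ × ℤ} {R : ℤ} {ω : Cfg} {em : Ed} {Nm : ℕ} (hm : Str z R ω em Nm)
    {w : ℤ × ℤ → ℤ} (hw : PotX z R (Arc (FK.Bq z R) ω em) w) {c : Bool} {x : ℤ × ℤ} {ρ : ℤ}
    (hxB : FK.Bq x ρ ⊆ FK.Bq z R) {u : ℤ × ℤ} (hu : nm (u - x) ≤ ρ) {k : ℤ} (hk0 : 0 ≤ k)
    (hk1 : k ≤ 8 * R) (hcon : Conn z R ω u (bc z R k))
    (hpar : ((bc z R k).1 + (bc z R k).2) % 2 = par (!c)) (hside : w u = w (sd c em)) {i : ℕ}
    (hi : i ≤ Nm) (hnear : nm (sd c ((nx ω)^[i] em) - x) ≤ ρ) :
    ∃ (es : Ed) (Ns : ℕ) (ws : ℤ × ℤ → ℤ), Str z R ω es Ns ∧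
      PotX z R (Arc (FK.Bq z R) ω es) ws ∧ es ≠ em ∧ w (ls es) = w (sd c em) ∧
      ∃ i < Ns, hdv ((nx ω)^[i] es) ∈ FK.Bq x ρ := by
  classical
  have hinvm := Arc.inv (FK.Bq z R) ω em
  obtain ⟨km, m0, m1, m2⟩ := be_surj (z := z) (R := R) (e := em) (Or.inl ⟨hm.b 0 hm.pos, hm.t⟩)
  have b3 := be_cases (z := z) m0 m1
  rw [m2] at b3
  replace b3 := b3.resolve_right fun h => h.2.1 (hm.b 0 hm.pos)
  obtain ⟨-, -, -, -, c5, c6⟩ := corner em
  -- the corner of the bank on the boundary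
  obtain ⟨kl, kl0, kl1, hkl, hklv⟩ : ∃ kl, 0 ≤ kl ∧ kl ≤ 8 * R ∧ bc z R kl = sd c em ∧
      (kl = if c then km else km + 1) := by
    cases c
    · exact ⟨km + 1, by omega, by omega, b3.2.2.2.symm, by simp⟩
    · exact ⟨km, m0, by omega, b3.2.2.1.symm, by simp⟩
  have hparl : ((bc z R kl).1 + (bc z R kl).2) % 2 = par c := by
    rw [hkl]
    exact sd_par c em
  obtain ⟨es, Ns, ws, hs, hws, hsep⟩ : ∃ (e : Ed) (N : ℕ) (w : ℤ × ℤ → ℤ), Str z R ω e N ∧
      PotX z R (Arc (FK.Bq z R) ω e) w ∧ w (sd c em) ≠ w (bc z R k) := by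
    cases c
    · obtain ⟨e, N, w, g1, g2, g3⟩ := bd_sep ω hk0 hk1 kl0 kl1 hpar hparl
      refine ⟨e, N, w, g1, g2, ?_⟩
      rw [← hkl]
      exact g3.symm
    · obtain ⟨e, N, w, g1, g2, g3⟩ := bd_sep ω kl0 kl1 hk0 hk1 hparl hpar
      refine ⟨e, N, w, g1, g2, ?_⟩
      rw [← hkl]
      exact g3
  have hinvs := Arc.inv (FK.Bq z R) ω es
  have hwk : w (bc z R k) = w (sd c em) := by
    rw [← hside]
    exact (hw.conn hinvm hcon).symm
  have hne : es ≠ em := by
    rintro rfl
    -- both are potentials of the same set: compare along the boundary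
    have hb1 := hs.bdy hws
    have hb2 := hm.bdy hw
    obtain ⟨kn, n0, n1, n2⟩ := be_surj (z := z) (R := R) (Or.inr hb2.he')
    have hNs : (nx ω)^[Ns] es = (nx ω)^[Nm] es := by
      have h1 : Ns ≤ Nm := by
        by_contra h
        exact hm.x (hs.b Nm (by omega))
      have h2 : Nm ≤ Ns := by
        by_contra h
        exact hs.x (hm.b Ns (by omega))
      rw [le_antisymm h1 h2]
    rw [hNs] at hb1
    have f1 := hb1.form m0 m1 m2 n0 n1 n2 hk0 hk1
    have f2 := hb1.form m0 m1 m2 n0 n1 n2 kl0 kl1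
    have f3 := hb2.form m0 m1 m2 n0 n1 n2 hk0 hk1
    have f4 := hb2.form m0 m1 m2 n0 n1 n2 kl0 kl1
    rw [hkl] at f2 f4
    apply hsep
    rw [f1, f2]
    rw [f3, f4] at hwk
    linarith
  have hsm : ws (ls em) = ws (rs em) := by
    refine (hws em (Or.inl (hm.b 0 hm.pos))).2 fun h => hne ?_
    exact (arc_ent hs.t hm.t h).symm
  have hms : w (ls es) = w (rs es) := by
    refine (hw es (Or.inl (hs.b 0 hs.pos))).2 fun h => hne ?_
    exact arc_ent hm.t hs.t h
  refine ⟨es, Ns, ws, hs, hws, hne, ?_, ?_⟩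
  · -- the side
    by_contra hcon2
    have hb1 := hs.bdy hws
    have hb2 := hm.bdy hw
    obtain ⟨kn, n0, n1, n2⟩ := be_surj (z := z) (R := R) (Or.inr hb2.he')
    obtain ⟨ks, s0, s1, s2⟩ := be_surj (z := z) (R := R) (Or.inl hb1.he)
    obtain ⟨kt, t0, t1, t2⟩ := be_surj (z := z) (R := R) (Or.inr hb1.he')
    have b1 := be_cases (z := z) s0 s1
    have b2 := be_cases (z := z) t0 t1
    have b4 := be_cases (z := z) n0 n1
    rw [s2] at b1
    rw [t2] at b2
    rw [n2] at b4
    replace b1 := b1.resolve_right fun h => h.2.1 hb1.he.1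
    replace b2 := b2.resolve_left fun h => hb1.he'.2 h.1
    replace b4 := b4.resolve_left fun h => hb2.he'.2 h.1
    have hwt : w (ls ((nx ω)^[Ns] es)) = w (ls es) := potx_it hw hinvm true hs.b
    have d1 : ks ≠ km := by rintro rfl; exact hne (s2.symm.trans m2)
    have d2 : kt ≠ kn := by
      rintro rfl
      have h3 : (nx ω)^[Ns] es = (nx ω)^[Nm] em := t2.symm.trans n2
      exact hne (inj_in hs.t hs.b hm.t hm.b h3).2
    have d3 : ks ≠ kn := by
      rintro rfl
      have := b4.2.1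
      rw [← n2, s2] at this
      exact this b1.1
    have d4 : km ≠ kt := by
      rintro rfl
      have := b2.2.1
      rw [← t2, m2] at this
      exact this b3.1
    have F := fun j h0 h1 => hb1.form s0 s1 s2 t0 t1 t2 (k := j) h0 h1
    have G := fun j h0 h1 => hb2.form m0 m1 m2 n0 n1 n2 (k := j) h0 h1
    have F1 := F k hk0 hk1
    have F2 := F kl kl0 kl1
    have G1 := G k hk0 hk1
    have G2 := G kl kl0 kl1
    have G3 := G ks s0 s1.le
    have G4 := G (kt + 1) (by omega) (by omega)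
    rw [← b1.2.2.1] at G3
    rw [← b2.2.2.1, hwt] at G4
    rw [hkl] at F2 G2
    have hkl' : kl = km ∨ kl = km + 1 := by
      cases c
      · right; simpa using hklv
      · left; simpa using hklv
    -- now arithmetic
    generalize w (ls es) = A1 at G3 G4 hcon2
    generalize w (sd c em) = A2 at G2 hwk hcon2
    generalize ws (sd c em) = A3 at F2 hsep
    generalize w (bc z R k) = A4 at G1 hwk
    generalize ws (bc z R k) = A5 at F1 hsep
    generalize w (bc z R 0) = A6 at G1 G2 G3 G4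
    generalize ws (bc z R 0) = A7 at F1 F2
    clear b1 b2 b3 b4 hb1 hb2 F G hwt
    have key : ∀ p j : ℤ, ∃ δ : ℤ, (if p < j then (1 : ℤ) else 0) = δ ∧
        ((p < j ∧ δ = 1) ∨ (j ≤ p ∧ δ = 0)) := by
      intro p j
      by_cases h : p < j
      · exact ⟨1, if_pos h, Or.inl ⟨h, rfl⟩⟩
      · exact ⟨0, if_neg h, Or.inr ⟨not_lt.1 h, rfl⟩⟩
    obtain ⟨x1, y1, z1⟩ := key ks k
    obtain ⟨x2, y2, z2⟩ := key kt k
    obtain ⟨x3, y3, z3⟩ := key ks kl
    obtain ⟨x4, y4, z4⟩ := key kt kl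
    obtain ⟨x5, y5, z5⟩ := key km k
    obtain ⟨x6, y6, z6⟩ := key kn k
    obtain ⟨x7, y7, z7⟩ := key km kl
    obtain ⟨x8, y8, z8⟩ := key kn kl
    obtain ⟨x9, y9, z9⟩ := key km ks
    obtain ⟨v1, v2, v3⟩ := key kn ks
    obtain ⟨v4, v5, v6⟩ := key km (kt + 1)
    obtain ⟨v7, v8, v9⟩ := key kn (kt + 1)
    rw [y1, y2] at F1
    rw [y3, y4] at F2
    rw [y5, y6] at G1
    rw [y7, y8] at G2
    rw [y9, v2] at G3
    rw [v5, v8] at G4
    clear y1 y2 y3 y4 y5 y6 y7 y8 y9 v2 v5 v8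
    omega
  · -- the visit
    by_contra hno
    push Not at hno
    have hcst : ∀ e : Ed, (hdv e ∈ FK.Bq x ρ ∨ tlv e ∈ FK.Bq x ρ) → ws (ls e) = ws (rs e) := by
      intro e he
      refine (hws e (he.imp (fun h => hxB h) fun h => hxB h)).2 fun h => ?_
      obtain ⟨l, hl, hel⟩ := hs.mem_arc.1 h
      rcases he with he | he
      · rcases Nat.lt_or_ge l Ns with h2 | h2
        · exact hno l h2 (by rw [hel]; exact he)
        · apply hs.x
          rw [show Ns = l by omega, hel]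
          exact hxB he
      · rcases Nat.eq_zero_or_pos l with rfl | h2
        · apply hs.t
          rw [show es = e from hel]
          exact hxB he
        · rw [← hel, tlv_it ω es h2] at he
          exact hno (l - 1) (by omega) he
    have h1 : ws (sd c ((nx ω)^[i] em)) = ws u := box_const hcst hnear hu
    have h2 : ws (sd c ((nx ω)^[i] em)) = ws (sd c em) :=
      potx_it hws hinvs c fun l hl => hm.b l (by omega)
    have h3 : ws u = ws (bc z R k) := hws.conn hinvs hcon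
    exact hsep (by rw [← h2, h1, h3])

end Vale.Agent.P167.QC.Mid
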