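import Vale.Agent.P167.QC.RetLat
import Vale.Agent.P167.QC.Mid4

/-!
# P167, general `q`: the interface does not come near a given interior point
-/

namespace Vale.Agent.P167.QC

open Vale.Agent.P145.FB (PStep)
open Vale.Agent.P167.E6 Vale.Agent.P167.E2
open Vale.Agent.P167.H166 Vale.Agent.P167.H161
open Vale.Agent.P167.FKA (Cor rest mem_rest Pr_mono Ex_mono Ex_congr Ex_const ind_nonneg)
open Vale.Agent.P167.FK (Good RSW Pr Ex)
open Vale.Agent.P167.H718 (Dq wE etaQ mem_Dq' mem_wE mem_wiredOpen good_etaQ)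
open Vale.Agent.P167.QN (Ann mem_Ann FreshP FreshD)

variable {n : ℕ} {p : ZMod n → ℤ × ℤ} {S : Finset (ℤ × ℤ)} {k : ℕ}

/-- A visit of a small box gives a crossing of the annulus by each bank of the interface. -/
theorem vis_cross {x : ℤ × ℤ} {r R : ℤ} {ω : Cfg} {e : Ed} {t : ℕ}
    (h0 : tlv e ∉ FK.Bq x R) (ht : hdv ((nx ω)^[t] e) ∈ FK.Bq x r) (b : Bool) :
    ∃ s u : ℤ × ℤ, (s.1 + s.2) % 2 = par b ∧ nm (s - x) ≤ r ∧ R ≤ nm (u - x) ∧
      Relation.ReflTransGen (PStep {v | v ∈ Ann x r R ∧ ω v = b}) s u := by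
  obtain ⟨i, j, g1, g2, g3, g4, g5, g6⟩ := Mid.exists_seg ω e
    (S := ((FK.Bq x R : Finset (ℤ × ℤ)) : Set (ℤ × ℤ))ᶜ) (T := (FK.Bq x r : Finset (ℤ × ℤ)))
    (Nat.zero_le t) (fun hn => h0 (Finset.mem_coe.1 hn)) (Finset.mem_coe.2 ht)
  have hpath := Mid.bank_path b (ω := ω) (e := e) (F := (Ann x r R : Finset (ℤ × ℤ))) g2
    fun l h1 h2 => by
      obtain ⟨g7, g8⟩ := g6 l h1 h2
      rw [Finset.mem_coe, mem_Ann]
      exact ⟨by
        by_contra hn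
        exact g7 fun h => hn (Finset.mem_coe.1 h), fun hn => g8 (Finset.mem_coe.2 hn)⟩
  exact ⟨_, _, sd_par b _, Mid.cor_in (Finset.mem_coe.1 g5) (sd_cor b _),
    Mid.cor_out (fun hn => g4 (Finset.mem_coe.2 hn)) (Mid.sd_cor_tl b _), Mid.rtg_symm hpath⟩

/-- The interface visits the box of radius `r` around `x`. -/
def Vis (p : ZMod n → ℤ × ℤ) (k : ℕ) (x : ℤ × ℤ) (r : ℤ) (A : Finset (Sym2 (ℤ × ℤ))) : Prop :=
  ∃ t : ℕ, t < len p k A ∧ hdv (H192.me (run p k A t)) ∈ FK.Bq x r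

open Classical in
/-- **The interface does not come near a given interior point**, `1 ≤ q ≤ 4`. -/
theorem vis_tail {q : ℝ} (h1 : 1 ≤ q) (h4 : q ≤ 4) : ∃ α C : ℝ, 0 < α ∧ 0 < C ∧
    ∀ (n : ℕ) (p : ZMod n → ℤ × ℤ) (S : Finset (ℤ × ℤ)) (k : ℕ),
    IsPolygon p → Encloses p S → 0 < k → k < n →
    ∀ (x : ℤ × ℤ) (r R : ℤ), 1 ≤ r → r ≤ R → (∀ v ∈ FK.Bq x R, v ∈ Dq S p k) →
      R + 2 < nm (H192.ro (p 0) - x) →
      Final.mean q p k S (fun A => if Vis p k x r A then 1 else 0) ≤ C * ((r : ℝ) / R) ^ α := by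
  obtain ⟨hs1, hrsw⟩ := rsw_sqrt h1 h4
  have hQ0 : (0 : ℝ) < √q := by linarith
  have hq0 : 0 < q := by linarith
  obtain ⟨α, C, hα, hC, hdec, -⟩ := FKA.arm_fk hs1 hrsw
  refine ⟨α, √q ^ 2 * C, hα, by positivity, fun n p S k hp hS h0 hk x r R hr hrR hD ha => ?_⟩
  have key := QN.fresh_primal hs1 hdec (x := x) hr hrR (Dq S p k) (good_etaQ (p := p) (k := k))
  rw [← mul_assoc] at key
  refine le_trans ?_ key
  refine mean_le_Pr (k := k) hq0 hp hS (Vis p k x r) _ fun A hA hE => ?_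
  obtain ⟨t, -, ht⟩ := hE
  have hfst : tlv (H192.me (cs p)) ∉ FK.Bq x R := by
    have h3 := first_near hp
    intro hn
    have h5 : nm (hdv (H192.me (cs p)) - tlv (H192.me (cs p))) ≤ 1 := by
      rcases H192.me (cs p) with ⟨a, b⟩ | ⟨a, b⟩ <;> by_cases hpar : Even (a + b) <;>
        simp only [hdv, tlv, hpar, if_true, if_false, nm, Prod.fst_sub, Prod.snd_sub,
          max_le_iff, abs_le] <;> omega
    rw [mem_Bq] at hn
    simp only [nm, Prod.fst_sub, Prod.snd_sub, max_le_iff, abs_le, lt_max_iff, lt_abs] at h3 h5 ha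
    omega
  have ht' : hdv ((nx (om p k A))^[t] (H192.me (cs p))) ∈ FK.Bq x r := by
    rw [run_om]
    exact ht
  obtain ⟨s, u, g1, g2, g3, g4⟩ := vis_cross hfst ht' true
  refine ⟨s, u, by rw [Int.even_iff]; exact g1, g2, g3, g4, fun v hv _ _ _ _ _ => ?_⟩
  exact hD v (mem_Ann.1 hv).1

end Vale.Agent.P167.QC
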